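import Vale.Agent.P286.R2.H505.Alpha

/-!
# Acyclicity at bundles with a nontrivial splitting
-/

namespace Vale.Agent.P286.R2.H505

open CategoryTheory LaurentPolynomial Matrix

noncomputable section

variable {Γ : TG} {Z : Cen Γ}

theorem vtoep_mul3_pos {B : Type} [CommRing B] {n : ℕ} {X Y W : Matrix (Fin n) (Fin n) B[T;T⁻¹]}
    (hX : MGE 0 X) (hY : MGE 0 Y) : vtoep (X * Y * W) = vtoep X * vtoep Y * vtoep W := by
  rw [vtoep_pos_mul (hX.mul0 hY), vtoep_pos_mul hX]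

theorem vtoep_mul3_neg {B : Type} [CommRing B] {n : ℕ} (X : Matrix (Fin n) (Fin n) B[T;T⁻¹])
    {Y W : Matrix (Fin n) (Fin n) B[T;T⁻¹]} (hY : MLE 0 Y) (hW : MLE 0 W) :
    vtoep (X * Y * W) = vtoep X * vtoep Y * vtoep W := by
  rw [vtoep_mul_neg _ hW, vtoep_mul_neg _ hY]

/-- The Toeplitz operator of the one-parameter group, as a unit. -/
def tauU (B : Type) [CommRing B] {n : ℕ} (mu : Fin n → ℤ) :
    (Module.End B[T;T⁻¹] (Jd n →₀ B[T;T⁻¹]))ˣ :=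
  posU (tau B mu) (tau B (-mu)) (MGE.diagC _) (MGE.diagC _) (tau_mul_neg B mu)

theorem tauU_val (B : Type) [CommRing B] {n : ℕ} (mu : Fin n → ℤ) :
    ((tauU B mu : (Module.End B[T;T⁻¹] (Jd n →₀ B[T;T⁻¹]))ˣ) :
      Module.End B[T;T⁻¹] (Jd n →₀ B[T;T⁻¹])) = diagOp fun i : Jd n => (T (mu i.2) : B[T;T⁻¹]) :=
  vtoep_tau B mu

theorem tauU_inv (B : Type) [CommRing B] {n : ℕ} (mu : Fin n → ℤ) :
    (((tauU B mu)⁻¹ : (Module.End B[T;T⁻¹] (Jd n →₀ B[T;T⁻¹]))ˣ) :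
      Module.End B[T;T⁻¹] (Jd n →₀ B[T;T⁻¹])) = diagOp fun i : Jd n => (T (-mu i.2) : B[T;T⁻¹]) :=
  vtoep_tau B (-mu)

theorem ring_aux {R : Type} [Ring R] (x s t y : R) : x * s * y - x * t * y = x * (s - t) * y := by
  rw [mul_sub, sub_mul]

/-- the three factors -/
theorem conj_of_comm {n : ℕ} {R : Type} [CommRing R] {P E E' D : Matrix (Fin n) (Fin n) R}
    (h : P * E = E * D) (hE : E * E' = 1) : P = E * D * E' := by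
  rw [← h, Matrix.mul_assoc, hE, Matrix.mul_one]

theorem MGE.tau {B : Type} [CommRing B] {n : ℕ} (mu : Fin n → ℤ) : MGE 0 (tau B mu) :=
  MGE.diagC fun i => T (mu i)

theorem MLE.tau {B : Type} [CommRing B] {n : ℕ} (mu : Fin n → ℤ) : MLE 0 (tau B mu) :=
  MLE.diagC fun i => T (mu i)

/-- conjugation of the weight -/
theorem fdet_aux {I : Type} {B : Type} [CommRing B]
    (uX uY S t P Q : (Module.End B (I →₀ B))ˣ) (hA : P = uX * t * uX⁻¹)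
    (hB : Q = uY * t * uY⁻¹)
    (hfr : FinRank (((P * S * Q⁻¹ * S⁻¹ : (Module.End B (I →₀ B))ˣ) : Module.End B (I →₀ B)) - 1)) :
    fdet ((P * S * Q⁻¹ * S⁻¹ : (Module.End B (I →₀ B))ˣ) : Module.End B (I →₀ B)) =
      fdet ((t * (uX⁻¹ * S * uY) * t⁻¹ * (uX⁻¹ * S * uY)⁻¹ : (Module.End B (I →₀ B))ˣ) :
        Module.End B (I →₀ B)) := by
  have hkey : t * (uX⁻¹ * S * uY) * t⁻¹ * (uX⁻¹ * S * uY)⁻¹ =
      uX⁻¹ * (P * S * Q⁻¹ * S⁻¹) * uX⁻¹⁻¹ := by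
    rw [hA, hB]
    group
  rw [hkey]
  exact (fdet_conj uX⁻¹ hfr).symm

/-- the framing of the split bundle -/
theorem finRank_split {B : Type} [CommRing B] {g : Γ.Gr B[T;T⁻¹]}
    {S : (Module.End B (Jd Γ.d →₀ B))ˣ} (hS : IsFraming Z.m g S)
    {lam : Fin Γ.d → ℤ} {E E' F F' : Matrix (Fin Γ.d) (Fin Γ.d) B[T;T⁻¹]}
    {x0 x1 : Fin Γ.d → B[T;T⁻¹]} (h : SD Γ (AdZ Z.m g) lam E E' F F' x0 x1) :
    FinRank ((((posU E E' h.hE h.hE' h.EE')⁻¹ * S * negU F F' h.hF h.hF' h.FF' :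
      (Module.End B (Jd Γ.d →₀ B))ˣ) : Module.End B (Jd Γ.d →₀ B)) - vtoep (mono lam)) := by
  have h1 : (mono lam : Matrix (Fin Γ.d) (Fin Γ.d) B[T;T⁻¹]) =
      E' * (AdZ Z.m g * F) := by
    rw [h.glue, ← Matrix.mul_assoc, mul_eq_one_comm.1 h.EE', Matrix.one_mul]
  have h2 : (((posU E E' h.hE h.hE' h.EE')⁻¹ * S * negU F F' h.hF h.hF' h.FF' :
      (Module.End B (Jd Γ.d →₀ B))ˣ) : Module.End B (Jd Γ.d →₀ B)) - vtoep (mono lam) =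
      vtoep E' * ((S : Module.End B (Jd Γ.d →₀ B)) - toep Z.m g) *
        vtoep F := by
    rw [h1, vtoep_pos_mul h.hE', vtoep_mul_neg _ h.hF, ← toep_def, ← mul_assoc]
    exact ring_aux (vtoep E') (S : Module.End B (Jd Γ.d →₀ B))
      (toep Z.m g) (vtoep F)
  rw [h2]
  exact (FinRank.mul_left hS _).mul_right _

/-- The action of the one-parameter group on `𝔤 ⊗ B[z⁻¹]`. -/
theorem toepPos_eq {B : Type} [CommRing B] [RatAlg B] {lam : Fin Γ.d → ℤ}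
    {E E' : Matrix (Fin Γ.d) (Fin Γ.d) B[T;T⁻¹]} (hE : MGE 0 E) (hE' : MGE 0 E') (hEE : E * E' = 1)
    {c : ℤ} {a : Γ.Gr (Polynomial B[T;T⁻¹])} {α : Γ.Gr B[T;T⁻¹][T;T⁻¹]}
    (ha : pos Γ Z.m B[T;T⁻¹] a = gm Γ (pw Z.m B[T;T⁻¹]) α)
    (h : Ad α * mp (LaurentPolynomial.C : B →+* B[T;T⁻¹]) E =
      mp (LaurentPolynomial.C : B →+* B[T;T⁻¹]) E * tau B (fun i => c * lam i)) :
    toepPos Γ Z.m B[T;T⁻¹] a = bcU Γ (LaurentPolynomial.C : B →+* B[T;T⁻¹]) (posU E E' hE hE' hEE) *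
      tauU B (fun i => c * lam i) *
        (bcU Γ (LaurentPolynomial.C : B →+* B[T;T⁻¹]) (posU E E' hE hE' hEE))⁻¹ := by
  have hE1 : mp (LaurentPolynomial.C : B →+* B[T;T⁻¹]) E *
      mp (LaurentPolynomial.C : B →+* B[T;T⁻¹]) E' = 1 := by rw [← mp_mul, hEE, mp_one']
  apply Units.ext
  change toep Z.m (pos Γ Z.m B[T;T⁻¹] a) = bc (LaurentPolynomial.C : B →+* B[T;T⁻¹]) (vtoep E) *
    vtoep (tau B (fun i => c * lam i)) * bc (LaurentPolynomial.C : B →+* B[T;T⁻¹]) (vtoep E')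
  have hE2 : MGE 0 (mp (LaurentPolynomial.C : B →+* B[T;T⁻¹]) E) := mp_MGE _ hE
  rw [toep_def, ha, AdZ_pw, conj_of_comm h hE1, bc_vtoep, bc_vtoep]
  exact vtoep_mul3_pos hE2 (MGE.tau _)

theorem toepNeg_eq {B : Type} [CommRing B] [RatAlg B] {lam : Fin Γ.d → ℤ}
    {E E' : Matrix (Fin Γ.d) (Fin Γ.d) B[T;T⁻¹]} (hE : MLE 0 E) (hE' : MLE 0 E') (hEE : E * E' = 1)
    {c : ℤ} {a : Γ.Gr (Polynomial B[T;T⁻¹])} {α : Γ.Gr B[T;T⁻¹][T;T⁻¹]}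
    (ha : neg Γ Z.m B[T;T⁻¹] a = gm Γ (pw Z.m B[T;T⁻¹]) α)
    (h : Ad α * mp (LaurentPolynomial.C : B →+* B[T;T⁻¹]) E =
      mp (LaurentPolynomial.C : B →+* B[T;T⁻¹]) E * tau B (fun i => c * lam i)) :
    toepNeg Γ Z.m B[T;T⁻¹] a = bcU Γ (LaurentPolynomial.C : B →+* B[T;T⁻¹]) (negU E E' hE hE' hEE) *
      tauU B (fun i => c * lam i) *
        (bcU Γ (LaurentPolynomial.C : B →+* B[T;T⁻¹]) (negU E E' hE hE' hEE))⁻¹ := by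
  have hE1 : mp (LaurentPolynomial.C : B →+* B[T;T⁻¹]) E *
      mp (LaurentPolynomial.C : B →+* B[T;T⁻¹]) E' = 1 := by rw [← mp_mul, hEE, mp_one']
  apply Units.ext
  change toep Z.m (neg Γ Z.m B[T;T⁻¹] a) = bc (LaurentPolynomial.C : B →+* B[T;T⁻¹]) (vtoep E) *
    vtoep (tau B (fun i => c * lam i)) * bc (LaurentPolynomial.C : B →+* B[T;T⁻¹]) (vtoep E')
  have hE2 : MLE 0 (mp (LaurentPolynomial.C : B →+* B[T;T⁻¹]) E') := mp_MLE _ hE'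
  rw [toep_def, ha, AdZ_pw, conj_of_comm h hE1, bc_vtoep, bc_vtoep]
  exact vtoep_mul3_neg _ (MLE.tau _) hE2

/-- The element of `G(B[t,t⁻¹][z])` defined by a section of the adjoint bundle. -/
theorem exists_a {B : Type} [CommRing B] [IsDomain B] [Algebra ℚ B] (m : ℕ) [NeZero m]
    {x : Fin Γ.d → B[T;T⁻¹]} (hx : ∀ i, GE 0 (x i)) {Q : Finset ℚ} (hQ : ChiZ Q Γ.N (Γ.li x))
    {κ : ℚ → ℤ} {c : ℤ} (hκ : ∀ a ∈ Q, (κ a : ℚ) = c * a) :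
    ∃ a : Γ.Gr (Polynomial B[T;T⁻¹]), pos Γ m B[T;T⁻¹] a = gm Γ (pw m B[T;T⁻¹]) (alg hQ hκ) := by
  obtain ⟨a, ha⟩ := exists_pos (m := 1) (mt (alg hQ hκ)) (alpha_MGE hx Q κ) (det_mt _)
    (mt_fix _) fun _ _ k hk => absurd (dvd_one_cast k) hk
  exact ⟨a, by rw [pos_pw, gext ha]⟩

/-- The element of `G(B[t,t⁻¹][z⁻¹])` defined by a section of the adjoint bundle. -/
theorem exists_b {B : Type} [CommRing B] [IsDomain B] [Algebra ℚ B] (m : ℕ) [NeZero m]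
    {x : Fin Γ.d → B[T;T⁻¹]} (hx : ∀ i, LE 0 (x i)) {Q : Finset ℚ} (hQ : ChiZ Q Γ.N (Γ.li x))
    {κ : ℚ → ℤ} {c : ℤ} (hκ : ∀ a ∈ Q, (κ a : ℚ) = c * a) :
    ∃ a : Γ.Gr (Polynomial B[T;T⁻¹]), neg Γ m B[T;T⁻¹] a = gm Γ (pw m B[T;T⁻¹]) (alg hQ hκ) := by
  obtain ⟨a, ha⟩ := exists_neg (m := 1) (mt (alg hQ hκ)) (alpha_MLE hx Q κ) (det_mt _)
    (mt_fix _) fun _ _ k hk => absurd (dvd_one_cast k) hk
  exact ⟨a, by rw [neg_pw, gext ha]⟩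

/-- The weight, in the form in which it appears below. -/
theorem weight_eq {B : Type} [CommRing B] [RatAlg B] {g : Γ.Gr B[T;T⁻¹]}
    {S : (Module.End B (Jd Γ.d →₀ B))ˣ} (hS : IsFraming Z.m g S)
    {lam : Fin Γ.d → ℤ} {E E' F F' : Matrix (Fin Γ.d) (Fin Γ.d) B[T;T⁻¹]}
    {x0 x1 : Fin Γ.d → B[T;T⁻¹]} (h : SD Γ (AdZ Z.m g) lam E E' F F' x0 x1)
    {c m : ℤ}
    (H : ∀ (A : Type) [CommRing A] (S : (Module.End A (Jd Γ.d →₀ A))ˣ),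
        FinRank ((S : Module.End A (Jd Γ.d →₀ A)) - vtoep (mono lam)) →
        fdet ((diagOp fun i : Jd Γ.d => (T (c * lam i.2) : A[T;T⁻¹])) *
          bc (LaurentPolynomial.C) (S : Module.End A (Jd Γ.d →₀ A)) *
          (diagOp fun i : Jd Γ.d => (T (-(c * lam i.2)) : A[T;T⁻¹])) *
          (((Units.map (bcHom (Jd Γ.d) (LaurentPolynomial.C : A →+* A[T;T⁻¹])) S)⁻¹ :
            (Module.End A[T;T⁻¹] (Jd Γ.d →₀ A[T;T⁻¹]))ˣ) :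
              Module.End A[T;T⁻¹] (Jd Γ.d →₀ A[T;T⁻¹]))) = T m) :
    fdet ((tauU B (fun i => c * lam i) *
      ((bcU Γ (LaurentPolynomial.C : B →+* B[T;T⁻¹]) (posU E E' h.hE h.hE' h.EE'))⁻¹ *
        bcU Γ (LaurentPolynomial.C : B →+* B[T;T⁻¹]) S *
        bcU Γ (LaurentPolynomial.C : B →+* B[T;T⁻¹]) (negU F F' h.hF h.hF' h.FF')) *
      (tauU B (fun i => c * lam i))⁻¹ *
      ((bcU Γ (LaurentPolynomial.C : B →+* B[T;T⁻¹]) (posU E E' h.hE h.hE' h.EE'))⁻¹ *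
        bcU Γ (LaurentPolynomial.C : B →+* B[T;T⁻¹]) S *
        bcU Γ (LaurentPolynomial.C : B →+* B[T;T⁻¹]) (negU F F' h.hF h.hF' h.FF'))⁻¹ :
          (Module.End B[T;T⁻¹] (Jd Γ.d →₀ B[T;T⁻¹]))ˣ) :
            Module.End B[T;T⁻¹] (Jd Γ.d →₀ B[T;T⁻¹])) = T m := by
  have h2 := H B _ (finRank_split hS h)
  obtain ⟨uX, huX⟩ : ∃ u, u = posU E E' h.hE h.hE' h.EE' := ⟨_, rfl⟩
  obtain ⟨uY, huY⟩ : ∃ u, u = negU F F' h.hF h.hF' h.FF' := ⟨_, rfl⟩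
  rw [← huX, ← huY] at h2 ⊢
  rw [← tauU_val B (fun i => c * lam i), ← tauU_inv B (fun i => c * lam i)] at h2
  have e3 : bcU Γ (LaurentPolynomial.C : B →+* B[T;T⁻¹]) (uX⁻¹ * S * uY) =
      (bcU Γ (LaurentPolynomial.C : B →+* B[T;T⁻¹]) uX)⁻¹ *
        bcU Γ (LaurentPolynomial.C : B →+* B[T;T⁻¹]) S *
        bcU Γ (LaurentPolynomial.C : B →+* B[T;T⁻¹]) uY := by
    rw [map_mul, map_mul, map_inv]
  rw [← e3]
  exact h2

/-- A cartesian complex is acyclic at a bundle with a nontrivial splitting, if the twist is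
irrational. -/
theorem acyclic_split {s : ℂ}
    (hs : ∀ m : ℤ, m ≠ 0 → ∀ k : ℤ, (k : ℂ) + s * m ≠ 0)
    {K : TCx (Bun Γ Z) s} (hK : Cartesian K) (X : BunObj Γ Z) [IsDomain X.A.R]
    (lam : Fin Γ.d → ℤ) (Q : Finset ℚ)
    (hlam : ∃ i, lam i ≠ 0) (hsum : ∑ i, lam i = 0)
    (hdat : SDat Γ (AdZ Z.m X.g) lam Q) (j : ℤ) (z : K.obj j X)
    (hz : K.Cyc X j z) : K.Bd X j z := by
  have hrat := ratAlg X.A.R
  obtain ⟨E, E', F, F', x0, x1, hSD, hQ0, hQ1⟩ := hdat.out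
  obtain ⟨c, κ, hc, hκ⟩ := exists_den Q
  obtain ⟨m, hm, H⟩ := torus_weight lam hlam hsum hc
  have htw : Tw Z X.g := X.twist
  -- the automorphism
  obtain ⟨a, ha'⟩ := exists_a Z.m hSD.hx0 hQ0 hκ
  obtain ⟨b, hb'⟩ := exists_b Z.m hSD.hx1 hQ1 hκ
  have ht : GmGlue X a b := by
    unfold GmGlue
    rw [ha', hb']
    apply gext
    exact (alpha_glue (pw_AdZ Z htw) hSD.glx Q κ).symm
  refine acyclic_of_torus hK X a b ht m ?_ (hs m hm) j z hz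
  rw [gmSigma_dl]
  rw [fdet_aux _ _ _ _ _ _
    (toepPos_eq hSD.hE hSD.hE' hSD.EE' ha' (Ad_alg hQ0 hκ hSD.adE))
    (toepNeg_eq hSD.hF hSD.hF' hSD.FF' hb' (Ad_alg hQ1 hκ hSD.adF)) (gmSigma_finRank X a b ht)]
  exact weight_eq X.framing hSD H

end

end Vale.Agent.P286.R2.H505
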