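import Vale.Agent.P286.R2.H505.Weight

/-!
# The one-parameter group of automorphisms of a bundle defined by a splitting
-/

namespace Vale.Agent.P286.R2.H505

open LaurentPolynomial Matrix

noncomputable section

section Aeval

variable {N : ℕ} {A : Type} [CommRing A] [Algebra ℚ A]

theorem MGE.aeval {p : Matrix (Fin N) (Fin N) A[T;T⁻¹]} (hp : MGE 0 p) (q : Polynomial ℚ) :
    MGE 0 (Polynomial.aeval p q) := by
  induction q using Polynomial.induction_on' with
  | add p q hp hq =>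
    rw [map_add]
    exact hp.add hq
  | monomial k a =>
    rw [Polynomial.aeval_monomial, ← Algebra.smul_def]
    have h1 : MGE 0 (p ^ k) := by
      induction k with
      | zero => rw [pow_zero]; exact MGE.one
      | succ k ih => rw [pow_succ]; exact ih.mul0 hp
    intro i j
    rw [Matrix.smul_apply, Algebra.smul_def]
    exact (GE.rat a).mul0 (h1 i j)

theorem MLE.aeval {p : Matrix (Fin N) (Fin N) A[T;T⁻¹]} (hp : MLE 0 p) (q : Polynomial ℚ) :
    MLE 0 (Polynomial.aeval p q) := by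
  induction q using Polynomial.induction_on' with
  | add p q hp hq =>
    rw [map_add]
    exact hp.add hq
  | monomial k a =>
    rw [Polynomial.aeval_monomial, ← Algebra.smul_def]
    have h1 : MLE 0 (p ^ k) := by
      induction k with
      | zero => rw [pow_zero]; exact MLE.one
      | succ k ih => rw [pow_succ]; exact ih.mul0 hp
    intro i j
    rw [Matrix.smul_apply, Algebra.smul_def]
    exact (LE.rat a).mul0 (h1 i j)

theorem MGE.li {G : TG} {x : Fin G.d → A[T;T⁻¹]} (hx : ∀ i, GE 0 (x i)) : MGE 0 (G.li x) := by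
  intro p q
  rw [TG.li, Matrix.sum_apply]
  refine GE.sum _ fun i _ => ?_
  rw [Matrix.smul_apply, Matrix.map_apply]
  exact (hx i).mul0 (GE.int _)

theorem MLE.li {G : TG} {x : Fin G.d → A[T;T⁻¹]} (hx : ∀ i, LE 0 (x i)) : MLE 0 (G.li x) := by
  intro p q
  rw [TG.li, Matrix.sum_apply]
  refine LE.sum _ fun i _ => ?_
  rw [Matrix.smul_apply, Matrix.map_apply]
  exact (hx i).mul0 (LE.int _)

end Aeval

/-- The constant `t ^ k`. -/
def uc (B : Type) [CommRing B] (k : ℤ) : B[T;T⁻¹][T;T⁻¹] := LaurentPolynomial.C (T k)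

theorem uc_zero (B : Type) [CommRing B] : uc B 0 = 1 := by rw [uc, T_zero, map_one]

theorem uc_add (B : Type) [CommRing B] (a b : ℤ) : uc B (a + b) = uc B a * uc B b := by
  rw [uc, T_add, map_mul]
  rfl

variable {G : TG} {B : Type} [CommRing B]

/-- The inclusion `B[z, z⁻¹] → B[t, t⁻¹][z, z⁻¹]`. -/
abbrev ic (B : Type) [CommRing B] : B[T;T⁻¹] →+* B[T;T⁻¹][T;T⁻¹] :=
  lmap (LaurentPolynomial.C : B →+* B[T;T⁻¹])

section Alpha

variable [IsDomain B] [Algebra ℚ B] {S : Finset ℚ} {x : Fin G.d → B[T;T⁻¹]}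
  (h : ChiZ S G.N (G.li x)) {κ : ℚ → ℤ} {c : ℤ} (hκ : ∀ a ∈ S, (κ a : ℚ) = c * a)

/-- The one-parameter group defined by an element of the Lie algebra. -/
def alpha (x : Fin G.d → B[T;T⁻¹]) (S : Finset ℚ) (κ : ℚ → ℤ) :
    Matrix (Fin G.N) (Fin G.N) B[T;T⁻¹][T;T⁻¹] :=
  opg S G.N (G.li x) (ic B) (uc B) κ

include h hκ

theorem det_alpha : (alpha x S κ).det = 1 :=
  opg_det h.out (G.isLie_li x).1 hκ (ic B) (uc B) (uc_zero B) (uc_add B)

omit [IsDomain B] in
theorem fix_alpha (t : Ten G.N) (ht : t ∈ G.ten) : t.Fix (alpha x S κ) :=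
  opg_fix h.out (ic B) (uc B) (uc_zero B) (uc_add B) κ hκ ((G.isLie_li x).2 t ht)

/-- The one-parameter group, in `G`. -/
def alg : G.Gr B[T;T⁻¹][T;T⁻¹] := gmk (alpha x S κ) (det_alpha h hκ) (fix_alpha h hκ)

theorem mt_alg : mt (alg h hκ) = alpha x S κ := rfl

theorem Ad_alg {E : Matrix (Fin G.d) (Fin G.d) B[T;T⁻¹]} {lam : Fin G.d → ℤ}
    (hE : G.ad x * E = E * Matrix.diagonal fun i => (lam i : B[T;T⁻¹])) :
    Ad (alg h hκ) * mp (LaurentPolynomial.C : B →+* B[T;T⁻¹]) E =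
      mp (LaurentPolynomial.C : B →+* B[T;T⁻¹]) E * tau B (fun i => c * lam i) := by
  have hcol : ∀ j, Ad (alg h hκ) *ᵥ (fun k => ic B (E k j)) =
      uc B (c * lam j) • (fun k => ic B (E k j)) := by
    intro j
    apply G.li_injective
    rw [li_Ad, G.li_smul, ← G.li_map (ic B) (fun k => E k j), mt_alg]
    have h1 := opg_conj h.out (ic B) (uc B) (uc_add B) κ hκ (li_col_lie hE j)
    change alpha x S κ * (G.li fun k => E k j).map (ic B) =
      uc B (c * lam j) • ((G.li fun k => E k j).map (ic B) * alpha x S κ) at h1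
    rw [h1, Matrix.smul_mul, Matrix.mul_assoc]
    have h2 := mt_mul_inv (alg h hκ)
    rw [mt_alg] at h2
    rw [h2, Matrix.mul_one]
  ext1 i j
  have h3 := congrFun (hcol j) i
  rw [tau, Matrix.mul_diagonal]
  have h4 : (Ad (alg h hκ) * mp (LaurentPolynomial.C : B →+* B[T;T⁻¹]) E) i j =
      (Ad (alg h hκ) *ᵥ (fun k => ic B (E k j))) i := rfl
  rw [h4, h3, Pi.smul_apply, smul_eq_mul, mul_comm]
  rfl

end Alpha

theorem mp_MGE {n n' : Type} {A B : Type} [CommRing A] [CommRing B] (f : A →+* B)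
    {X : Matrix n n' A[T;T⁻¹]} (h : MGE 0 X) : MGE 0 (X.map (lmap f)) := fun i j => (h i j).map f

theorem mp_MLE {n n' : Type} {A B : Type} [CommRing A] [CommRing B] (f : A →+* B)
    {X : Matrix n n' A[T;T⁻¹]} (h : MLE 0 X) : MLE 0 (X.map (lmap f)) := fun i j => (h i j).map f

theorem alpha_MGE [Algebra ℚ B] {x : Fin G.d → B[T;T⁻¹]} (hx : ∀ i, GE 0 (x i)) (S : Finset ℚ)
    (κ : ℚ → ℤ) : MGE 0 (alpha x S κ) := by
  intro i j
  rw [alpha, opg, Matrix.sum_apply]
  refine GE.sum _ fun a _ => ?_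
  rw [Matrix.smul_apply, smul_eq_mul]
  exact (GE.C _).mul0 (mp_MGE _ (MGE.aeval (MGE.li hx) _) i j)

theorem alpha_MLE [Algebra ℚ B] {x : Fin G.d → B[T;T⁻¹]} (hx : ∀ i, LE 0 (x i)) (S : Finset ℚ)
    (κ : ℚ → ℤ) : MLE 0 (alpha x S κ) := by
  intro i j
  rw [alpha, opg, Matrix.sum_apply]
  refine LE.sum _ fun a _ => ?_
  rw [Matrix.smul_apply, smul_eq_mul]
  exact (LE.C _).mul0 (mp_MLE _ (MLE.aeval (MLE.li hx) _) i j)

section Glue

variable {m : ℕ} [NeZero m] [Algebra ℚ B]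

theorem alpha_pw (x : Fin G.d → B[T;T⁻¹]) (S : Finset ℚ) (κ : ℚ → ℤ) :
    (alpha x S κ).map (pw m B[T;T⁻¹]) =
      ∑ a ∈ S, uc B (κ a) • (prj S G.N (G.li fun i => pw m B (x i)) a).map (ic B) := by
  ext1 i j
  rw [Matrix.map_apply, alpha, opg, Matrix.sum_apply, Matrix.sum_apply, map_sum]
  refine Finset.sum_congr rfl fun a _ => ?_
  rw [Matrix.smul_apply, Matrix.smul_apply, smul_eq_mul, smul_eq_mul, map_mul, uc, pw_C,
    ← G.li_map (pw m B) x, prj_map]
  congr 1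
  exact (RingHom.congr_fun (lmap_pw (m := m) (LaurentPolynomial.C : B →+* B[T;T⁻¹]))
    (prj S G.N (G.li x) a i j)).symm

omit [Algebra ℚ B] in
theorem pw_mulVec (M : Matrix (Fin G.d) (Fin G.d) B[T;T⁻¹]) (x : Fin G.d → B[T;T⁻¹]) :
    (fun i => pw m B ((M *ᵥ x) i)) = (M.map (pw m B)) *ᵥ fun i => pw m B (x i) := by
  funext i
  rw [Matrix.mulVec, dotProduct, Matrix.mulVec, dotProduct, map_sum]
  refine Finset.sum_congr rfl fun j _ => ?_
  rw [map_mul, Matrix.map_apply]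

theorem li_glue {g : G.Gr B[T;T⁻¹]} (hpw : (AdZ m g).map (pw m B) = Ad g)
    {x0 x1 : Fin G.d → B[T;T⁻¹]} (hx : AdZ m g *ᵥ x1 = x0) :
    (G.li fun i => pw m B (x0 i)) * mt g = mt g * G.li fun i => pw m B (x1 i) := by
  rw [← hx, pw_mulVec, hpw, li_Ad, Matrix.mul_assoc, mt_inv_mul, Matrix.mul_one]

theorem prj_inter {N : ℕ} {R : Type} [CommRing R] [Algebra ℚ R] {P P' t : Matrix (Fin N) (Fin N) R}
    (h : P * t = t * P') (S : Finset ℚ) (n : ℕ) (a : ℚ) : prj S n P a * t = t * prj S n P' a :=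
  aeval_inter h _

theorem alpha_glue {g : G.Gr B[T;T⁻¹]} (hpw : (AdZ m g).map (pw m B) = Ad g)
    {x0 x1 : Fin G.d → B[T;T⁻¹]} (hx : AdZ m g *ᵥ x1 = x0) (S : Finset ℚ) (κ : ℚ → ℤ) :
    (alpha x0 S κ).map (pw m B[T;T⁻¹]) * (mt g).map (ic B) =
      (mt g).map (ic B) * (alpha x1 S κ).map (pw m B[T;T⁻¹]) := by
  have h2 := li_glue hpw hx
  rw [alpha_pw, alpha_pw, Finset.sum_mul, Finset.mul_sum]
  refine Finset.sum_congr rfl fun a _ => ?_
  rw [Matrix.smul_mul, Matrix.mul_smul, ← map_mul', ← map_mul', prj_inter h2]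

end Glue

theorem AdZ_pw {m : ℕ} [NeZero m] {A : Type} [CommRing A] (α : G.Gr A[T;T⁻¹]) :
    AdZ m (gm G (pw m A) α) = Ad α := by
  ext1 i j
  rw [AdZ, Matrix.map_apply, Ad_map, Matrix.map_apply, dn_pw]

theorem ringPos_pw (m : ℕ) (A : Type) [CommRing A] : ringPos m A = (pw m A).comp (ringPos 1 A) := by
  apply Polynomial.ringHom_ext
  · intro a
    rw [RingHom.comp_apply, ringPos_C, ringPos_C, pw_C]
  · rw [RingHom.comp_apply, ringPos, ringPos, Polynomial.coe_eval₂RingHom,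
      Polynomial.coe_eval₂RingHom, Polynomial.eval₂_X, Polynomial.eval₂_X, pw_T]
    simp

theorem ringNeg_pw (m : ℕ) (A : Type) [CommRing A] : ringNeg m A = (pw m A).comp (ringNeg 1 A) := by
  apply Polynomial.ringHom_ext
  · intro a
    rw [RingHom.comp_apply, ringNeg_C, ringNeg_C, pw_C]
  · rw [RingHom.comp_apply, ringNeg, ringNeg, Polynomial.coe_eval₂RingHom,
      Polynomial.coe_eval₂RingHom, Polynomial.eval₂_X, Polynomial.eval₂_X, pw_T]
    simp

theorem pos_pw (m : ℕ) {A : Type} [CommRing A] (a : G.Gr (Polynomial A)) :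
    pos G m A a = gm G (pw m A) (pos G 1 A a) := by
  rw [pos, ringPos_pw]
  rfl

theorem neg_pw (m : ℕ) {A : Type} [CommRing A] (a : G.Gr (Polynomial A)) :
    neg G m A a = gm G (pw m A) (neg G 1 A a) := by
  rw [neg, ringNeg_pw]
  rfl

/-- A common denominator. -/
theorem exists_den (S : Finset ℚ) : ∃ (c : ℤ) (κ : ℚ → ℤ), 0 < c ∧ ∀ a ∈ S, (κ a : ℚ) = c * a := by
  classical
  refine ⟨∏ a ∈ S, (a.den : ℤ), fun a => (∏ b ∈ S.erase a, (b.den : ℤ)) * a.num, ?_, ?_⟩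
  · exact Finset.prod_pos fun a _ => by exact_mod_cast a.pos
  · intro a ha
    rw [← Finset.mul_prod_erase S (fun b : ℚ => (b.den : ℤ)) ha]
    push_cast
    have h1 : (a.den : ℚ) * a = a.num := by
      rw [mul_comm]
      exact Rat.mul_den_eq_num a
    calc (∏ b ∈ S.erase a, (b.den : ℚ)) * a.num = (∏ b ∈ S.erase a, (b.den : ℚ)) * (a.den * a) := by
          rw [h1]
      _ = _ := by ring

end

end Vale.Agent.P286.R2.H505
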