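import Vale.Agent.P286.R2.H505.VToep

/-!
# Lemmas on gluing data
-/

namespace Vale.Agent.P286.R2.H505

open CategoryTheory LaurentPolynomial

noncomputable section

variable {G : TG} {A B D : Type} [CommRing A] [CommRing B] [CommRing D]

theorem map_pos {m : ℕ} [NeZero m] (f : A →+* B) (a : G.Gr (Polynomial A)) :
    gm G (lmap f) (pos G m A a) = pos G m B (gm G (Polynomial.mapRingHom f) a) := by
  unfold pos
  rw [gm_gm, gm_gm, lmap_comp_pos]

theorem map_neg {m : ℕ} [NeZero m] (f : A →+* B) (a : G.Gr (Polynomial A)) :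
    gm G (lmap f) (neg G m A a) = neg G m B (gm G (Polynomial.mapRingHom f) a) := by
  unfold neg
  rw [gm_gm, gm_gm, lmap_comp_neg]

theorem gm_lmap_id (g : G.Gr A[T;T⁻¹]) : gm G (lmap (RingHom.id A)) g = g := by
  rw [lmap_id'']
  rfl

theorem gm_lmap_comp (f : A →+* B) (g : B →+* D) (x : G.Gr A[T;T⁻¹]) :
    gm G (lmap g) (gm G (lmap f) x) = gm G (lmap (g.comp f)) x := by
  rw [gm_gm, lmap_comp'']

theorem gm_poly_id (a : G.Gr (Polynomial A)) :
    gm G (Polynomial.mapRingHom (RingHom.id A)) a = a := by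
  rw [Polynomial.mapRingHom_id]
  rfl

theorem gm_poly_comp (f : A →+* B) (g : B →+* D) (a : G.Gr (Polynomial A)) :
    gm G (Polynomial.mapRingHom g) (gm G (Polynomial.mapRingHom f) a) =
      gm G (Polynomial.mapRingHom (g.comp f)) a := by
  rw [gm_gm, Polynomial.mapRingHom_comp]

theorem Glue.id {m : ℕ} (g : G.Gr A[T;T⁻¹]) : Glue m (RingHom.id A) g g 1 1 := by
  apply Glue.mk
  rw [map_one, map_one, one_mul, mul_one, gm_lmap_id]

theorem Glue.comp {m : ℕ} [NeZero m] {f : A →+* B} {g : B →+* D} {x : G.Gr A[T;T⁻¹]}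
    {y : G.Gr B[T;T⁻¹]} {z : G.Gr D[T;T⁻¹]} {a b : G.Gr (Polynomial B)} {a' b' : G.Gr (Polynomial D)}
    (h : Glue m f x y a b) (h' : Glue m g y z a' b') :
    Glue m (g.comp f) x z (cmp g a' a) (cmp g b' b) := by
  have h3 := congrArg (gm G (lmap g)) h.eq
  replace h' := h'.eq
  apply Glue.mk
  rw [cmp_eq, cmp_eq]
  rw [map_mul, map_mul, map_neg, map_pos, gm_lmap_comp] at h3
  rw [map_mul, map_mul, ← mul_assoc, h', mul_assoc, h3, mul_assoc]

theorem cmp_one_right (f : A →+* B) (x : G.Gr (Polynomial B)) : cmp f x 1 = x := by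
  rw [cmp_eq, map_one, mul_one]

theorem cmp_one_left (x : G.Gr (Polynomial A)) : cmp (RingHom.id A) 1 x = x := by
  rw [cmp_eq, one_mul, gm_poly_id]

theorem cmp_assoc (f : A →+* B) (g : B →+* D) (x : G.Gr (Polynomial D)) (y : G.Gr (Polynomial B))
    (z : G.Gr (Polynomial A)) : cmp g x (cmp f y z) = cmp (g.comp f) (cmp g x y) z := by
  rw [cmp_eq, cmp_eq, cmp_eq, cmp_eq, map_mul, gm_poly_comp, mul_assoc]

theorem cmp_assoc' {A B D : SmAlg} (f : A.Hm B) (g : B.Hm D) (x : G.Gr (Polynomial D.R))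
    (y : G.Gr (Polynomial B.R)) (z : G.Gr (Polynomial A.R)) :
    cmp g.r x (cmp f.r y z) = cmp (SmAlg.Hm.comp g f).r (cmp g.r x y) z := by
  have h : (SmAlg.Hm.comp g f).r = g.r.comp f.r := rfl
  rw [h, cmp_assoc]

variable {Z : Cen G}

theorem BunHom.ext {X Y : BunObj G Z} {φ ψ : BunHom X Y} (h1 : φ.f = ψ.f)
    (h2 : φ.a = ψ.a) (h3 : φ.b = ψ.b) : φ = ψ := by
  cases φ
  cases ψ
  subst h1 h2 h3
  rfl

end

end Vale.Agent.P286.R2.H505
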