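import Vale.Agent.P286.R2.H505.BunLem

/-!
# The categories of test objects of `Bun_{G/μ}(ℙ¹)` and of `BG`
-/

namespace Vale.Agent.P286.R2.H505

open CategoryTheory

noncomputable section

theorem BunObj.glue_id {G : TG} {Z : Cen G} (X : BunObj G Z) :
    Glue Z.m (SmAlg.Hm.id X.A).r X.g X.g (gone G (Polynomial X.A.R)) (gone G (Polynomial X.A.R)) :=
  Glue.id X.g

theorem BunHom.glue_comp {G : TG} {Z : Cen G} {X Y W : BunObj G Z} (φ : BunHom X Y)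
    (ψ : BunHom Y W) :
    Glue Z.m (ψ.f.comp φ.f).r X.g W.g (cmp ψ.f.r ψ.a φ.a) (cmp ψ.f.r ψ.b φ.b) :=
  Glue.comp φ.glue ψ.glue

/-- The identity. -/
def BunHom.id {G : TG} {Z : Cen G} (X : BunObj G Z) : BunHom X X :=
  ⟨SmAlg.Hm.id X.A, gone G (Polynomial X.A.R), gone G (Polynomial X.A.R), X.glue_id⟩

/-- The composition. -/
def BunHom.comp {G : TG} {Z : Cen G} {X Y W : BunObj G Z} (φ : BunHom X Y) (ψ : BunHom Y W) :
    BunHom X W :=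
  ⟨ψ.f.comp φ.f, cmp ψ.f.r ψ.a φ.a, cmp ψ.f.r ψ.b φ.b, φ.glue_comp ψ⟩

instance (G : TG) (Z : Cen G) : CategoryStruct.{0} (BunObj G Z) where
  Hom X Y := BunHom X Y
  id := BunHom.id
  comp := BunHom.comp

/-- The identity. -/
def BGHom.id {G : TG} (X : BGObj G) : BGHom X X := ⟨SmAlg.Hm.id X.A, gone G X.A.R⟩

/-- The composition. -/
def BGHom.comp {G : TG} {X Y W : BGObj G} (φ : BGHom X Y) (ψ : BGHom Y W) : BGHom X W :=
  ⟨ψ.f.comp φ.f, gcmp ψ.f.r ψ.h φ.h⟩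

instance (G : TG) : CategoryStruct.{0} (BGObj G) where
  Hom X Y := BGHom X Y
  id := BGHom.id
  comp := BGHom.comp

variable {G : TG} {Z : Cen G}

theorem BunHom.f_comp {X Y W : BunObj G Z} (φ : X ⟶ Y) (ψ : Y ⟶ W) :
    BunHom.f (φ ≫ ψ) = (BunHom.f ψ).comp (BunHom.f φ) := rfl

theorem BunHom.id_comp' {X Y : BunObj G Z} (φ : X ⟶ Y) : 𝟙 X ≫ φ = φ := by
  apply BunHom.ext
  · rfl
  · exact cmp_one_right (BunHom.f φ).r (BunHom.a φ)
  · exact cmp_one_right (BunHom.f φ).r (BunHom.b φ)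

theorem BunHom.comp_id' {X Y : BunObj G Z} (φ : X ⟶ Y) : φ ≫ 𝟙 Y = φ := by
  apply BunHom.ext
  · rfl
  · exact cmp_one_left (BunHom.a φ)
  · exact cmp_one_left (BunHom.b φ)

theorem BunHom.assoc' {V X Y W : BunObj G Z} (φ : V ⟶ X) (ψ : X ⟶ Y) (χ : Y ⟶ W) :
    (φ ≫ ψ) ≫ χ = φ ≫ ψ ≫ χ := by
  apply BunHom.ext
  · have e1 := BunHom.f_comp (φ ≫ ψ) χ
    have e2 := BunHom.f_comp φ (ψ ≫ χ)
    rw [BunHom.f_comp φ ψ] at e1
    rw [BunHom.f_comp ψ χ] at e2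
    exact e1.trans e2.symm
  · exact cmp_assoc' (BunHom.f ψ) (BunHom.f χ) (BunHom.a χ) (BunHom.a ψ) (BunHom.a φ)
  · exact cmp_assoc' (BunHom.f ψ) (BunHom.f χ) (BunHom.b χ) (BunHom.b ψ) (BunHom.b φ)

theorem BGHom.id_comp' {X Y : BGObj G} (φ : X ⟶ Y) : 𝟙 X ≫ φ = φ := by
  apply BGHom.ext
  · rfl
  · exact (congrArg (BGHom.h φ * ·) (map_one (gm G _))).trans (mul_one _)

theorem BGHom.comp_id' {X Y : BGObj G} (φ : X ⟶ Y) : φ ≫ 𝟙 Y = φ := by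
  apply BGHom.ext
  · rfl
  · exact one_mul (BGHom.h φ)

theorem BGHom.assoc' {V X Y W : BGObj G} (φ : V ⟶ X) (ψ : X ⟶ Y) (χ : Y ⟶ W) :
    (φ ≫ ψ) ≫ χ = φ ≫ ψ ≫ χ := by
  apply BGHom.ext
  · rfl
  · refine (congrArg (BGHom.h χ * ·) (map_mul (gm G _) _ _)).trans ?_
    exact (mul_assoc _ _ _).symm

instance (G : TG) (Z : Cen G) : Category.{0} (BunObj G Z) where
  id_comp := BunHom.id_comp'
  comp_id := BunHom.comp_id'
  assoc := BunHom.assoc'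

instance (G : TG) : Category.{0} (BGObj G) where
  id_comp := BGHom.id_comp'
  comp_id := BGHom.comp_id'
  assoc := BGHom.assoc'

end

end Vale.Agent.P286.R2.H505
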