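import Vale.Agent.P286.R2.H505.Der
import Vale.Agent.P286.H211.Fact

/-!
# The canonical connection of a bundle with trivial adjoint bundle
-/

namespace Vale.Agent.P286.R2.H505

open LaurentPolynomial Matrix

noncomputable section

section Ddw

variable (A : Type) [CommRing A]

/-- The derivation `d/dw`. -/
def ddw : DerZ A[T;T⁻¹] :=
  derOf (fun x => T (-1) * eulerL A x) (fun a b => by rw [map_add, mul_add])
    (fun a b => by rw [eulerL_mul]; ring)

variable {A}

theorem ddw_coeff (x : A[T;T⁻¹]) (k : ℤ) : (ddw A x).coeff k = ((k + 1 : ℤ) : A) * x.coeff (k + 1) := by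
  rw [ddw, derOf_apply]
  have h1 := coeff_C_mul_T_mul (1 : A) (-1) (eulerL A x) k
  rw [map_one, one_mul, one_mul] at h1
  rw [h1, eulerL_coeff, sub_neg_eq_add]

theorem ddw_GE {x : A[T;T⁻¹]} (h : GE 0 x) : GE 0 (ddw A x) := by
  intro k hk
  rw [ddw_coeff]
  rcases lt_or_eq_of_le (show k + 1 ≤ 0 by omega) with h1 | h1
  · rw [h _ h1, mul_zero]
  · rw [h1, Int.cast_zero, zero_mul]

theorem ddw_LE {n : ℤ} {x : A[T;T⁻¹]} (h : LE n x) : LE (n - 1) (ddw A x) := by
  intro k hk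
  rw [ddw_coeff, h _ (by omega), mul_zero]

theorem ddw_LE0 {x : A[T;T⁻¹]} (h : LE 0 x) : LE (-2) (ddw A x) := by
  intro k hk
  rw [ddw_coeff]
  rcases lt_or_eq_of_le (show 0 ≤ k + 1 by omega) with h1 | h1
  · rw [h _ h1, mul_zero]
  · rw [← h1, Int.cast_zero, zero_mul]

end Ddw

section Field

variable {F : Type} [Field F] [CharZero F] {G : TG} {m : ℕ} [NeZero m]

theorem ratF : RatAlg F := ⟨⟨inferInstance⟩⟩

theorem AdZ_mul_AdZ_inv {g : G.Gr F[T;T⁻¹]} (hpw : (AdZ m g).map (pw m F) = Ad g) :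
    AdZ m g * AdZ m g⁻¹ = 1 := by
  have := ratF (F := F)
  ext1 i j
  have h1 : Ad g * Ad g⁻¹ = 1 := by rw [← Ad_mul', mul_inv_cancel, Ad_one]
  have h2 := congrArg (dn m) (congrFun (congrFun h1 i) j)
  rw [Matrix.mul_apply, dn_sum] at h2
  rw [Matrix.mul_apply]
  refine Eq.trans (Finset.sum_congr rfl fun k _ => ?_) (h2.trans ?_)
  · have h3 : Ad g i k = pw m F (AdZ m g i k) := (congrFun (congrFun hpw i) k).symm
    rw [h3, dn_pw_mul]
    rfl
  · rw [Matrix.one_apply]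
    split_ifs
    · rw [dn_one]
    · rw [dn_zero]

theorem IsAut.of_map {R S : Type} [CommRing R] [CommRing S] {M : Matrix (Fin G.d) (Fin G.d) R}
    (f : R →+* S) (hf : Function.Injective f) (h : G.IsAut (M.map f)) : G.IsAut M := by
  intro v
  have h1 := h (fun i => f (v i))
  have e1 : (M.map f *ᵥ fun i => f (v i)) = fun i => f ((M *ᵥ v) i) := by
    funext i
    rw [Matrix.mulVec, Matrix.mulVec, dotProduct, dotProduct, map_sum]
    exact Finset.sum_congr rfl fun j _ => by rw [map_mul, Matrix.map_apply]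
  rw [e1, ← G.ad_map, ← G.ad_map, ← Matrix.map_mul, ← Matrix.map_mul] at h1
  ext i j
  exact hf (congrFun (congrFun h1 i) j)

theorem AdZ_isAut {g : G.Gr F[T;T⁻¹]} (hpw : (AdZ m g).map (pw m F) = Ad g) : G.IsAut (AdZ m g) := by
  apply IsAut.of_map (pw m F) pw_injective
  rw [hpw]
  exact Ad_isAut g

/-- If the Toeplitz operator is injective, the adjoint bundle is trivial. -/
theorem trivial_adjoint (hK : G.kill.det ≠ 0) {g : G.Gr F[T;T⁻¹]}
    (hpw : (AdZ m g).map (pw m F) = Ad g) (hinj : ∀ x, toep m g x = 0 → x = 0) :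
    ∃ E E' P P' W : Matrix (Fin G.d) (Fin G.d) F[T;T⁻¹], MGE 0 E ∧ MGE 0 E' ∧ E * E' = 1 ∧
      MLE 0 P ∧ MLE 0 P' ∧ P * P' = 1 ∧ AdZ m g * P = E ∧
      (∀ i, TG.fr P P' i = TG.fr E E' i) ∧ MLE 0 W ∧ MGE 0 W ∧
      W * (P.transpose * G.kill.map (Int.castRingHom F[T;T⁻¹]) * P) = 1 := by
  have hcz : CharZero F[T;T⁻¹] :=
    charZero_of_injective_ringHom (f := (LaurentPolynomial.C : F →+* F[T;T⁻¹])) C_inj
  obtain ⟨M, hMd⟩ : ∃ M, M = AdZ m g := ⟨_, rfl⟩
  have hM : M * AdZ m g⁻¹ = 1 := by rw [hMd]; exact AdZ_mul_AdZ_inv hpw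
  have hA : G.IsAut M := by rw [hMd]; exact AdZ_isAut hpw
  obtain ⟨lam, E, E', P, P', hsum, hE, hE', hEE, hP, hP', hPP, hMP⟩ :=
    birk M _ hM (hA.det hK hM)
  have hle : ∀ i, lam i ≤ 0 := by
    intro i
    by_contra hcon
    rw [not_le] at hcon
    have h1 : VLE 0 (fun k => P k i) := fun k => hP k i
    have h2 : toep m g (vpart G.d F (fun k => P k i)) = 0 := by
      rw [toep_def, vtoep_apply, toVec_vpart h1, ← hMd]
      apply vpart_eq_zero
      intro k
      have h3 : (M *ᵥ fun k => P k i) k = E k i * T (lam i) := by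
        have h4 := congrFun (congrFun hMP k) i
        rw [mono, Matrix.mul_diagonal] at h4
        rw [← h4]
        rfl
      rw [h3]
      exact ((hE k i).mul (GE.T (lam i))).mono (by omega)
    have h3 := hinj _ h2
    have h4 : (fun k => P k i) = 0 := by rw [← toVec_vpart h1, h3, map_zero]
    have h5 : (P' * P) i i = 0 := by
      rw [Matrix.mul_apply]
      exact Finset.sum_eq_zero fun k _ => by rw [congrFun h4 k, Pi.zero_apply, mul_zero]
    rw [mul_eq_one_comm.1 hPP, Matrix.one_apply_eq] at h5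
    exact one_ne_zero h5
  have hlam : lam = 0 := by
    funext i
    exact (Finset.sum_eq_zero_iff_of_nonpos (fun i _ => hle i)).1 hsum i (Finset.mem_univ i)
  subst hlam
  rw [mono_zero, Matrix.mul_one] at hMP
  have hMP' : M * P = E * mono 0 := by rw [mono_zero, Matrix.mul_one, hMP]
  obtain ⟨WF, WE, hWFL, hWEG, hWF, hWe⟩ := inv_gram M _ hK hM hA hE' hEE hP' hPP hMP'
  have hWW : WF = WE := by
    ext1 i j
    rw [hWe]
    simp
  refine ⟨E, E', P, P', WF, hE, hE', hEE, hP, hP', hPP, by rw [← hMd]; exact hMP, ?_, hWFL,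
    by rw [hWW]; exact hWEG, hWF⟩
  intro i
  ext1 k j
  rw [frame_rel M _ hM hA hEE hPP hMP']
  simp

theorem map_mul' {R S : Type} [CommRing R] [CommRing S] {l m n : Type} [Fintype m] (f : R →+* S)
    (X : Matrix l m R) (Y : Matrix m n R) : (X * Y).map f = X.map f * Y.map f := Matrix.map_mul

theorem fr_map {R S : Type} [CommRing R] [CommRing S] (f : R →+* S)
    (P P' : Matrix (Fin G.d) (Fin G.d) R) (i : Fin G.d) :
    TG.fr (P.map f) (P'.map f) i = (TG.fr P P' i).map f := by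
  rw [TG.fr, TG.fr, map_mul', map_mul', G.ad_map]
  rfl

/-- The connection. -/
theorem exists_conn (hK : G.kill.det ≠ 0) {g : G.Gr F[T;T⁻¹]}
    (hpw : (AdZ m g).map (pw m F) = Ad g) (hinj : ∀ x, toep m g x = 0 → x = 0) :
    ∃ Y0 Y1 : Matrix (Fin G.N) (Fin G.N) F[T;T⁻¹], MGE 0 Y0 ∧ MLE (-2) Y1 ∧
      (mt g).map (ddw F) + mt g * Y1 = Y0 * mt g := by
  have hrF : RatAlg F := ratF
  have hrL := ratAlg F[T;T⁻¹]
  obtain ⟨E, E', P, P', W, hE, hE', hEE, hP, hP', hPP, hMP, hfr, hWL, hWG, hW⟩ :=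
    trivial_adjoint hK hpw hinj
  obtain ⟨δ, hδ⟩ : ∃ δ, δ = ddw F := ⟨_, rfl⟩
  -- everything in the variable `w`
  obtain ⟨e, he⟩ : ∃ e, e = E.map (pw m F) := ⟨_, rfl⟩
  obtain ⟨e', he'⟩ : ∃ e', e' = E'.map (pw m F) := ⟨_, rfl⟩
  obtain ⟨q, hq⟩ : ∃ q, q = P.map (pw m F) := ⟨_, rfl⟩
  obtain ⟨q', hq'⟩ : ∃ q', q' = P'.map (pw m F) := ⟨_, rfl⟩
  obtain ⟨w, hw⟩ : ∃ w, w = W.map (pw m F) := ⟨_, rfl⟩
  have map1 : (1 : Matrix (Fin G.d) (Fin G.d) F[T;T⁻¹]).map (pw m F) = 1 :=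
    map_one (pw m F).mapMatrix
  have hee : e * e' = 1 := by rw [he, he', ← map_mul', hEE, map1]
  have hqq : q * q' = 1 := by rw [hq, hq', ← map_mul', hPP, map1]
  have hge : Ad g * q = e := by rw [← hpw, hq, he, ← map_mul', hMP]
  have heG : MGE 0 e := by rw [he]; exact fun i j => pw_GE (hE i j)
  have heG' : MGE 0 e' := by rw [he']; exact fun i j => pw_GE (hE' i j)
  have hqL : MLE 0 q := by rw [hq]; exact fun i j => pw_LE (hP i j)
  have hqL' : MLE 0 q' := by rw [hq']; exact fun i j => pw_LE (hP' i j)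
  have hwL : MLE 0 w := by rw [hw]; exact fun i j => pw_LE (hWL i j)
  have hwG : MGE 0 w := by rw [hw]; exact fun i j => pw_GE (hWG i j)
  have hfr' : ∀ i, TG.fr q q' i = TG.fr e e' i := by
    intro i
    rw [hq, hq', he, he', fr_map, fr_map, hfr]
  have hfL : ∀ i, MLE 0 (TG.fr q q' i) := fun i => (hqL'.mul0 (MLE.ad' fun k => hqL k i)).mul0 hqL
  have hfG : ∀ i, MGE 0 (TG.fr q q' i) := by
    intro i
    rw [hfr']
    exact (heG'.mul0 (MGE.ad' fun k => heG k i)).mul0 heG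
  have hc : ∀ i k j, δ (TG.fr q q' i k j) = 0 := by
    intro i k j
    rw [eq_C_of_LE_GE (hfL i k j) (hfG i k j), hδ]
    ext l
    rw [ddw_coeff, C_apply]
    split_ifs with h
    · rw [h]; simp
    · simp
  have hkmap : (G.kill.map (Int.castRingHom F[T;T⁻¹])).map (pw m F) =
      G.kill.map (Int.castRingHom F[T;T⁻¹]) := by
    ext1 i j
    simp
  have hwq : w * (q.transpose * G.kill.map (Int.castRingHom F[T;T⁻¹]) * q) = 1 := by
    have h1 := congrArg (fun X : Matrix (Fin G.d) (Fin G.d) F[T;T⁻¹] => X.map (pw m F)) hW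
    simp only [map_mul', hkmap, map1] at h1
    rw [hw, hq]
    exact h1
  have hwe : w * (e.transpose * G.kill.map (Int.castRingHom F[T;T⁻¹]) * e) = 1 := by
    have h1 := (Ad_isAut g).kill (Ad_mul_inv g)
    have h2 : e.transpose * G.kill.map (Int.castRingHom F[T;T⁻¹]) * e =
        q.transpose * G.kill.map (Int.castRingHom F[T;T⁻¹]) * q := by
      rw [← hge, Matrix.transpose_mul]
      calc q.transpose * (Ad g).transpose * G.kill.map (Int.castRingHom F[T;T⁻¹]) * (Ad g * q) =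
          q.transpose * ((Ad g).transpose * G.kill.map (Int.castRingHom F[T;T⁻¹]) * Ad g) * q := by
            simp only [Matrix.mul_assoc]
        _ = _ := by rw [h1]
    rw [h2, hwq]
  obtain ⟨y0, hy0⟩ : ∃ y0, y0 = e *ᵥ repr (TG.fr e e') w (e' * e.map δ) := ⟨_, rfl⟩
  obtain ⟨y1, hy1⟩ : ∃ y1, y1 = q *ᵥ repr (TG.fr q q') w (q' * q.map δ) := ⟨_, rfl⟩
  have hie : e.map δ = G.ad y0 * e := by
    rw [hy0]
    exact inner_frame δ hee (fun i k j => by rw [← hfr']; exact hc i k j) hwe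
  have hiq : q.map δ = G.ad y1 * q := by
    rw [hy1]
    exact inner_frame δ hqq hc hwq
  have hy0G : VGE 0 y0 := by
    rw [hy0]
    have h1 : VGE 0 (repr (TG.fr e e') w (e' * e.map δ)) := by
      intro i
      rw [repr]
      refine GE.sum _ fun j _ => (hwG i j).mul0 ?_
      rw [Matrix.trace]
      refine GE.sum _ fun k _ => ?_
      have h2 : MGE 0 (e.map δ) := by rw [hδ]; exact fun i j => ddw_GE (heG i j)
      have h3 : MGE 0 (TG.fr e e' j) := by rw [← hfr']; exact hfG j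
      exact ((heG'.mul0 h2).mul0 h3) k k
    have := VGE.mulVec heG h1
    simpa using this
  have hy1L : VLE (-2) y1 := by
    rw [hy1]
    have h1 : VLE (-2) (repr (TG.fr q q') w (q' * q.map δ)) := by
      intro i
      rw [repr]
      refine LE.sum _ fun j _ => ?_
      have h2 : MLE (-2) (q.map δ) := by rw [hδ]; exact fun i j => ddw_LE0 (hqL i j)
      have h3 : MLE (-2) (q' * q.map δ * TG.fr q q' j) := by
        have := (hqL'.mul h2).mul (hfL j)
        simpa using this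
      have h4 : LE (-2) (q' * q.map δ * TG.fr q q' j).trace := by
        rw [Matrix.trace]
        exact LE.sum _ fun k _ => h3 k k
      have := (hwL i j).mul h4
      simpa using this
    have := VLE.mulVec hqL h1
    simpa using this
  -- the relation
  obtain ⟨η, hη⟩ : ∃ η, η = G.co ((mt g).map δ * mt g⁻¹) := ⟨_, rfl⟩
  have hL : IsLie G.ten ((mt g).map δ * mt g⁻¹) := isLie_d δ (mt_inv_mul g) (mt_fix g) (det_mt g)
  have hlη : G.li η = (mt g).map δ * mt g⁻¹ := by rw [hη, G.li_co hL]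
  have hrel : η + Ad g *ᵥ y1 - y0 = 0 := by
    apply ad_injective hK
    have h1 := congrArg (fun X : Matrix (Fin G.d) (Fin G.d) F[T;T⁻¹] => X.map δ) hge
    simp only [dmul, d_Ad δ g, ← hη] at h1
    rw [hiq, hie, ← Matrix.mul_assoc (Ad g), (Ad_isAut g) y1, Matrix.mul_assoc, Matrix.mul_assoc,
      hge, ← Matrix.add_mul] at h1
    have h2 : (G.ad η + G.ad (Ad g *ᵥ y1) - G.ad y0) * e = 0 := by
      rw [Matrix.sub_mul, h1, sub_self]
    have h3 : (G.ad η + G.ad (Ad g *ᵥ y1) - G.ad y0) * e * e' = 0 := by rw [h2, Matrix.zero_mul]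
    rw [Matrix.mul_assoc, hee, Matrix.mul_one] at h3
    rw [G.ad_sub, G.ad_add, h3]
  refine ⟨G.li y0, G.li y1, ?_, ?_, ?_⟩
  · intro i j
    rw [TG.li, Matrix.sum_apply]
    refine GE.sum _ fun k _ => ?_
    rw [Matrix.smul_apply, smul_eq_mul]
    exact (hy0G k).mul0 (GE.int _)
  · intro i j
    rw [TG.li, Matrix.sum_apply]
    refine LE.sum _ fun k _ => ?_
    rw [Matrix.smul_apply, smul_eq_mul]
    have := (hy1L k).mul (LE.int (G.b k i j))
    simpa using this
  · have h1 : G.li y0 = (mt g).map δ * mt g⁻¹ + mt g * G.li y1 * mt g⁻¹ := by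
      rw [← hlη, ← li_Ad, ← G.li_add]
      congr 1
      exact (sub_eq_zero.1 hrel).symm
    rw [h1, Matrix.add_mul, Matrix.mul_assoc _ (mt g⁻¹), mt_inv_mul, Matrix.mul_one,
      Matrix.mul_assoc _ (mt g⁻¹), mt_inv_mul, Matrix.mul_one, hδ]

end Field

end

end Vale.Agent.P286.R2.H505
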