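import Vale.Agent.P286.R2.H505.JFun

/-!
# Matrices which are polynomial both in `z` and in `z⁻¹` are constant
-/

namespace Vale.Agent.P286.R2.H505

open LaurentPolynomial Matrix

noncomputable section

section Scalar

variable {m : ℕ} [NeZero m] {A : Type} [CommRing A]

theorem ringPos_GE (x : Polynomial A) : GE 0 (ringPos m A x) := by
  rw [ringPos_eq]
  exact pw_GE (toLaurent_GE x)

theorem ringNeg_LE (x : Polynomial A) : LE 0 (ringNeg m A x) := by
  rw [ringNeg_eq]
  exact pw_LE (rneg_LE x)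

theorem ringPos_coeff_zero (x : Polynomial A) :
    (ringPos m A x).coeff 0 = Polynomial.constantCoeff x := by
  rw [ringPos_eq, RingHom.comp_apply]
  have h1 := pw_coeff_mul (m := m) (Polynomial.toLaurent x) 0
  rw [mul_zero] at h1
  rw [h1, LaurentPolynomial.coeff_toLaurent]
  have := Finsupp.mapDomain_apply (Nat.castEmbedding (R := ℤ)).injective
    x.toFinsupp.coeff 0
  exact this

omit [NeZero m] in
theorem ringPos_C (a : A) : ringPos m A (Polynomial.C a) = C a := by
  rw [ringPos, Polynomial.coe_eval₂RingHom, Polynomial.eval₂_C]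

omit [NeZero m] in
theorem ringNeg_C (a : A) : ringNeg m A (Polynomial.C a) = C a := by
  rw [ringNeg, Polynomial.coe_eval₂RingHom, Polynomial.eval₂_C]

theorem eq_C_of_pos_eq_neg {x y : Polynomial A} (h : ringPos m A x = ringNeg m A y) :
    x = Polynomial.C (Polynomial.constantCoeff x) ∧ y = x := by
  have h2 := eq_C_of_LE_GE (h ▸ ringNeg_LE y : LE 0 (ringPos m A x)) (ringPos_GE x)
  rw [ringPos_coeff_zero] at h2
  have h1 : x = Polynomial.C (Polynomial.constantCoeff x) := by
    apply ringPos_injective (m := m)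
    rw [ringPos_C]
    exact h2
  refine ⟨h1, ?_⟩
  apply ringNeg_injective (m := m)
  rw [← h, h2, h1, ringNeg_C]
  simp

theorem exists_ringPos {x : A[T;T⁻¹]} (h : GE 0 x) (hm : ∀ k, ¬ (m : ℤ) ∣ k → x.coeff k = 0) :
    ∃ p, ringPos m A p = x := by
  obtain ⟨p, hp⟩ := exists_toLaurent (dn m x) (dn_GE h)
  exact ⟨p, by rw [ringPos_eq, RingHom.comp_apply, hp, pw_dn hm]⟩

theorem exists_ringNeg {x : A[T;T⁻¹]} (h : LE 0 x) (hm : ∀ k, ¬ (m : ℤ) ∣ k → x.coeff k = 0) :
    ∃ p, ringNeg m A p = x := by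
  obtain ⟨p, hp⟩ := exists_invert_toLaurent (dn m x) (dn_LE h)
  exact ⟨p, by rw [ringNeg_eq, RingHom.comp_apply, rneg_apply, hp, pw_dn hm]⟩

end Scalar

variable {G : TG} {m : ℕ} [NeZero m] {A : Type} [CommRing A]

theorem map_inj {n n' : Type} {R S : Type} [CommRing R] [CommRing S] (f : R →+* S)
    (hf : Function.Injective f) {x y : Matrix n n' R} (h : x.map f = y.map f) : x = y := by
  ext i j
  apply hf
  exact congrFun (congrFun h i) j

theorem det_of_map {N : ℕ} {R S : Type} [CommRing R] [CommRing S] (f : R →+* S)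
    (hf : Function.Injective f) {x : Matrix (Fin N) (Fin N) R} {y : Matrix (Fin N) (Fin N) S}
    (h : x.map f = y) (hy : y.det = 1) : x.det = 1 := by
  apply hf
  rw [f.map_det x, map_one, ← hy, ← h]
  rfl

/-- A matrix which is polynomial both in `z` and in `z⁻¹` is constant. -/
theorem const_of_pos_eq_neg {n n' : Type} {x y : Matrix n n' (Polynomial A)}
    (h : x.map (ringPos m A) = y.map (ringNeg m A)) :
    x = (x.map Polynomial.constantCoeff).map Polynomial.C ∧ y = x := by
  have h1 := fun i j => eq_C_of_pos_eq_neg (m := m) (congrFun (congrFun h i) j)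
  exact ⟨by ext1 i j; exact (h1 i j).1, by ext1 i j; exact (h1 i j).2⟩

theorem eq_const_of_pos_eq_neg [RatAlg A] {a b : G.Gr (Polynomial A)}
    (h : pos G m A a = neg G m A b) : a = cst G A (ev0 G A a) ∧ b = a := by
  obtain ⟨h1, h2⟩ := const_of_pos_eq_neg (m := m) (congrArg mt h)
  exact ⟨gext h1, gext h2⟩

theorem exists_pos (X : Matrix (Fin G.N) (Fin G.N) A[T;T⁻¹]) (h : MGE 0 X) (hd : X.det = 1)
    (ho : ∀ t ∈ G.ten, t.Fix X) (hm : ∀ i j k, ¬ (m : ℤ) ∣ k → (X i j).coeff k = 0) :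
    ∃ a : G.Gr (Polynomial A), mt (pos G m A a) = X := by
  choose p hp using fun i j => exists_ringPos (m := m) (h i j) (hm i j)
  have hX : (Matrix.of p).map (ringPos m A) = X := by
    ext1 i j
    exact hp i j
  refine ⟨gmk (Matrix.of p) ?_ fun t ht => ?_, hX⟩
  · exact det_of_map _ (ringPos_injective (m := m)) hX hd
  · apply Ten.Fix.of_map (ringPos m A) ringPos_injective
    rw [hX]
    exact ho t ht

theorem exists_neg (X : Matrix (Fin G.N) (Fin G.N) A[T;T⁻¹]) (h : MLE 0 X) (hd : X.det = 1)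
    (ho : ∀ t ∈ G.ten, t.Fix X) (hm : ∀ i j k, ¬ (m : ℤ) ∣ k → (X i j).coeff k = 0) :
    ∃ a : G.Gr (Polynomial A), mt (neg G m A a) = X := by
  choose p hp using fun i j => exists_ringNeg (m := m) (h i j) (hm i j)
  have hX : (Matrix.of p).map (ringNeg m A) = X := by
    ext1 i j
    exact hp i j
  refine ⟨gmk (Matrix.of p) ?_ fun t ht => ?_, hX⟩
  · exact det_of_map _ (ringNeg_injective (m := m)) hX hd
  · apply Ten.Fix.of_map (ringNeg m A) ringNeg_injective
    rw [hX]
    exact ho t ht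

theorem dvd_one_cast (k : ℤ) : ((1 : ℕ) : ℤ) ∣ k := by simp

/-- (K1) If `X = g Y` with `g ∈ G`, `X` polynomial in `z`, `X(0) = 1`, and `Y` polynomial in `z⁻¹`,
then `X` and `Y` fix the tensors. -/
theorem fix_of_fact {g : G.Gr A[T;T⁻¹]} {X Y : Matrix (Fin G.N) (Fin G.N) A[T;T⁻¹]}
    (hX : MGE 0 X) (hX1 : X.det = 1) (hX0 : cf 0 X = 1) (hY : MLE 0 Y) (hY1 : Y.det = 1)
    (h : mt g * Y = X) : ∀ t ∈ G.ten, t.Fix X ∧ t.Fix Y := by
  intro t ht
  choose p hp using fun i j => exists_ringPos (m := 1) (hX i j) fun k hk =>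
    absurd (dvd_one_cast k) hk
  choose q hq using fun i j => exists_ringNeg (m := 1) (hY i j) fun k hk =>
    absurd (dvd_one_cast k) hk
  obtain ⟨P, hP⟩ : ∃ P, P = Matrix.of p := ⟨_, rfl⟩
  obtain ⟨Q, hQ⟩ : ∃ Q, Q = Matrix.of q := ⟨_, rfl⟩
  have hPX : P.map (ringPos 1 A) = X := by
    rw [hP]
    ext1 i j
    exact hp i j
  have hQY : Q.map (ringNeg 1 A) = Y := by
    rw [hQ]
    ext1 i j
    exact hq i j
  have hPd : P.det = 1 := det_of_map _ (ringPos_injective (m := 1)) hPX hX1
  have hQd : Q.det = 1 := det_of_map _ (ringNeg_injective (m := 1)) hQY hY1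
  have hP0 : P.map Polynomial.constantCoeff = 1 := by
    rw [← hX0, ← hPX]
    ext i j
    exact (ringPos_coeff_zero (m := 1) (P i j)).symm
  have hPP := adjugate_mul_self hPd
  have hQQ := adjugate_mul_self hQd
  have hPP' := self_mul_adjugate hPd
  have hQQ' := self_mul_adjugate hQd
  -- the two conjugates of the tensor
  have e : (tpow t.p P.adjugate * t.mat (Polynomial A) * tpow t.q P).map (ringPos 1 A) =
      (tpow t.p Q.adjugate * t.mat (Polynomial A) * tpow t.q Q).map (ringNeg 1 A) := by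
    rw [Matrix.map_mul, Matrix.map_mul, Matrix.map_mul, Matrix.map_mul, tpow_map, tpow_map,
      tpow_map, tpow_map, t.mat_map, t.mat_map, hPX, hQY]
    have hXi : P.adjugate.map (ringPos 1 A) * X = 1 := by
      rw [← hPX, ← Matrix.map_mul, hPP]
      exact Matrix.map_one _ (map_zero _) (map_one _)
    have hYi : Q.adjugate.map (ringNeg 1 A) * Y = 1 := by
      rw [← hQY, ← Matrix.map_mul, hQQ]
      exact Matrix.map_one _ (map_zero _) (map_one _)
    have hYi' : Y * Q.adjugate.map (ringNeg 1 A) = 1 := mul_eq_one_comm.1 hYi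
    have hXe : P.adjugate.map (ringPos 1 A) = Q.adjugate.map (ringNeg 1 A) * mt g⁻¹ := by
      have h1 : X * (Q.adjugate.map (ringNeg 1 A) * mt g⁻¹) = 1 := by
        rw [← h]
        calc mt g * Y * (Q.adjugate.map (ringNeg 1 A) * mt g⁻¹) =
            mt g * (Y * Q.adjugate.map (ringNeg 1 A)) * mt g⁻¹ := by
              simp only [Matrix.mul_assoc]
          _ = 1 := by rw [hYi', Matrix.mul_one, mt_mul_inv]
      calc P.adjugate.map (ringPos 1 A) = P.adjugate.map (ringPos 1 A) *
            (X * (Q.adjugate.map (ringNeg 1 A) * mt g⁻¹)) := by rw [h1, Matrix.mul_one]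
        _ = _ := by rw [← Matrix.mul_assoc, hXi, Matrix.one_mul]
    rw [hXe, ← h, tpow_mul, tpow_mul]
    have h2 : tpow t.p (mt g⁻¹) * t.mat A[T;T⁻¹] * tpow t.q (mt g) = t.mat A[T;T⁻¹] := by
      have h3 : tpow t.p (mt g) * t.mat A[T;T⁻¹] = t.mat A[T;T⁻¹] * tpow t.q (mt g) :=
        (t.fix_iff _).1 (mt_fix g t ht)
      rw [Matrix.mul_assoc, ← h3, ← Matrix.mul_assoc, ← tpow_mul, mt_inv_mul, tpow_one,
        Matrix.one_mul]
    calc tpow t.p (Q.adjugate.map (ringNeg 1 A)) * tpow t.p (mt g⁻¹) * t.mat A[T;T⁻¹] *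
          (tpow t.q (mt g) * tpow t.q Y) = tpow t.p (Q.adjugate.map (ringNeg 1 A)) *
          (tpow t.p (mt g⁻¹) * t.mat A[T;T⁻¹] * tpow t.q (mt g)) * tpow t.q Y := by
          simp only [Matrix.mul_assoc]
      _ = _ := by rw [h2]
  obtain ⟨h1, h2⟩ := const_of_pos_eq_neg e
  have h3 : (tpow t.p P.adjugate * t.mat (Polynomial A) * tpow t.q P).map
      Polynomial.constantCoeff = t.mat A := by
    have h4 : P.adjugate.map (Polynomial.constantCoeff (R := A)) = 1 := by
      have h5 : P.adjugate.map (Polynomial.constantCoeff (R := A)) *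
          P.map Polynomial.constantCoeff = 1 := by
        rw [← Matrix.map_mul, hPP]
        exact Matrix.map_one _ (map_zero _) (map_one _)
      rwa [hP0, Matrix.mul_one] at h5
    rw [Matrix.map_mul, Matrix.map_mul, tpow_map, tpow_map, t.mat_map, hP0, h4, tpow_one,
      tpow_one, Matrix.one_mul, Matrix.mul_one]
  rw [h3, t.mat_map] at h1
  rw [h1] at h2
  have key : ∀ {U : Matrix (Fin G.N) (Fin G.N) (Polynomial A)}, U * U.adjugate = 1 →
      tpow t.p U.adjugate * t.mat (Polynomial A) * tpow t.q U = t.mat (Polynomial A) →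
      t.Fix U := by
    intro U hU h4
    rw [Ten.fix_iff]
    calc tpow t.p U * t.mat (Polynomial A) = tpow t.p U *
          (tpow t.p U.adjugate * t.mat (Polynomial A) * tpow t.q U) := by rw [h4]
      _ = tpow t.p (U * U.adjugate) * t.mat (Polynomial A) * tpow t.q U := by
          rw [tpow_mul]
          simp only [Matrix.mul_assoc]
      _ = _ := by rw [hU, tpow_one, Matrix.one_mul]
  refine ⟨?_, ?_⟩
  · rw [← hPX]
    exact (key hPP' h1).map _
  · rw [← hQY]
    exact (key hQQ' h2).map _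

end

end Vale.Agent.P286.R2.H505
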