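import Vale.Agent.P286.St.TD
import Vale.Agent.P286.R2.H505.BunSt

/-!
# The test categories of `Bun_{G/μ}(ℙ¹)` with its canonical bundle, and of `BG`
-/

namespace Vale.Agent.P286.R2.H505

open CategoryTheory

noncomputable section

/-- The unit `δ` with `t_Y = δ • φ_* t_X`. -/
def BunHom.del {G : TG} {Z : Cen G} {X Y : BunObj G Z} (φ : BunHom X Y) : Y.A.R :=
  delta Z.m φ.f.r φ.a φ.b X.S Y.S

/-- The automorphism of the test object is given by an element of `μ`. -/
def BunHom.IsCen {G : TG} {Z : Cen G} {X : BunObj G Z} (φ : BunHom X X) : Prop :=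
  φ.f = SmAlg.Hm.id X.A ∧ InMu Z.μ φ.a φ.b

/-- The stack `Bun_{G/μ}(ℙ¹)` with its canonical bundle `ω` and the twist `s`, given by its
test objects. -/
def BunT (G : TG) (Z : Cen G) (s : ℂ) : St.TSite where
  C := BunObj G Z
  A := BunObj.A
  f := BunHom.f
  dl := BunHom.del
  cen X := {φ : BunHom X X | φ.IsCen}
  s := s

/-- The classifying stack of `G` (without twist), given by its test objects. -/
def BT (G : TG) : St.TSite where
  C := BGObj G
  A := BGObj.A
  f := BGHom.f
  dl _ := 1
  cen X := {𝟙 X}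
  s := 0

end

end Vale.Agent.P286.R2.H505
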