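import Vale.Agent.P286.Defs
import Vale.Agent.P286.St.ToT
import Vale.Agent.P286.R2.H505.Sites

/-!
# The sites of `Bun_{G/μ}(ℙ¹)` and of `BG`
-/

namespace Vale.Agent.P286.R2.H505

open CategoryTheory LaurentPolynomial

noncomputable section

/-- The ring is a `ℚ`-algebra. -/
class RatAlg (A : Type) [CommRing A] : Prop where
  out : Nonempty (Algebra ℚ A)

instance RatAlg.ofComplex (A : Type) [CommRing A] [Algebra ℂ A] : RatAlg A :=
  ⟨⟨Algebra.compHom A (algebraMap ℚ ℂ)⟩⟩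

/-- The structure of a `ℚ`-algebra. -/
@[reducible] def ratAlg (A : Type) [CommRing A] [h : RatAlg A] : Algebra ℚ A := Classical.choice h.out

instance RatAlg.laurent (A : Type) [CommRing A] [RatAlg A] : RatAlg A[T;T⁻¹] := by
  have := ratAlg A
  exact ⟨⟨inferInstance⟩⟩

instance RatAlg.poly (A : Type) [CommRing A] [RatAlg A] : RatAlg (Polynomial A) := by
  have := ratAlg A
  exact ⟨⟨inferInstance⟩⟩

section Framing

variable {G : TG} {m : ℕ} [NeZero m] {A B : Type} [CommRing A] [CommRing B]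

theorem Ad_mul' [RatAlg A] (x y : G.Gr A) : Ad (x * y) = Ad x * Ad y := by
  have := ratAlg A
  exact Ad_mul x y

/-- `Ad g` as a matrix over `A[z,z⁻¹]` -/
def AdZ (m : ℕ) [NeZero m] (g : G.Gr A[T;T⁻¹]) : Matrix (Fin G.d) (Fin G.d) A[T;T⁻¹] :=
  (Ad g).map (dn m)

theorem toep_def (g : G.Gr A[T;T⁻¹]) : toep m g = vtoep (AdZ m g) := rfl

theorem AdZ_one : AdZ m (1 : G.Gr A[T;T⁻¹]) = 1 := by
  ext1 i j
  rw [AdZ, Matrix.map_apply, Ad_one, Matrix.one_apply]
  split_ifs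
  · exact dn_one
  · exact dn_zero m

theorem AdZ_pos (a : G.Gr (Polynomial A)) :
    AdZ m (pos G m A a) = (Ad a).map (Polynomial.toLaurent (R := A)) := by
  ext1 i j
  rw [AdZ, Matrix.map_apply, pos, Ad_map, Matrix.map_apply, Matrix.map_apply, ringPos_eq,
    RingHom.comp_apply, dn_pw]

theorem AdZ_neg (a : G.Gr (Polynomial A)) : AdZ m (neg G m A a) = (Ad a).map (rneg A) := by
  ext1 i j
  rw [AdZ, Matrix.map_apply, neg, Ad_map, Matrix.map_apply, Matrix.map_apply, ringNeg_eq,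
    RingHom.comp_apply, dn_pw]

theorem pos_MGE (a : G.Gr (Polynomial A)) : MGE 0 (AdZ m (pos G m A a)) := by
  rw [AdZ_pos]
  exact fun p q => toLaurent_GE _

theorem neg_MLE (a : G.Gr (Polynomial A)) : MLE 0 (AdZ m (neg G m A a)) := by
  rw [AdZ_neg]
  exact fun p q => rneg_LE _

theorem AdZ_pos_mul [RatAlg A] (a : G.Gr (Polynomial A)) (g : G.Gr A[T;T⁻¹]) :
    AdZ m (pos G m A a * g) = AdZ m (pos G m A a) * AdZ m g := by
  ext1 i j
  rw [AdZ_pos, AdZ, Matrix.map_apply, Ad_mul', Matrix.mul_apply, Matrix.mul_apply, dn_sum]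
  refine Finset.sum_congr rfl fun k _ => ?_
  rw [pos, Ad_map, Matrix.map_apply, Matrix.map_apply, AdZ, Matrix.map_apply, ringPos_eq,
    RingHom.comp_apply, dn_pw_mul]

theorem AdZ_mul_neg [RatAlg A] (g : G.Gr A[T;T⁻¹]) (b : G.Gr (Polynomial A)) :
    AdZ m (g * neg G m A b) = AdZ m g * AdZ m (neg G m A b) := by
  ext1 i j
  rw [AdZ_neg, AdZ, Matrix.map_apply, Ad_mul', Matrix.mul_apply, Matrix.mul_apply, dn_sum]
  refine Finset.sum_congr rfl fun k _ => ?_
  rw [neg, Ad_map, Matrix.map_apply, Matrix.map_apply, AdZ, Matrix.map_apply, ringNeg_eq,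
    RingHom.comp_apply, dn_mul_pw]

theorem toep_one : toep m (1 : G.Gr A[T;T⁻¹]) = 1 := by
  rw [toep_def, AdZ_one, vtoep_one]

theorem toep_pos_mul [RatAlg A] (a : G.Gr (Polynomial A)) (g : G.Gr A[T;T⁻¹]) :
    toep m (pos G m A a * g) = toep m (pos G m A a) * toep m g := by
  rw [toep_def, AdZ_pos_mul, vtoep_pos_mul (pos_MGE a)]
  rfl

theorem toep_mul_neg [RatAlg A] (g : G.Gr A[T;T⁻¹]) (b : G.Gr (Polynomial A)) :
    toep m (g * neg G m A b) = toep m g * toep m (neg G m A b) := by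
  rw [toep_def, AdZ_mul_neg, vtoep_mul_neg _ (neg_MLE b)]
  rfl

theorem AdZ_map (f : A →+* B) (g : G.Gr A[T;T⁻¹]) : AdZ m (gm G (lmap f) g) = mp f (AdZ m g) := by
  ext1 i j
  rw [AdZ, Matrix.map_apply, Ad_map, Matrix.map_apply, dn_lmap]
  rfl

theorem bc_toep (f : A →+* B) (g : G.Gr A[T;T⁻¹]) :
    bc f (toep m g) = toep m (gm G (lmap f) g) := by
  rw [toep_def, bc_vtoep, toep_def, AdZ_map]

variable [RatAlg A] [RatAlg B]

/-- `G(A[z])` acts on `𝔤 ⊗ A[z⁻¹] = 𝔤 ⊗ A[z,z⁻¹]/z A[z]` by the adjoint action. -/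
def toepPos (G : TG) (m : ℕ) [NeZero m] (A : Type) [CommRing A] [RatAlg A] :
    G.Gr (Polynomial A) →* (Module.End A (Jd G.d →₀ A))ˣ :=
  MonoidHom.toHomUnits
    { toFun := fun a => toep m (pos G m A a)
      map_one' := by rw [map_one, toep_one]
      map_mul' := fun a a' => by rw [map_mul, toep_pos_mul] }

/-- `G(A[z⁻¹])` acts on `𝔤 ⊗ A[z⁻¹]` by the adjoint action. -/
def toepNeg (G : TG) (m : ℕ) [NeZero m] (A : Type) [CommRing A] [RatAlg A] :
    G.Gr (Polynomial A) →* (Module.End A (Jd G.d →₀ A))ˣ :=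
  MonoidHom.toHomUnits
    { toFun := fun b => toep m (neg G m A b)
      map_one' := by rw [map_one, toep_one]
      map_mul' := fun b b' => by rw [map_mul, toep_mul_neg] }

/-- Base change of invertible operators. -/
def bcU {A B : Type} [CommRing A] [CommRing B] (G : TG) (f : A →+* B) : (Module.End A (Jd G.d →₀ A))ˣ →* (Module.End B (Jd G.d →₀ B))ˣ :=
  Units.map (bcHom (Jd G.d) f)

/-- The framing of `g' = a f(g) b⁻¹` induced by a framing of `g`. -/
def transport {A B : Type} [CommRing A] [CommRing B] [RatAlg B] (m : ℕ) [NeZero m] (f : A →+* B) (a b : G.Gr (Polynomial B))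
    (S : (Module.End A (Jd G.d →₀ A))ˣ) : (Module.End B (Jd G.d →₀ B))ˣ :=
  toepPos G m B a * bcU G f S * (toepNeg G m B b)⁻¹

theorem IsFraming.transport {g : G.Gr A[T;T⁻¹]}
    {S : (Module.End A (Jd G.d →₀ A))ˣ} (h : IsFraming m g S) (f : A →+* B)
    {a b : G.Gr (Polynomial B)} {g' : G.Gr B[T;T⁻¹]}
    (e : g' * neg G m B b = pos G m B a * gm G (lmap f) g) :
    IsFraming m g' (R2.H505.transport m f a b S) := by
  have e1 : g' = pos G m B a * (gm G (lmap f) g * neg G m B b⁻¹) := by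
    rw [← mul_assoc, ← e, mul_assoc, ← map_mul, mul_inv_cancel, map_one, mul_one]
  have e2 : ((R2.H505.transport m f a b S : (Module.End B (Jd G.d →₀ B))ˣ) : Module.End B (Jd G.d →₀ B)) -
      toep m g' = toep m (pos G m B a) * bc f ((S : Module.End A (Jd G.d →₀ A)) - toep m g) *
        toep m (neg G m B b⁻¹) := by
    rw [e1, toep_pos_mul, toep_mul_neg, ← bc_toep, bc_sub]
    exact ring_aux₁ (toep m (pos G m B a)) (bc f S) (bc f (toep m g)) (toep m (neg G m B b⁻¹))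
  unfold IsFraming
  rw [e2]
  exact ((h.bc f).mul_left _).mul_right _

theorem IsFraming.div {g : G.Gr A[T;T⁻¹]}
    {S S' : (Module.End A (Jd G.d →₀ A))ˣ} (h : IsFraming m g S) (h' : IsFraming m g S') :
    FinRank (((S * S'⁻¹ : (Module.End A (Jd G.d →₀ A))ˣ) : Module.End A (Jd G.d →₀ A)) - 1) := by
  have e : ((S * S'⁻¹ : (Module.End A (Jd G.d →₀ A))ˣ) : Module.End A (Jd G.d →₀ A)) - 1 =
      (((S : Module.End A (Jd G.d →₀ A)) - toep m g) - ((S' : Module.End A (Jd G.d →₀ A)) - toep m g)) *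
        ((S'⁻¹ : (Module.End A (Jd G.d →₀ A))ˣ) : Module.End A (Jd G.d →₀ A)) :=
    ring_aux₂ (S : Module.End A (Jd G.d →₀ A)) (S' : Module.End A (Jd G.d →₀ A)) (toep m g)
      ((S'⁻¹ : (Module.End A (Jd G.d →₀ A))ˣ) : Module.End A (Jd G.d →₀ A)) (Units.mul_inv S')
  rw [e]
  exact (h.sub h').mul_right _

theorem bcU_toepPos (f : A →+* B) (a : G.Gr (Polynomial A)) :
    bcU G f (toepPos G m A a) = toepPos G m B (gm G (Polynomial.mapRingHom f) a) := by
  apply Units.ext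
  change bc f (toep m (pos G m A a)) = toep m (pos G m B (gm G (Polynomial.mapRingHom f) a))
  rw [bc_toep, map_pos]

theorem bcU_toepNeg (f : A →+* B) (b : G.Gr (Polynomial A)) :
    bcU G f (toepNeg G m A b) = toepNeg G m B (gm G (Polynomial.mapRingHom f) b) := by
  apply Units.ext
  change bc f (toep m (neg G m A b)) = toep m (neg G m B (gm G (Polynomial.mapRingHom f) b))
  rw [bc_toep, map_neg]

theorem bcU_bcU {D : Type} [CommRing D] [RatAlg D] (f : A →+* B) (g : B →+* D)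
    (S : (Module.End A (Jd G.d →₀ A))ˣ) : bcU G g (bcU G f S) = bcU G (g.comp f) S := by
  apply Units.ext
  exact bc_bc f g _

theorem bcU_id (S : (Module.End A (Jd G.d →₀ A))ˣ) : bcU G (RingHom.id A) S = S := by
  apply Units.ext
  exact bc_id _

theorem transport_transport {D : Type} [CommRing D] [RatAlg D] (f : A →+* B) (g : B →+* D)
    (a b : G.Gr (Polynomial B)) (a' b' : G.Gr (Polynomial D)) (S : (Module.End A (Jd G.d →₀ A))ˣ) :
    transport m g a' b' (transport m f a b S) =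
      transport m (g.comp f) (a' * gm G (Polynomial.mapRingHom g) a)
        (b' * gm G (Polynomial.mapRingHom g) b) S := by
  simp only [transport, map_mul, map_inv, bcU_toepPos, bcU_toepNeg, bcU_bcU, mul_assoc,
    mul_inv_rev]

/-- The unit `δ` with `t_{S'} = δ • t_S`, for two framings `S, S'` of the same determinant line. -/
def ratio (S S' : (Module.End A (Jd G.d →₀ A))ˣ)
    (h : FinRank (((S * S'⁻¹ : (Module.End A (Jd G.d →₀ A))ˣ) : Module.End A (Jd G.d →₀ A)) - 1)) :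
    Aˣ :=
  (isUnit_fdet h (Units.isUnit _)).unit

theorem ratio_val (S S' : (Module.End A (Jd G.d →₀ A))ˣ)
    (h : FinRank (((S * S'⁻¹ : (Module.End A (Jd G.d →₀ A))ˣ) : Module.End A (Jd G.d →₀ A)) - 1)) :
    (ratio S S' h : A) =
      fdet ((S * S'⁻¹ : (Module.End A (Jd G.d →₀ A))ˣ) : Module.End A (Jd G.d →₀ A)) := rfl

/-- The cocycle property of the Fredholm determinant. -/
theorem fdet_cocycle (f : A →+* B) (a b : G.Gr (Polynomial B))
    (U S : (Module.End A (Jd G.d →₀ A))ˣ) (S' : (Module.End B (Jd G.d →₀ B))ˣ)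
    (h : FinRank (((U * S⁻¹ : (Module.End A (Jd G.d →₀ A))ˣ) : Module.End A (Jd G.d →₀ A)) - 1))
    (h' : FinRank (((transport m f a b S * S'⁻¹ : (Module.End B (Jd G.d →₀ B))ˣ) :
      Module.End B (Jd G.d →₀ B)) - 1)) :
    fdet ((transport m f a b U * S'⁻¹ : (Module.End B (Jd G.d →₀ B))ˣ) : Module.End B (Jd G.d →₀ B)) =
      fdet ((transport m f a b S * S'⁻¹ : (Module.End B (Jd G.d →₀ B))ˣ) : Module.End B (Jd G.d →₀ B)) *
        f (fdet ((U * S⁻¹ : (Module.End A (Jd G.d →₀ A))ˣ) : Module.End A (Jd G.d →₀ A))) := by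
  have e : transport m f a b U * S'⁻¹ = (toepPos G m B a * bcU G f (U * S⁻¹) * (toepPos G m B a)⁻¹) *
      (transport m f a b S * S'⁻¹) := by
    simp only [transport, map_mul, map_inv]
    group
  have hb : FinRank (((bcU G f (U * S⁻¹) : (Module.End B (Jd G.d →₀ B))ˣ) :
      Module.End B (Jd G.d →₀ B)) - 1) := by
    have := FinRank.bc f h
    rwa [bc_sub, bc_one] at this
  have hc : FinRank (((toepPos G m B a * bcU G f (U * S⁻¹) * (toepPos G m B a)⁻¹ :
      (Module.End B (Jd G.d →₀ B))ˣ) : Module.End B (Jd G.d →₀ B)) - 1) := by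
    have e1 : ((toepPos G m B a * bcU G f (U * S⁻¹) * (toepPos G m B a)⁻¹ :
      (Module.End B (Jd G.d →₀ B))ˣ) : Module.End B (Jd G.d →₀ B)) - 1 =
      (toepPos G m B a : Module.End B (Jd G.d →₀ B)) *
        (((bcU G f (U * S⁻¹) : (Module.End B (Jd G.d →₀ B))ˣ) : Module.End B (Jd G.d →₀ B)) - 1) *
        (((toepPos G m B a)⁻¹ : (Module.End B (Jd G.d →₀ B))ˣ) : Module.End B (Jd G.d →₀ B)) :=
      ring_aux₃ (toepPos G m B a : Module.End B (Jd G.d →₀ B))
        (((toepPos G m B a)⁻¹ : (Module.End B (Jd G.d →₀ B))ˣ) : Module.End B (Jd G.d →₀ B))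
        ((bcU G f (U * S⁻¹) : (Module.End B (Jd G.d →₀ B))ˣ) : Module.End B (Jd G.d →₀ B))
        (Units.mul_inv (toepPos G m B a))
    rw [e1]
    exact (hb.mul_left _).mul_right _
  rw [e, Units.val_mul, fdet_mul hc h', mul_comm]
  congr 1
  rw [Units.val_mul, Units.val_mul, fdet_conj _ hb]
  exact fdet_bc f h

end Framing

/-- The classifying stack of `G/μ`, given by its test objects (with the trivial line bundle). -/
abbrev BG (G : TG) (Z : Cen G) : Site where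
  C := BGObj G
  R X := X.A.R
  res φ := BGHom.f φ
  res_id _ := rfl
  res_comp _ _ := rfl
  dl _ := 1
  dl_comp φ ψ := by simp
  cen X := {φ : X ⟶ X | BGHom.f φ = SmAlg.Hm.id X.A ∧ ∃ c ∈ Z.μ,
    BGHom.h φ = gmf (algebraMap ℂ X.A.R) c}

theorem BunHom.eq {G : TG} {Z : Cen G} {X Y : BunObj G Z} (φ : BunHom X Y) :
    Y.g * neg G Z.m Y.A.R φ.b = pos G Z.m Y.A.R φ.a * gm G (lmap (φ.f : X.A.R →+* Y.A.R)) X.g :=
  φ.glue

theorem BunHom.finRank {G : TG} {Z : Cen G} {X Y : BunObj G Z} (φ : BunHom X Y) :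
    FinRank (((transport Z.m (φ.f : X.A.R →+* Y.A.R) φ.a φ.b X.S * Y.S⁻¹ :
      (Module.End Y.A.R (Jd G.d →₀ Y.A.R))ˣ) : Module.End Y.A.R (Jd G.d →₀ Y.A.R)) - 1) :=
  (X.framing.transport _ φ.eq).div Y.framing

/-- The unit `δ` with `t_Y = δ • φ_* t_X`. -/
def BunHom.dl {G : TG} {Z : Cen G} {X Y : BunObj G Z} (φ : BunHom X Y) : (Y.A.R)ˣ :=
  ratio (transport Z.m (φ.f : X.A.R →+* Y.A.R) φ.a φ.b X.S) Y.S φ.finRank

/-- The stack `Bun_{G/μ}(ℙ¹)` with its canonical bundle `ω`, given by its test objects. -/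
abbrev Bun (G : TG) (Z : Cen G) : Site where
  C := BunObj G Z
  R X := X.A.R
  res φ := BunHom.f φ
  res_id _ := rfl
  res_comp _ _ := rfl
  dl φ := BunHom.dl φ
  dl_comp {X Y W} φ ψ := by
    apply Units.ext
    change fdet ((transport Z.m ((BunHom.f ψ : Y.A.R →+* W.A.R).comp (BunHom.f φ : X.A.R →+* Y.A.R))
        (BunHom.a ψ * gm G (Polynomial.mapRingHom (BunHom.f ψ : Y.A.R →+* W.A.R)) (BunHom.a φ))
        (BunHom.b ψ * gm G (Polynomial.mapRingHom (BunHom.f ψ : Y.A.R →+* W.A.R)) (BunHom.b φ))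
          X.S * W.S⁻¹ :
          (Module.End W.A.R (Jd G.d →₀ W.A.R))ˣ) : Module.End W.A.R (Jd G.d →₀ W.A.R)) = _
    rw [← transport_transport]
    exact fdet_cocycle _ _ _ _ _ _ (BunHom.finRank φ) (BunHom.finRank ψ)
  cen X := {φ : BunHom X X | φ.IsCen}

theorem toT_Bun (G : TG) (Z : Cen G) (s : ℂ) : (Bun G Z).toT s = BunT G Z s := rfl

end

end Vale.Agent.P286.R2.H505
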