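import Vale.Agent.P286.R2.H505.TL
import Vale.Agent.P286.H211.Mu

/-!
# One-parameter groups defined by elements of the Lie algebra with rational eigenvalues
-/

namespace Vale.Agent.P286.R2.H505

open Matrix LaurentPolynomial

noncomputable section

section Gen

variable {k : Type} [Field k]

/-- The polynomials which define the projections onto the generalized eigenspaces. -/
def crtE (S : Finset k) (n : ℕ) : k → Polynomial k :=
  if h : S.Nonempty then (exists_crt S h n).choose else 0

/-- The product of the `(X - b) ^ n`. -/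
def chi (S : Finset k) (n : ℕ) : Polynomial k := ∏ b ∈ S, (Polynomial.X - Polynomial.C b) ^ n

variable {N : ℕ} {R : Type} [CommRing R] [Algebra k R]

/-- The projections. -/
def prj (S : Finset k) (n : ℕ) (p : Matrix (Fin N) (Fin N) R) (a : k) : Matrix (Fin N) (Fin N) R :=
  Polynomial.aeval p (crtE S n a)

variable {S : Finset k} {n : ℕ} {p : Matrix (Fin N) (Fin N) R}
  (h : Polynomial.aeval p (chi S n) = 0)

include h

theorem prj_sum : ∑ a ∈ S, prj S n p a = 1 := by
  rcases S.eq_empty_or_nonempty with hS | hS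
  · subst hS
    rw [chi, Finset.prod_empty, map_one] at h
    rw [Finset.sum_empty, h]
  · simp only [prj, crtE, dif_pos hS]
    rw [← map_sum, (exists_crt S hS n).choose_spec.1, map_one]

theorem prj_mul {a b : k} (ha : a ∈ S) (hb : b ∈ S) (hab : a ≠ b) :
    prj S n p a * prj S n p b = 0 := by
  have hS : S.Nonempty := ⟨a, ha⟩
  simp only [prj, crtE, dif_pos hS]
  rw [← map_mul]
  obtain ⟨c, hc⟩ := (exists_crt S hS n).choose_spec.2.2 a ha b hb hab
  rw [hc, map_mul]
  have h' : Polynomial.aeval p (∏ b ∈ S, (Polynomial.X - Polynomial.C b) ^ n) = 0 := h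
  rw [h', zero_mul]

theorem prj_nil {a : k} (ha : a ∈ S) : (p - algebraMap k _ a) ^ n * prj S n p a = 0 := by
  have hS : S.Nonempty := ⟨a, ha⟩
  simp only [prj, crtE, dif_pos hS]
  obtain ⟨c, hc⟩ := (exists_crt S hS n).choose_spec.2.1 a ha
  have h2 := congrArg (Polynomial.aeval p) hc
  rw [map_mul, map_pow, map_sub, Polynomial.aeval_X, Polynomial.aeval_C, map_mul] at h2
  have h' : Polynomial.aeval p (∏ b ∈ S, (Polynomial.X - Polynomial.C b) ^ n) = 0 := h
  rw [h2, h', zero_mul]

theorem prj_idem {a : k} (ha : a ∈ S) : prj S n p a * prj S n p a = prj S n p a := by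
  classical
  have h1 := congrArg (prj S n p a * ·) (prj_sum h)
  simp only [Finset.mul_sum, mul_one] at h1
  rw [Finset.sum_eq_single a] at h1
  · exact h1
  · intro b hb hba
    exact prj_mul h ha hb (Ne.symm hba)
  · intro h2
    exact absurd ha h2

omit h in
theorem prj_comm (a : k) : p * prj S n p a = prj S n p a * p := by
  have h1 : Commute p (Polynomial.aeval p (crtE S n a)) := by
    have := Polynomial.aeval_X (R := k) p
    have h2 : Commute (Polynomial.aeval p (Polynomial.X : Polynomial k))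
        (Polynomial.aeval p (crtE S n a)) := by
      rw [Commute, SemiconjBy, ← map_mul, ← map_mul, mul_comm]
    rwa [this] at h2
  exact h1

end Gen

section

variable {N : ℕ} {R R' : Type} [CommRing R] [Algebra ℚ R] [CommRing R']
  {S : Finset ℚ} {n : ℕ} {p : Matrix (Fin N) (Fin N) R}
  (h : Polynomial.aeval p (chi S n) = 0)

include h

omit h in
theorem aeval_map' {R₂ : Type} [CommRing R₂] [Algebra ℚ R₂] (φ : R →+* R₂) (q : Polynomial ℚ) :
    Polynomial.aeval (p.map φ) q = (Polynomial.aeval p q).map φ := by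
  have hφ : ∀ a : ℚ, φ (algebraMap ℚ R a) = algebraMap ℚ R₂ a := fun a =>
    RingHom.map_rat_algebraMap φ a
  let Φ : Matrix (Fin N) (Fin N) R →ₐ[ℚ] Matrix (Fin N) (Fin N) R₂ :=
    { φ.mapMatrix with
      commutes' := fun r => by
        change (algebraMap ℚ (Matrix (Fin N) (Fin N) R) r).map φ = _
        ext i j
        rw [Matrix.map_apply, Matrix.algebraMap_matrix_apply, Matrix.algebraMap_matrix_apply]
        split_ifs
        · exact hφ r
        · exact map_zero φ }
  exact Polynomial.aeval_algHom_apply Φ p q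

omit h in
theorem prj_map {R₂ : Type} [CommRing R₂] [Algebra ℚ R₂] (φ : R →+* R₂) (a : ℚ) :
    prj S n (p.map φ) a = (prj S n p a).map φ := aeval_map' φ _

omit h in
/-- The one-parameter group `T ↦ T^{c p}`. -/
def opg (S : Finset ℚ) (n : ℕ) (p : Matrix (Fin N) (Fin N) R) (f : R →+* R') (u : ℤ → R')
    (κ : ℚ → ℤ) : Matrix (Fin N) (Fin N) R' :=
  ∑ a ∈ S, u (κ a) • (prj S n p a).map f

variable (f : R →+* R') (u : ℤ → R') (hu0 : u 0 = 1) (hu : ∀ a b, u (a + b) = u a * u b)
  (κ : ℚ → ℤ)

include hu0 hu in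
theorem opg_mul_neg : opg S n p f u κ * opg S n p f u (-κ) = 1 := by
  classical
  have h1 : ∀ a ∈ S, (u (κ a) • (prj S n p a).map f) * opg S n p f u (-κ) = (prj S n p a).map f := by
    intro a ha
    rw [opg, Finset.mul_sum, Finset.sum_eq_single a]
    · rw [Matrix.smul_mul, Matrix.mul_smul, ← Matrix.map_mul, prj_idem h ha, smul_smul, ← hu,
        Pi.neg_apply, add_neg_cancel, hu0, one_smul]
    · intro b hb hba
      rw [Matrix.smul_mul, Matrix.mul_smul, ← Matrix.map_mul, prj_mul h ha hb (Ne.symm hba)]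
      simp
    · intro h2
      exact absurd ha h2
  rw [opg, Finset.sum_mul, Finset.sum_congr rfl h1]
  have h3 : ∑ a ∈ S, (prj S n p a).map f = (∑ a ∈ S, prj S n p a).map f := by
    ext i j
    simp [Matrix.sum_apply]
  rw [h3, prj_sum h]
  simp

include hu in
theorem opg_conj {c : ℤ} (hκ : ∀ a ∈ S, (κ a : ℚ) = c * a) {x : Matrix (Fin N) (Fin N) R} {l : ℤ}
    (hx : p * x - x * p = (l : R) • x) :
    opg S n p f u κ * x.map f = u (c * l) • (x.map f * opg S n p f u κ) := by
  classical
  have hz : ∀ a ∈ S, ∀ b ∈ S, a ≠ b + l → prj S n p a * x * prj S n p b = 0 := by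
    intro a ha b hb hab
    have h1 : p * x = x * (p + algebraMap ℚ _ (l : ℚ)) := by
      rw [Matrix.mul_add, sub_eq_iff_eq_add.1 hx, add_comm]
      congr 1
      rw [map_intCast, ← (Int.cast_commute l x).eq, ← zsmul_eq_mul, Int.cast_smul_eq_zsmul]
    refine inter_zero h1 (prj_comm a) ?_ hab (prj_nil h ha) (l := n) ?_
    · rw [Matrix.add_mul, Matrix.mul_add, prj_comm, Algebra.commutes]
    · have h2 : p + algebraMap ℚ (Matrix (Fin N) (Fin N) R) (l : ℚ) -
          algebraMap ℚ (Matrix (Fin N) (Fin N) R) (b + l) = p - algebraMap ℚ _ b := by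
        rw [map_add]
        abel
      rw [h2]
      exact prj_nil h hb
  have h1 : ∀ y : Matrix (Fin N) (Fin N) R, y = ∑ b ∈ S, y * prj S n p b := by
    intro y
    rw [← Finset.mul_sum, prj_sum h, Matrix.mul_one]
  have h2 : ∀ y : Matrix (Fin N) (Fin N) R, y = ∑ b ∈ S, prj S n p b * y := by
    intro y
    rw [← Finset.sum_mul, prj_sum h, Matrix.one_mul]
  have hsm : ∀ (s : Finset ℚ) (y : ℚ → Matrix (Fin N) (Fin N) R),
      (∑ a ∈ s, y a).map f = ∑ a ∈ s, (y a).map f := by
    intro s y
    ext i j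
    simp [Matrix.sum_apply]
  have e1 : opg S n p f u κ * x.map f =
      ∑ a ∈ S, ∑ b ∈ S, u (κ a) • (prj S n p a * x * prj S n p b).map f := by
    rw [opg, Finset.sum_mul]
    refine Finset.sum_congr rfl fun a _ => ?_
    rw [Matrix.smul_mul, ← Matrix.map_mul, ← Finset.smul_sum, ← hsm, ← h1]
  have e2 : x.map f * opg S n p f u κ =
      ∑ a ∈ S, ∑ b ∈ S, u (κ b) • (prj S n p a * x * prj S n p b).map f := by
    rw [opg, Finset.mul_sum, Finset.sum_comm]
    refine Finset.sum_congr rfl fun b _ => ?_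
    rw [Matrix.mul_smul, ← Matrix.map_mul, ← Finset.smul_sum, ← hsm]
    simp only [Matrix.mul_assoc]
    rw [← h2]
  rw [e1, e2, Finset.smul_sum]
  refine Finset.sum_congr rfl fun a ha => ?_
  rw [Finset.smul_sum]
  refine Finset.sum_congr rfl fun b hb => ?_
  by_cases hab : a = b + l
  · have h5 : κ a = c * l + κ b := by
      have h6 : (κ a : ℚ) = ((c * l + κ b : ℤ) : ℚ) := by
        push_cast
        rw [hκ a ha, hκ b hb, hab]
        ring
      exact_mod_cast h6
    rw [h5, hu, smul_smul]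
  · rw [hz a ha b hb hab]
    simp

omit h in
include hu0 hu in
theorem tpow_opg (q : ℕ) : tpow q (opg S n p f u κ) =
    ∑ α ∈ Fintype.piFinset (fun _ : Fin q => S),
      u (∑ k, κ (α k)) • (tens fun k => prj S n p (α k)).map f := by
  classical
  rw [tpow_eq, opg, tens_sum]
  refine Finset.sum_congr rfl fun α _ => ?_
  have hprod : ∀ (s : Finset (Fin q)) (g : Fin q → ℤ), ∏ k ∈ s, u (g k) = u (∑ k ∈ s, g k) := by
    intro s g
    induction s using Finset.induction_on with
    | empty => rw [Finset.prod_empty, Finset.sum_empty, hu0]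
    | insert a s ha ih => rw [Finset.prod_insert ha, Finset.sum_insert ha, ih, hu]
  ext i j
  rw [tens_apply, Matrix.smul_apply, Matrix.map_apply, tens_apply, map_prod, ← hprod, smul_eq_mul,
    ← Finset.prod_mul_distrib]
  rfl

include hu0 hu in
/-- The one-parameter group fixes the tensors which are killed by `p`. -/
theorem opg_fix {c : ℤ} (hκ : ∀ a ∈ S, (κ a : ℚ) = c * a) {t : Ten N} (ht : t.Kill p) :
    t.Fix (opg S n p f u κ) := by
  classical
  have hz : ∀ α ∈ Fintype.piFinset (fun _ : Fin t.p => S),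
      ∀ β ∈ Fintype.piFinset (fun _ : Fin t.q => S), ∑ k, α k ≠ ∑ k, β k →
      (tens fun k => prj S n p (α k)) * t.mat R * (tens fun k => prj S n p (β k)) = 0 := by
    intro α hα β hβ hαβ
    rw [Fintype.mem_piFinset] at hα hβ
    obtain ⟨m1, h1⟩ := tens_nilp (x := p) (E := fun k => prj S n p (α k)) (α := α) (n := n)
      fun k => prj_nil h (hα k)
    obtain ⟨m2, h2⟩ := tens_nilp (x := p) (E := fun k => prj S n p (β k)) (α := β) (n := n)
      fun k => prj_nil h (hβ k)
    exact inter_zero (t.kill_iff p |>.1 ht) (tens_comm fun k => prj_comm (α k)) (tens_comm fun k => prj_comm (β k))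
      hαβ h1 h2
  have hone : ∀ q : ℕ, ∑ α ∈ Fintype.piFinset (fun _ : Fin q => S),
      (tens fun k => prj S n p (α k)) = 1 := by
    intro q
    rw [← tens_sum S (fun (_ : Fin q) a => prj S n p a)]
    simp only [prj_sum h]
    exact tens_one
  have hsm : ∀ {a b : Type} (s : Finset (Fin t.q → ℚ)) (y : (Fin t.q → ℚ) → Matrix a b R),
      (∑ α ∈ s, y α).map f = ∑ α ∈ s, (y α).map f := by
    intro a b s y
    ext i j
    simp [Matrix.sum_apply]
  have hsm' : ∀ {a b : Type} (s : Finset (Fin t.p → ℚ)) (y : (Fin t.p → ℚ) → Matrix a b R),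
      (∑ α ∈ s, y α).map f = ∑ α ∈ s, (y α).map f := by
    intro a b s y
    ext i j
    simp [Matrix.sum_apply]
  rw [Ten.fix_iff]
  rw [tpow_opg f u hu0 hu κ, tpow_opg f u hu0 hu κ, Matrix.sum_mul, Matrix.mul_sum, ← t.mat_map f]
  have e1 : ∀ α : Fin t.p → ℚ, (u (∑ k, κ (α k)) • (tens fun k => prj S n p (α k)).map f) *
      (t.mat R).map f = ∑ β ∈ Fintype.piFinset (fun _ : Fin t.q => S), u (∑ k, κ (α k)) •
        ((tens fun k => prj S n p (α k)) * t.mat R * (tens fun k => prj S n p (β k))).map f := by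
    intro α
    rw [Matrix.smul_mul, ← Matrix.map_mul, ← Finset.smul_sum, ← hsm, ← Matrix.mul_sum, hone,
      Matrix.mul_one]
  have e2 : ∀ β : Fin t.q → ℚ, (t.mat R).map f *
      (u (∑ k, κ (β k)) • (tens fun k => prj S n p (β k)).map f) =
      ∑ α ∈ Fintype.piFinset (fun _ : Fin t.p => S), u (∑ k, κ (β k)) •
        ((tens fun k => prj S n p (α k)) * t.mat R * (tens fun k => prj S n p (β k))).map f := by
    intro β
    have e3 : ∑ α ∈ Fintype.piFinset (fun _ : Fin t.p => S),
        ((tens fun k => prj S n p (α k)) * t.mat R * (tens fun k => prj S n p (β k))) =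
        t.mat R * (tens fun k => prj S n p (β k)) := by
      rw [← Matrix.sum_mul, ← Matrix.sum_mul, hone, Matrix.one_mul]
    rw [Matrix.mul_smul, ← Matrix.map_mul, ← Finset.smul_sum, ← hsm', e3]
  rw [Finset.sum_congr rfl fun α _ => e1 α, Finset.sum_congr rfl fun β _ => e2 β, Finset.sum_comm]
  refine Finset.sum_congr rfl fun β hβ => Finset.sum_congr rfl fun α hα => ?_
  by_cases hαβ : ∑ k, α k = ∑ k, β k
  · have h5 : ∑ k, κ (α k) = ∑ k, κ (β k) := by
      rw [Fintype.mem_piFinset] at hα hβ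
      have h6 : ((∑ k, κ (α k) : ℤ) : ℚ) = ((∑ k, κ (β k) : ℤ) : ℚ) := by
        push_cast
        rw [Finset.sum_congr rfl fun k _ => hκ (α k) (hα k),
          Finset.sum_congr rfl fun k _ => hκ (β k) (hβ k), ← Finset.mul_sum, ← Finset.mul_sum, hαβ]
      exact_mod_cast h6
    rw [h5]
  · rw [hz α hα β hβ hαβ]
    ext i j
    simp

end

section Jacobi

variable {A : Type} [CommRing A] {m : Type} [Fintype m] [DecidableEq m]

open DualNumber TrivSqZeroExt

theorem det_one_add_eps (X : Matrix m m A) :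
    (1 + X.map (fun a => (inr a : DualNumber A))).det = inl 1 + inr X.trace := by
  let Φ : Polynomial A →+* DualNumber A := Polynomial.eval₂RingHom (inlHom A A) DualNumber.eps
  have hX : Φ Polynomial.X = DualNumber.eps := Polynomial.eval₂_X _ _
  have hC : ∀ a, Φ (Polynomial.C a) = inl a := fun a => Polynomial.eval₂_C _ _
  have h1 := congrArg Φ (Matrix.det_one_add_X_smul X)
  generalize (1 + (Polynomial.X : Polynomial A) • X.map Polynomial.C).det.divX.divX = Q at h1
  have h3 : Φ ((1 : Polynomial A) + X.trace • Polynomial.X + Q * Polynomial.X ^ 2) =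
      inl 1 + inr X.trace := by
    rw [map_add Φ, map_add Φ, map_mul Φ Q, map_pow, hX, DualNumber.eps_pow_two, mul_zero,
      add_zero, map_one, ← Polynomial.C_mul', map_mul Φ, hX, hC, DualNumber.inr_eq_smul_eps,
      ← TrivSqZeroExt.inl_mul_eq_smul]
    rfl
  rw [h3, RingHom.map_det] at h1
  have h2 : Φ.mapMatrix (1 + (Polynomial.X : Polynomial A) • X.map Polynomial.C) =
      1 + X.map (fun a => (inr a : DualNumber A)) := by
    rw [map_add, map_one]
    congr 1
    ext1 i j
    change Φ (Polynomial.X * Polynomial.C (X i j)) = inr (X i j)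
    rw [map_mul, hX, hC, mul_comm, DualNumber.inr_eq_smul_eps, ← TrivSqZeroExt.inl_mul_eq_smul]
  rw [h2] at h1
  exact h1

/-- Jacobi's formula. -/
theorem jacobi (δ : A → A) (hadd : ∀ a b, δ (a + b) = δ a + δ b)
    (hmul : ∀ a b, δ (a * b) = a * δ b + b * δ a) (D D' : Matrix m m A) (h : D * D' = 1) :
    δ D.det = D.det * (D' * D.map δ).trace := by
  have h0 : δ 0 = 0 := by
    have := hadd 0 0
    simpa using this
  have h1 : δ 1 = 0 := by
    have := hmul 1 1
    simpa using this
  let Ψ : A →+* DualNumber A :=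
    { toFun := fun a => inl a + inr (δ a)
      map_one' := by rw [h1, inr_zero, add_zero]; rfl
      map_mul' := fun a b => by
        ext
        · simp
        · simp [hmul, mul_comm]
      map_zero' := by rw [h0, inr_zero, add_zero]; rfl
      map_add' := fun a b => by
        ext
        · simp
        · simp [hadd] }
  have h2 : Ψ.mapMatrix D = (inlHom A A).mapMatrix D *
      (1 + (D' * D.map δ).map (fun a => (inr a : DualNumber A))) := by
    rw [mul_add, mul_one]
    have h3 : (inlHom A A).mapMatrix D * (D' * D.map δ).map (fun a => (inr a : DualNumber A)) =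
        (D * (D' * D.map δ)).map (fun a => (inr a : DualNumber A)) := by
      ext1 i j
      rw [Matrix.mul_apply, Matrix.map_apply, Matrix.mul_apply, TrivSqZeroExt.inr_sum]
      refine Finset.sum_congr rfl fun k _ => ?_
      rw [Matrix.map_apply, RingHom.mapMatrix_apply, Matrix.map_apply]
      exact TrivSqZeroExt.inl_mul_inr _ _
    rw [h3, ← Matrix.mul_assoc, h, Matrix.one_mul]
    rfl
  have h4 := congrArg Matrix.det h2
  rw [← RingHom.map_det, Matrix.det_mul, ← RingHom.map_det, det_one_add_eps] at h4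
  have h5 := congrArg TrivSqZeroExt.snd h4
  change (inl D.det + inr (δ D.det) : DualNumber A).snd =
    ((inl D.det : DualNumber A) * (inl 1 + inr (D' * D.map δ).trace)).snd at h5
  simpa using h5

end Jacobi

section Det

variable {N : ℕ} {R : Type} [CommRing R]

theorem eulerL_coeff (x : R[T;T⁻¹]) (k : ℤ) : (eulerL R x).coeff k = (k : R) * x.coeff k := by
  induction x using LaurentPolynomial.induction_on' with
  | add p q hp hq => simp only [map_add, AddMonoidAlgebra.coeff_add, Finsupp.add_apply, hp, hq]; ring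
  | C_mul_T n a =>
    rw [eulerL_C_mul_T]
    have h1 : ((n : ℤ) : R[T;T⁻¹]) * (C a * T n) = C ((n : R) * a) * T n := by
      rw [map_mul, map_intCast, mul_assoc]
    rw [h1, ← single_eq_C_mul_T, ← single_eq_C_mul_T, AddMonoidAlgebra.coeff_single,
      AddMonoidAlgebra.coeff_single, Finsupp.single_apply, Finsupp.single_apply]
    split_ifs with h
    · rw [h]
    · rw [mul_zero]

theorem eq_C_of_eulerL [Algebra ℚ R] {x : R[T;T⁻¹]} (h : eulerL R x = 0) : x = C (x.coeff 0) := by
  ext k
  by_cases hk : k = 0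
  · subst hk
    simp
  · have h1 := eulerL_coeff x k
    rw [h, AddMonoidAlgebra.coeff_zero, Finsupp.zero_apply] at h1
    have h2 : x.coeff k = 0 := by
      have h3 : (algebraMap ℚ R ((k : ℚ)⁻¹)) * ((k : R) * x.coeff k) = x.coeff k := by
        rw [← mul_assoc]
        have h4 : algebraMap ℚ R ((k : ℚ)⁻¹) * (k : R) = 1 := by
          rw [← map_intCast (algebraMap ℚ R), ← map_mul, inv_mul_cancel₀ (by exact_mod_cast hk),
            map_one]
        rw [h4, one_mul]
      rw [← h3, ← h1, mul_zero]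
    rw [h2]
    have h5 : (C (x.coeff 0) : R[T;T⁻¹]) = C (x.coeff 0) * T 0 := by rw [T_zero, mul_one]
    rw [h5, ← single_eq_C_mul_T, AddMonoidAlgebra.coeff_single, Finsupp.single_apply,
      if_neg (Ne.symm hk)]

variable [Algebra ℚ R] {S : Finset ℚ} {n : ℕ} {p : Matrix (Fin N) (Fin N) R}

theorem trace_prj [IsReduced R] (h : Polynomial.aeval p (chi S n) = 0) (htr : p.trace = 0)
    {κ : ℚ → ℤ} {c : ℤ} (hκ : ∀ a ∈ S, (κ a : ℚ) = c * a) :
    ∑ a ∈ S, (κ a : R) * (prj S n p a).trace = 0 := by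
  have h1 : ∀ a ∈ S, (κ a : R) * (prj S n p a).trace = (c : R) * (p * prj S n p a).trace := by
    intro a ha
    have h2 : ((p - algebraMap ℚ _ a) * prj S n p a).trace = 0 := by
      have h3 : IsNilpotent ((p - algebraMap ℚ _ a) * prj S n p a) := by
        refine ⟨n + 1, ?_⟩
        have hc : Commute (p - algebraMap ℚ _ a) (prj S n p a) :=
          Commute.sub_left (prj_comm a) (Algebra.commutes a _)
        rw [hc.mul_pow, pow_succ' (prj S n p a), ← mul_assoc, pow_succ' (p - _), mul_assoc (p - _),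
          prj_nil h ha, mul_zero, zero_mul]
      exact (Matrix.isNilpotent_trace_of_isNilpotent h3).eq_zero
    rw [sub_mul, Matrix.trace_sub, sub_eq_zero] at h2
    rw [h2, Algebra.algebraMap_eq_smul_one, Matrix.smul_mul, Matrix.one_mul, Matrix.trace_smul]
    have h4 : (κ a : R) = algebraMap ℚ R (c * a) := by
      rw [← hκ a ha, map_intCast]
    rw [h4, map_mul, map_intCast, Algebra.smul_def, mul_assoc]
  rw [Finset.sum_congr rfl h1, ← Finset.mul_sum, ← Matrix.trace_sum, ← Finset.mul_sum, prj_sum h,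
    mul_one, htr, mul_zero]

theorem opg_det0 [IsReduced R] (h : Polynomial.aeval p (chi S n) = 0) (htr : p.trace = 0)
    {κ : ℚ → ℤ} {c : ℤ} (hκ : ∀ a ∈ S, (κ a : ℚ) = c * a) :
    (opg S n p (C : R →+* R[T;T⁻¹]) T κ).det = 1 := by
  classical
  have hD : opg S n p (C : R →+* R[T;T⁻¹]) T κ * opg S n p (C : R →+* R[T;T⁻¹]) T (-κ) = 1 :=
    opg_mul_neg h C T T_zero T_add κ
  have hD' : opg S n p (C : R →+* R[T;T⁻¹]) T (-κ) * opg S n p (C : R →+* R[T;T⁻¹]) T κ = 1 :=
    mul_eq_one_comm.1 hD
  have h1 := jacobi (eulerL R) (map_add _) (eulerL_mul R) _ _ hD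
  have h2 : (opg S n p (C : R →+* R[T;T⁻¹]) T κ).map (eulerL R) =
      ∑ a ∈ S, ((κ a : R[T;T⁻¹]) * T (κ a)) • (prj S n p a).map (C : R →+* R[T;T⁻¹]) := by
    ext1 i j
    rw [Matrix.map_apply, opg, Matrix.sum_apply, Matrix.sum_apply, map_sum]
    refine Finset.sum_congr rfl fun a _ => ?_
    rw [Matrix.smul_apply, Matrix.map_apply, Matrix.smul_apply, Matrix.map_apply, smul_eq_mul,
      smul_eq_mul, mul_comm (T (κ a)), eulerL_C_mul_T]
    ring
  have h3 : opg S n p (C : R →+* R[T;T⁻¹]) T (-κ) *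
      (∑ a ∈ S, ((κ a : R[T;T⁻¹]) * T (κ a)) • (prj S n p a).map (C : R →+* R[T;T⁻¹])) =
      ∑ a ∈ S, (κ a : R[T;T⁻¹]) • (prj S n p a).map (C : R →+* R[T;T⁻¹]) := by
    rw [Finset.mul_sum]
    refine Finset.sum_congr rfl fun a ha => ?_
    rw [opg, Finset.sum_mul, Finset.sum_eq_single a]
    · rw [Matrix.smul_mul, Matrix.mul_smul, ← Matrix.map_mul, prj_idem h ha, smul_smul]
      congr 1
      have : (T ((-κ) a) : R[T;T⁻¹]) * T (κ a) = 1 := by
        rw [← T_add, Pi.neg_apply, neg_add_cancel, T_zero]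
      linear_combination (κ a : R[T;T⁻¹]) * this
    · intro b hb hba
      rw [Matrix.smul_mul, Matrix.mul_smul, ← Matrix.map_mul, prj_mul h hb ha hba]
      simp
    · intro h2
      exact absurd ha h2
  have h4 : (∑ a ∈ S, (κ a : R[T;T⁻¹]) • (prj S n p a).map (C : R →+* R[T;T⁻¹])).trace = 0 := by
    rw [Matrix.trace_sum]
    have h5 : ∀ a, ((κ a : R[T;T⁻¹]) • (prj S n p a).map (C : R →+* R[T;T⁻¹])).trace =
        C ((κ a : R) * (prj S n p a).trace) := by
      intro a
      rw [Matrix.trace_smul, trace_map', map_mul, map_intCast, smul_eq_mul]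
    simp only [h5]
    rw [← map_sum, trace_prj h htr hκ, map_zero]
  rw [h2, h3, h4, mul_zero] at h1
  have h6 := eq_C_of_eulerL h1
  let ev : R[T;T⁻¹] →+* R := LaurentPolynomial.eval₂ (RingHom.id R) 1
  have h7 : ev (opg S n p (C : R →+* R[T;T⁻¹]) T κ).det = 1 := by
    rw [RingHom.map_det]
    have h8 : ev.mapMatrix (opg S n p (C : R →+* R[T;T⁻¹]) T κ) = 1 := by
      rw [← prj_sum h, opg, map_sum]
      refine Finset.sum_congr rfl fun a _ => ?_
      ext1 i j
      rw [RingHom.mapMatrix_apply, Matrix.map_apply, Matrix.smul_apply, Matrix.map_apply,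
        smul_eq_mul, map_mul]
      have e1 : ev (T (κ a)) = 1 := by
        change LaurentPolynomial.eval₂ _ _ (T (κ a)) = 1
        rw [eval₂_T, _root_.one_zpow, Units.val_one]
      have e2 : ev (C (prj S n p a i j)) = prj S n p a i j := eval₂_C _ _ _
      rw [e1, e2, one_mul]
    rw [h8, Matrix.det_one]
  rw [h6] at h7 ⊢
  have h9 : ev (C ((opg S n p (C : R →+* R[T;T⁻¹]) T κ).det.coeff 0)) =
    (opg S n p (C : R →+* R[T;T⁻¹]) T κ).det.coeff 0 := eval₂_C _ _ _
  rw [h9] at h7
  rw [h7, map_one]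

theorem opg_det [IsReduced R] (h : Polynomial.aeval p (chi S n) = 0) (htr : p.trace = 0)
    {κ : ℚ → ℤ} {c : ℤ} (hκ : ∀ a ∈ S, (κ a : ℚ) = c * a) {R' : Type} [CommRing R']
    (f : R →+* R') (u : ℤ → R') (hu0 : u 0 = 1) (hu : ∀ a b, u (a + b) = u a * u b) :
    (opg S n p f u κ).det = 1 := by
  let U : R'ˣ := ⟨u 1, u (-1), by rw [← hu, add_neg_cancel, hu0], by rw [← hu, neg_add_cancel, hu0]⟩
  have hU : ∀ k : ℤ, ((U ^ k : R'ˣ) : R') = u k := by
    intro k
    induction k using Int.induction_on with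
    | zero => rw [zpow_zero, Units.val_one, hu0]
    | succ i ih => rw [_root_.zpow_add_one, Units.val_mul, ih, hu]
    | pred i ih => rw [_root_.zpow_sub_one, Units.val_mul, ih, sub_eq_add_neg, hu]; rfl
  let Φ : R[T;T⁻¹] →+* R' := LaurentPolynomial.eval₂ f U
  have e1 : ∀ k, Φ (T k) = u k := fun k => by
    change LaurentPolynomial.eval₂ f U (T k) = u k
    rw [eval₂_T, hU]
  have e2 : ∀ a, Φ (C a) = f a := fun a => eval₂_C _ _ _
  have h1 : opg S n p f u κ = Φ.mapMatrix (opg S n p (C : R →+* R[T;T⁻¹]) T κ) := by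
    rw [opg, opg, map_sum]
    refine Finset.sum_congr rfl fun a _ => ?_
    ext1 i j
    rw [RingHom.mapMatrix_apply, Matrix.map_apply, Matrix.smul_apply, Matrix.map_apply,
      Matrix.smul_apply, Matrix.map_apply, smul_eq_mul, smul_eq_mul, map_mul, e1, e2]
  rw [h1, ← RingHom.map_det, opg_det0 h htr hκ, map_one]

end Det

end

end Vale.Agent.P286.R2.H505
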