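import Vale.Agent.P286.R2.H505.Lie

/-!
# One-parameter groups defined by elements of the Lie algebra with rational eigenvalues
-/

namespace Vale.Agent.P286.R2.H505

open Matrix

noncomputable section

section CRT

open Polynomial

variable {k : Type} [Field k]

/-- The idempotents of the chinese remainder theorem. -/
theorem exists_crt (S : Finset k) (hS : S.Nonempty) (n : ℕ) :
    ∃ e : k → k[X], ∑ a ∈ S, e a = 1 ∧
      (∀ a ∈ S, (∏ b ∈ S, (X - C b) ^ n) ∣ (X - C a) ^ n * e a) ∧
      ∀ a ∈ S, ∀ b ∈ S, a ≠ b → (∏ b ∈ S, (X - C b) ^ n) ∣ e a * e b := by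
  classical
  obtain ⟨μ, hμ⟩ := (exists_sum_eq_one_iff_pairwise_coprime (s := fun b : k => ((X - C b) ^ n : k[X]))
    hS).2 (by
      intro a b hab
      apply IsCoprime.pow
      exact Polynomial.isCoprime_X_sub_C_of_isUnit_sub
        (isUnit_iff_ne_zero.2 (sub_ne_zero.2 fun h => hab (Subtype.ext h))))
  have h1 : ∀ a ∈ S, (∏ b ∈ S, (X - C b) ^ n : k[X]) = (X - C a) ^ n * ∏ b ∈ S \ {a}, (X - C b) ^ n := by
    intro a ha
    rw [Finset.sdiff_singleton_eq_erase, Finset.mul_prod_erase S (fun b => (X - C b : k[X]) ^ n) ha]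
  refine ⟨fun a => μ a * ∏ b ∈ S \ {a}, (X - C b) ^ n, hμ, ?_, ?_⟩
  · intro a ha
    rw [h1 a ha]
    exact ⟨μ a, by ring⟩
  · intro a ha b hb hab
    have h2 : (X - C b : k[X]) ^ n ∣ ∏ c ∈ S \ {a}, (X - C c) ^ n :=
      Finset.dvd_prod_of_mem (fun c => (X - C c : k[X]) ^ n)
        (Finset.mem_sdiff.2 ⟨hb, fun h => hab (Finset.mem_singleton.1 h).symm⟩)
    rw [h1 b hb]
    obtain ⟨c, hc⟩ := h2
    refine ⟨μ a * c * μ b, ?_⟩
    beta_reduce
    rw [hc]
    ring

end CRT

section Inter

variable {m n R : Type} [Fintype m] [DecidableEq m] [Fintype n] [DecidableEq n]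
  [CommRing R] {k : Type} [Field k] [Algebra k R]

theorem aeval_inter {P : Matrix m m R} {P' : Matrix n n R} {t : Matrix m n R}
    (h : P * t = t * P') (q : Polynomial k) :
    Polynomial.aeval P q * t = t * Polynomial.aeval P' q := by
  induction q using Polynomial.induction_on' with
  | add p q hp hq => rw [map_add, map_add, Matrix.add_mul, Matrix.mul_add, hp, hq]
  | monomial r a =>
    rw [Polynomial.aeval_monomial, Polynomial.aeval_monomial]
    have h1 : ∀ r, P ^ r * t = t * P' ^ r := by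
      intro r
      induction r with
      | zero => rw [pow_zero, pow_zero, Matrix.one_mul, Matrix.mul_one]
      | succ r ih => rw [pow_succ, Matrix.mul_assoc, h, ← Matrix.mul_assoc, ih, Matrix.mul_assoc,
          ← pow_succ]
    rw [← Algebra.smul_def, ← Algebra.smul_def, Matrix.smul_mul, Matrix.mul_smul, h1]

/-- Intertwiners preserve the generalized eigenspaces. -/
theorem inter_zero {P : Matrix m m R} {P' : Matrix n n R} {t : Matrix m n R}
    (h : P * t = t * P') {E : Matrix m m R} {E' : Matrix n n R} (hE : P * E = E * P)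
    (hE' : P' * E' = E' * P') {x y : k} (hxy : x ≠ y) {r l : ℕ}
    (h1 : (P - algebraMap k _ x) ^ r * E = 0) (h2 : (P' - algebraMap k _ y) ^ l * E' = 0) :
    E * t * E' = 0 := by
  have hY : P * (E * t * E') = (E * t * E') * P' := by
    calc P * (E * t * E') = (P * E) * t * E' := by simp only [Matrix.mul_assoc]
      _ = E * (P * t) * E' := by rw [hE]; simp only [Matrix.mul_assoc]
      _ = E * t * (P' * E') := by rw [h]; simp only [Matrix.mul_assoc]
      _ = _ := by rw [hE']; simp only [Matrix.mul_assoc]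
  set Y := E * t * E' with hYd
  obtain ⟨u, v, huv⟩ : IsCoprime ((Polynomial.X - Polynomial.C x) ^ r)
      ((Polynomial.X - Polynomial.C y : Polynomial k) ^ l) := by
    apply IsCoprime.pow
    exact Polynomial.isCoprime_X_sub_C_of_isUnit_sub (isUnit_iff_ne_zero.2 (sub_ne_zero.2 hxy))
  have e1 : Polynomial.aeval P ((Polynomial.X - Polynomial.C x) ^ r) * Y = 0 := by
    rw [map_pow, map_sub, Polynomial.aeval_X, Polynomial.aeval_C, hYd, Matrix.mul_assoc,
      ← Matrix.mul_assoc, h1, Matrix.zero_mul]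
  have e2 : Y * Polynomial.aeval P' ((Polynomial.X - Polynomial.C x) ^ r) = 0 := by
    rw [← aeval_inter hY, e1]
  have e3 : Y * Polynomial.aeval P' ((Polynomial.X - Polynomial.C y) ^ l) = 0 := by
    rw [map_pow, map_sub, Polynomial.aeval_X, Polynomial.aeval_C, hYd, Matrix.mul_assoc]
    have h3 : E' * (P' - algebraMap k _ y) ^ l = (P' - algebraMap k _ y) ^ l * E' := by
      have : Commute E' (P' - algebraMap k _ y) :=
        (Commute.sub_right (show Commute E' P' from hE'.symm)
          (Algebra.commutes y E').symm)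
      exact this.pow_right l
    rw [h3, h2, Matrix.mul_zero]
  have e4 := congrArg (fun q => Y * Polynomial.aeval P' q) huv
  simp only [map_add, map_mul, map_one, Matrix.mul_one] at e4
  rw [← e4, Matrix.mul_add]
  have c1 : Polynomial.aeval P' u * Polynomial.aeval P' ((Polynomial.X - Polynomial.C x) ^ r) =
      Polynomial.aeval P' ((Polynomial.X - Polynomial.C x) ^ r) * Polynomial.aeval P' u := by
    rw [← map_mul, ← map_mul, mul_comm]
  have c2 : Polynomial.aeval P' v * Polynomial.aeval P' ((Polynomial.X - Polynomial.C y) ^ l) =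
      Polynomial.aeval P' ((Polynomial.X - Polynomial.C y) ^ l) * Polynomial.aeval P' v := by
    rw [← map_mul, ← map_mul, mul_comm]
  rw [c1, c2, ← Matrix.mul_assoc, ← Matrix.mul_assoc, e2, e3, Matrix.zero_mul, Matrix.zero_mul,
    add_zero]

end Inter

section Nilp

variable {A : Type} [Ring A]

theorem add_pow_mul_zero {x y e : A} (hxy : Commute x y) {a b : ℕ} (h1 : x ^ a * e = 0)
    (h2 : y ^ b * e = 0) : (x + y) ^ (a + b) * e = 0 := by
  rw [hxy.add_pow, Finset.sum_mul]
  refine Finset.sum_eq_zero fun m _ => ?_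
  have h3 : x ^ m * y ^ (a + b - m) * e = 0 := by
    by_cases hm : a ≤ m
    · obtain ⟨c, rfl⟩ := Nat.exists_eq_add_of_le hm
      have h4 : x ^ (a + c) * y ^ (a + b - (a + c)) * e = x ^ c * y ^ (a + b - (a + c)) * (x ^ a * e) := by
        rw [add_comm a c, pow_add, mul_assoc (x ^ c), mul_assoc, mul_assoc (x ^ c), ← mul_assoc _ _ e,
          ((hxy.pow_pow a (a + b - (c + a)))).eq, mul_assoc (x ^ c), mul_assoc (y ^ _)]
      rw [h4, h1, mul_zero]
    · have h5 : b ≤ a + b - m := by omega
      obtain ⟨c, hc⟩ := Nat.exists_eq_add_of_le' h5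
      rw [hc, pow_add, mul_assoc, mul_assoc, h2, mul_zero, mul_zero]
  have h6 : x ^ m * y ^ (a + b - m) * (((a + b).choose m : ℕ) : A) * e =
      (((a + b).choose m : ℕ) : A) * (x ^ m * y ^ (a + b - m) * e) := by
    rw [(Nat.cast_commute ((a + b).choose m) (x ^ m * y ^ (a + b - m))).eq.symm, mul_assoc]
  rw [h6, h3, mul_zero]

theorem sum_pow_mul_zero {ι : Type} (s : Finset ι) (y : ι → A) (e : A)
    (hc : ∀ i j, Commute (y i) (y j)) (h : ∀ i ∈ s, ∃ a, y i ^ a * e = 0) :
    ∃ a, (∑ i ∈ s, y i) ^ a * e = 0 := by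
  classical
  induction s using Finset.induction_on with
  | empty => exact ⟨1, by simp⟩
  | insert i s hi ih =>
    obtain ⟨a, ha⟩ := h i (Finset.mem_insert_self i s)
    obtain ⟨b, hb⟩ := ih fun j hj => h j (Finset.mem_insert_of_mem hj)
    refine ⟨a + b, ?_⟩
    rw [Finset.sum_insert hi]
    exact add_pow_mul_zero (Commute.sum_right _ _ _ fun j _ => hc i j) ha hb

end Nilp

section Tensor

variable {N : ℕ} {R : Type} [CommRing R]

theorem tat_smul_one {p : ℕ} (k : Fin p) (r : R) :
    tat k (r • (1 : Matrix (Fin N) (Fin N) R)) = r • 1 := by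
  rw [tat_smul, tat]
  congr 1
  have h : Function.update (fun _ : Fin p => (1 : Matrix (Fin N) (Fin N) R)) k 1 = fun _ => 1 := by
    funext l
    by_cases hl : l = k
    · subst hl; simp
    · simp [Function.update_of_ne hl]
  rw [h, tens_one]

theorem tat_mul_tens {p : ℕ} (k : Fin p) (x : Matrix (Fin N) (Fin N) R)
    (f : Fin p → Matrix (Fin N) (Fin N) R) :
    tat k x * tens f = tens (Function.update f k (x * f k)) := by
  rw [tat, tens_mul]
  congr 1
  funext l
  by_cases hl : l = k
  · subst hl; simp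
  · simp [Function.update_of_ne hl]

theorem tens_mul_tat {p : ℕ} (k : Fin p) (x : Matrix (Fin N) (Fin N) R)
    (f : Fin p → Matrix (Fin N) (Fin N) R) :
    tens f * tat k x = tens (Function.update f k (f k * x)) := by
  rw [tat, tens_mul]
  congr 1
  funext l
  by_cases hl : l = k
  · subst hl; simp
  · simp [Function.update_of_ne hl]

theorem tat_pow {p : ℕ} (k : Fin p) (x : Matrix (Fin N) (Fin N) R) (n : ℕ) :
    tat k x ^ n = tat k (x ^ n) := by
  induction n with
  | zero =>
    rw [pow_zero, pow_zero]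
    have := tat_smul_one (N := N) k (1 : R)
    rw [one_smul, one_smul] at this
    exact this.symm
  | succ n ih => rw [pow_succ, ih, tat_mul, pow_succ]

theorem tens_zero {p : ℕ} (f : Fin p → Matrix (Fin N) (Fin N) R) (k : Fin p) :
    tens (Function.update f k 0) = 0 := by
  have := tens_update_smul f k (0 : R) 0
  rwa [smul_zero, zero_smul] at this

theorem tens_sum {p : ℕ} {ι : Type} [DecidableEq ι] (S : Finset ι)
    (f : Fin p → ι → Matrix (Fin N) (Fin N) R) :
    tens (fun k => ∑ a ∈ S, f k a) = ∑ α ∈ Fintype.piFinset (fun _ : Fin p => S),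
      tens fun k => f k (α k) := by
  ext i j
  simp only [tens_apply, Matrix.sum_apply]
  rw [Finset.prod_univ_sum]

variable [Algebra ℚ R]

theorem tens_nilp {p : ℕ} {x : Matrix (Fin N) (Fin N) R} {E : Fin p → Matrix (Fin N) (Fin N) R}
    {α : Fin p → ℚ} {n : ℕ}
    (h : ∀ k, (x - algebraMap ℚ _ (α k)) ^ n * E k = 0) :
    ∃ m, (tder p x - algebraMap ℚ _ (∑ k, α k)) ^ m * tens E = 0 := by
  have h1 : tder p x - algebraMap ℚ (Matrix (Fin p → Fin N) (Fin p → Fin N) R) (∑ k, α k) =
      ∑ k, tat k (x - algebraMap ℚ _ (α k)) := by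
    rw [tder_eq, map_sum, ← Finset.sum_sub_distrib]
    refine Finset.sum_congr rfl fun k _ => ?_
    have h2 : algebraMap ℚ (Matrix (Fin N) (Fin N) R) (α k) = algebraMap ℚ R (α k) • 1 := by
      rw [Algebra.algebraMap_eq_smul_one, algebraMap_smul]
    have h3 : algebraMap ℚ (Matrix (Fin p → Fin N) (Fin p → Fin N) R) (α k) =
        algebraMap ℚ R (α k) • 1 := by
      rw [Algebra.algebraMap_eq_smul_one, algebraMap_smul]
    rw [h2, h3, sub_eq_add_neg x, tat_add, ← neg_smul, tat_smul_one, neg_smul, ← sub_eq_add_neg]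
  rw [h1]
  refine sum_pow_mul_zero _ _ _ ?_ ?_
  · intro i j
    by_cases hij : i = j
    · subst hij
      exact Commute.refl _
    · exact tat_comm hij _ _
  · intro k _
    refine ⟨n, ?_⟩
    rw [tat_pow, tat_mul_tens, h, tens_zero]

omit [Algebra ℚ R] in
theorem tens_comm {p : ℕ} {x : Matrix (Fin N) (Fin N) R} {E : Fin p → Matrix (Fin N) (Fin N) R}
    (h : ∀ k, x * E k = E k * x) : tder p x * tens E = tens E * tder p x := by
  rw [tder_eq, Finset.sum_mul, Finset.mul_sum]
  refine Finset.sum_congr rfl fun k _ => ?_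
  rw [tat_mul_tens, tens_mul_tat, h]

end Tensor

end

end Vale.Agent.P286.R2.H505
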