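import Vale.Agent.P286.R2.H505.Defs
import Vale.Agent.P286.R2.H505.TL
import Vale.Agent.P286.R2.H505.OPG

/-!
# Derivations and logarithmic derivatives
-/

namespace Vale.Agent.P286.R2.H505

open Matrix

noncomputable section

/-- The derivations of a ring. -/
abbrev DerZ (R : Type) [CommRing R] : Type := Derivation ℤ R R

/-- A derivation from its underlying map. -/
def derOf {R : Type} [CommRing R] (f : R → R) (hadd : ∀ a b, f (a + b) = f a + f b)
    (hmul : ∀ a b, f (a * b) = a * f b + b * f a) : DerZ R :=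
  Derivation.mk' (AddMonoidHom.toIntLinearMap (AddMonoidHom.mk' f hadd)) hmul

theorem derOf_apply {R : Type} [CommRing R] (f : R → R) (hadd : ∀ a b, f (a + b) = f a + f b)
    (hmul : ∀ a b, f (a * b) = a * f b + b * f a) (x : R) : derOf f hadd hmul x = f x := rfl

variable {R : Type} [CommRing R] (δ : DerZ R)

theorem dmul {l m n : Type} [Fintype m] (X : Matrix l m R) (Y : Matrix m n R) :
    (X * Y).map δ = X.map δ * Y + X * Y.map δ := by
  ext i j
  rw [Matrix.map_apply, Matrix.mul_apply, map_sum, Matrix.add_apply, Matrix.mul_apply,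
    Matrix.mul_apply, ← Finset.sum_add_distrib]
  refine Finset.sum_congr rfl fun k _ => ?_
  rw [Derivation.leibniz, smul_eq_mul, smul_eq_mul, Matrix.map_apply, Matrix.map_apply]
  ring

theorem dvec {m n : Type} [Fintype n] (X : Matrix m n R) (v : n → R) :
    (fun i => δ ((X *ᵥ v) i)) = X.map δ *ᵥ v + X *ᵥ (fun i => δ (v i)) := by
  funext i
  rw [Pi.add_apply, Matrix.mulVec, Matrix.mulVec, Matrix.mulVec, dotProduct, dotProduct, dotProduct,
    map_sum, ← Finset.sum_add_distrib]
  refine Finset.sum_congr rfl fun k _ => ?_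
  rw [Derivation.leibniz, smul_eq_mul, smul_eq_mul, Matrix.map_apply]
  ring

theorem d_int (n : ℤ) : δ (n : R) = 0 := by
  have h := Derivation.map_algebraMap δ n
  simpa using h

theorem dint {m n : Type} (X : Matrix m n ℤ) : (X.map (Int.castRingHom R)).map δ = 0 := by
  ext i j
  rw [Matrix.map_apply, Matrix.map_apply, Matrix.zero_apply]
  exact d_int δ _

variable {N : ℕ}

theorem d_tens {p : ℕ} (x : Fin p → Matrix (Fin N) (Fin N) R) :
    (tens x).map δ = ∑ k, tens (Function.update x k ((x k).map δ)) := by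
  classical
  ext i j
  rw [Matrix.map_apply, tens_apply, Matrix.sum_apply]
  have key : ∀ (s : Finset (Fin p)) (f : Fin p → R), δ (∏ k ∈ s, f k) =
      ∑ k ∈ s, δ (f k) * ∏ l ∈ s.erase k, f l := by
    intro s f
    induction s using Finset.induction_on with
    | empty => simp
    | insert a s ha ih =>
      rw [Finset.prod_insert ha, Derivation.leibniz, smul_eq_mul, smul_eq_mul, ih,
        Finset.sum_insert ha, Finset.erase_insert ha, Finset.mul_sum, add_comm]
      congr 1
      · ring
      · refine Finset.sum_congr rfl fun k hk => ?_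
        have hka : a ≠ k := fun h => ha (h ▸ hk)
        rw [Finset.erase_insert_of_ne hka, Finset.prod_insert
          (fun h => ha (Finset.mem_of_mem_erase h))]
        ring
  rw [key]
  refine Finset.sum_congr rfl fun k _ => ?_
  rw [tens_apply, ← Finset.mul_prod_erase Finset.univ _ (Finset.mem_univ k),
    Function.update_self, Matrix.map_apply]
  congr 1
  refine Finset.prod_congr rfl fun l hl => ?_
  rw [Function.update_of_ne (Finset.ne_of_mem_erase hl)]

theorem d_tpow (p : ℕ) {g gi : Matrix (Fin N) (Fin N) R} (h : gi * g = 1) :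
    (tpow p g).map δ = tder p (g.map δ * gi) * tpow p g := by
  rw [tpow_eq, d_tens, tder_eq, Finset.sum_mul]
  refine Finset.sum_congr rfl fun k _ => ?_
  rw [tat_mul_tens, Matrix.mul_assoc, h, Matrix.mul_one]

/-- The logarithmic derivative is in the Lie algebra. -/
theorem isLie_d {ten : Set (Ten N)} {g gi : Matrix (Fin N) (Fin N) R} (h : gi * g = 1)
    (hf : ∀ t ∈ ten, t.Fix g) (hd : g.det = 1) : IsLie ten (g.map δ * gi) := by
  have h' : g * gi = 1 := mul_eq_one_comm.1 h
  refine ⟨?_, fun t ht => ?_⟩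
  · have h1 := jacobi δ (fun a b => map_add δ a b) (fun a b => by
      rw [Derivation.leibniz, smul_eq_mul, smul_eq_mul]) g gi h'
    rw [hd, one_mul, Derivation.map_one_eq_zero] at h1
    rw [Matrix.trace_mul_comm, ← h1]
  · have h1 := congrArg (fun X : Matrix (Fin t.p → Fin N) (Fin t.q → Fin N) R => X.map δ)
      ((t.fix_iff g).1 (hf t ht))
    simp only [dmul, d_tpow δ _ h] at h1
    have h2 : (t.mat R).map δ = 0 := by
      ext i j
      rw [Matrix.map_apply, Matrix.zero_apply, Ten.mat, Matrix.of_apply, d_int]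
    rw [h2, Matrix.mul_zero, add_zero, Matrix.zero_mul, zero_add, Matrix.mul_assoc] at h1
    have h3 : tpow t.p g * t.mat R = t.mat R * tpow t.q g := (t.fix_iff g).1 (hf t ht)
    rw [h3, ← Matrix.mul_assoc, ← Matrix.mul_assoc] at h1
    have h4 := congrArg (fun X : Matrix (Fin t.p → Fin N) (Fin t.q → Fin N) R => X * tpow t.q gi) h1
    simp only [Matrix.mul_assoc, ← tpow_mul, h', tpow_one, Matrix.mul_one] at h4
    exact (t.kill_iff _).2 h4

variable {G : TG}

theorem d_ad (v : Fin G.d → R) : (G.ad v).map δ = G.ad (fun i => δ (v i)) := by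
  ext i j
  rw [Matrix.map_apply, TG.ad, TG.ad, Matrix.sum_apply, Matrix.sum_apply, map_sum]
  refine Finset.sum_congr rfl fun k _ => ?_
  rw [Matrix.smul_apply, Matrix.smul_apply, smul_eq_mul, smul_eq_mul, Derivation.leibniz,
    Matrix.map_apply]
  have h : δ ((Int.castRingHom R) (G.adM k i j)) = 0 := d_int δ _
  rw [h, smul_zero, zero_add, smul_eq_mul, mul_comm]

theorem d_li (v : Fin G.d → R) : (G.li v).map δ = G.li (fun i => δ (v i)) := by
  ext i j
  rw [Matrix.map_apply, TG.li, TG.li, Matrix.sum_apply, Matrix.sum_apply, map_sum]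
  refine Finset.sum_congr rfl fun k _ => ?_
  rw [Matrix.smul_apply, Matrix.smul_apply, smul_eq_mul, smul_eq_mul, Derivation.leibniz,
    Matrix.map_apply]
  have h : δ ((Int.castRingHom R) (G.b k i j)) = 0 := d_int δ _
  rw [h, smul_zero, zero_add, smul_eq_mul, mul_comm]

theorem d_inv {n : Type} [Fintype n] [DecidableEq n] {g gi : Matrix n n R} (h : g * gi = 1) :
    gi.map δ = -(gi * g.map δ * gi) := by
  have h' : gi * g = 1 := mul_eq_one_comm.1 h
  have h1 := congrArg (fun X : Matrix n n R => X.map δ) h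
  simp only [dmul] at h1
  have h2 : (1 : Matrix n n R).map δ = 0 := by
    ext i j
    rw [Matrix.map_apply, Matrix.one_apply, Matrix.zero_apply]
    split_ifs
    · exact Derivation.map_one_eq_zero δ
    · exact map_zero δ
  rw [h2] at h1
  have h3 : g * gi.map δ = -(g.map δ * gi) := by
    rw [eq_neg_iff_add_eq_zero, add_comm]
    exact h1
  calc gi.map δ = gi * (g * gi.map δ) := by rw [← Matrix.mul_assoc, h', Matrix.one_mul]
    _ = _ := by rw [h3, Matrix.mul_neg, Matrix.mul_assoc]

/-- The derivative of the adjoint representation. -/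
theorem d_Ad [Algebra ℚ R] (g : G.Gr R) :
    (Ad g).map δ = G.ad (G.co ((mt g).map δ * mt g⁻¹)) * Ad g := by
  have hL : IsLie G.ten ((mt g).map δ * mt g⁻¹) := isLie_d δ (mt_inv_mul g) (mt_fix g) (det_mt g)
  have h0 : ∀ j : Fin G.d, G.li ((Ad g).map δ *ᵥ Pi.single j 1) =
      G.li ((G.ad (G.co ((mt g).map δ * mt g⁻¹)) * Ad g) *ᵥ Pi.single j 1) := by
    intro j
    rw [← Matrix.mulVec_mulVec, G.li_ad, G.li_co hL, li_Ad]
    have h1 : (Ad g).map δ *ᵥ Pi.single j 1 = fun i => δ ((Ad g *ᵥ Pi.single j 1) i) := by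
      funext i
      simp
    rw [h1, ← d_li, li_Ad, dmul, dmul, d_inv δ (mt_mul_inv g)]
    have h2 : (G.li (Pi.single j 1 : Fin G.d → R)).map δ = 0 := by
      rw [d_li]
      have h3 : (fun i => δ ((Pi.single j 1 : Fin G.d → R) i)) = 0 := by
        funext i
        by_cases hi : i = j
        · subst hi
          simp
        · simp [hi]
      rw [h3, ← G.liL_apply, map_zero]
    rw [h2, Matrix.mul_zero, add_zero, Matrix.mul_neg, ← sub_eq_add_neg]
    congr 1
    · calc (mt g).map δ * G.li (Pi.single j 1) * mt g⁻¹ =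
          (mt g).map δ * (mt g⁻¹ * mt g) * G.li (Pi.single j 1) * mt g⁻¹ := by
            rw [mt_inv_mul, Matrix.mul_one]
        _ = _ := by simp only [Matrix.mul_assoc]
    · simp only [Matrix.mul_assoc]
  ext i j
  have := congrFun (G.li_injective (h0 j)) i
  simpa using this

theorem isUnit_kill [Algebra ℚ R] (hK : G.kill.det ≠ 0) :
    IsUnit (G.kill.map (Int.castRingHom R)).det := by
  have h1 : (G.kill.map (Int.castRingHom R)).det = algebraMap ℚ R ((G.kill.det : ℤ) : ℚ) := by
    rw [map_intCast, Int.cast_det]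
    rfl
  rw [h1]
  exact (isUnit_iff_ne_zero.2 (by exact_mod_cast hK)).map (algebraMap ℚ R)

theorem ad_injective [Algebra ℚ R] (hK : G.kill.det ≠ 0) {v : Fin G.d → R} (h : G.ad v = 0) :
    v = 0 := by
  have h1 : v ᵥ* (G.kill.map (Int.castRingHom R)) = 0 := by
    funext j
    have h2 := G.kill_apply v (Pi.single j 1 : Fin G.d → R)
    rw [h, Matrix.zero_mul, Matrix.trace_zero, Matrix.dotProduct_mulVec] at h2
    simpa using h2.symm
  calc v = (v ᵥ* (G.kill.map (Int.castRingHom R))) ᵥ* (G.kill.map (Int.castRingHom R))⁻¹ := by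
        rw [Matrix.vecMul_vecMul, Matrix.mul_nonsing_inv _ (isUnit_kill hK), Matrix.vecMul_one]
    _ = 0 := by rw [h1, Matrix.zero_vecMul]

/-- Frames with constant structure constants are moved by inner derivations. -/
theorem inner_frame {P P' W : Matrix (Fin G.d) (Fin G.d) R} (hP : P * P' = 1)
    (hB : ∀ i k j, δ (TG.fr P P' i k j) = 0)
    (hW : W * (P.transpose * G.kill.map (Int.castRingHom R) * P) = 1) :
    P.map δ = G.ad (P *ᵥ repr (TG.fr P P') W (P' * P.map δ)) * P := by
  have hP' : P' * P = 1 := mul_eq_one_comm.1 hP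
  have hfr : ∀ v, G.ad (P *ᵥ v) * P = P * ∑ i, v i • TG.fr P P' i := ad_frame hP
  have hPD : P * (P' * P.map δ) = P.map δ := by rw [← Matrix.mul_assoc, hP, Matrix.one_mul]
  have hD : ∀ j, (P' * P.map δ) * TG.fr P P' j - TG.fr P P' j * (P' * P.map δ) =
      ∑ k, (P' * P.map δ) k j • TG.fr P P' k := by
    intro j
    have h1 : G.ad (fun k => P k j) * P = P * TG.fr P P' j := by
      rw [TG.fr, ← Matrix.mul_assoc, ← Matrix.mul_assoc, hP, Matrix.one_mul]
    have h2 := congrArg (fun X : Matrix (Fin G.d) (Fin G.d) R => X.map δ) h1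
    simp only [dmul, d_ad] at h2
    have h3 : (TG.fr P P' j).map δ = 0 := by
      ext k l
      exact hB j k l
    rw [h3, Matrix.mul_zero, add_zero] at h2
    have h4 : (fun i => δ (P i j)) = P *ᵥ (fun k => (P' * P.map δ) k j) := by
      funext i
      exact (congrFun (congrFun hPD i) j).symm
    rw [h4, hfr, ← hPD, ← Matrix.mul_assoc (G.ad _), h1] at h2
    have h5 := congrArg (P' * ·) h2
    simp only [Matrix.mul_add, ← Matrix.mul_assoc, hP', Matrix.one_mul] at h5
    rw [sub_eq_iff_eq_add, ← h5, Matrix.mul_assoc (TG.fr P P' j)]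
  have h6 := inner_of_derivation (TG.fr P P') W _ (P' * P.map δ) (TG.fr_J hP) (TG.fr_Q hP) hW hD
  rw [hfr, ← h6, hPD]

end

end Vale.Agent.P286.R2.H505
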