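import Vale.Agent.P286.R2.H505.Der

/-!
# Central elements act trivially on the Lie algebra
-/

namespace Vale.Agent.P286.R2.H505

open Matrix DualNumber TrivSqZeroExt

noncomputable section

variable {A : Type} [CommRing A]

theorem prod_eps {ι : Type} [DecidableEq ι] (s : Finset ι) (a b : ι → A) :
    ∏ k ∈ s, (inl (a k) + inr (b k) : DualNumber A) =
      inl (∏ k ∈ s, a k) + inr (∑ k ∈ s, b k * ∏ l ∈ s.erase k, a l) := by
  induction s using Finset.induction_on with
  | empty => simp
  | insert i s hi ih =>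
    rw [Finset.prod_insert hi, ih, Finset.prod_insert hi, Finset.sum_insert hi,
      Finset.erase_insert hi]
    have h1 : ∑ k ∈ s, b k * ∏ l ∈ (insert i s).erase k, a l =
        a i * ∑ k ∈ s, b k * ∏ l ∈ s.erase k, a l := by
      rw [Finset.mul_sum]
      refine Finset.sum_congr rfl fun k hk => ?_
      have hki : i ≠ k := fun h => hi (h ▸ hk)
      rw [Finset.erase_insert_of_ne hki, Finset.prod_insert
        (fun h => hi (Finset.mem_of_mem_erase h))]
      ring
    rw [h1]
    ext
    · simp
    · simp
      ring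

/-- The matrix `1 + ε x`. -/
def oneEps {m : Type} [DecidableEq m] (x : Matrix m m A) : Matrix m m (DualNumber A) :=
  1 + x.map (fun a => (inr a : DualNumber A))

theorem oneEps_apply {m : Type} [DecidableEq m] (x : Matrix m m A) (i j : m) :
    oneEps x i j = inl ((1 : Matrix m m A) i j) + inr (x i j) := by
  rw [oneEps, Matrix.add_apply, Matrix.map_apply]
  congr 1
  rw [Matrix.one_apply, Matrix.one_apply]
  split_ifs
  · rfl
  · rw [inl_zero]

theorem tpow_oneEps {N : ℕ} (p : ℕ) (x : Matrix (Fin N) (Fin N) A) (i j : Fin p → Fin N) :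
    tpow p (oneEps x) i j = inl ((1 : Matrix _ _ A) i j) + inr (tder p x i j) := by
  classical
  have h1 : tpow p (oneEps x) i j = ∏ k, oneEps x (i k) (j k) := rfl
  rw [h1]
  simp only [oneEps_apply]
  rw [prod_eps]
  congr 2
  have h2 := congrFun (congrFun (tens_one (N := N) (R := A) (p := p)) i) j
  rw [tens_apply] at h2
  exact h2

theorem fix_oneEps {N : ℕ} {t : Ten N} {x : Matrix (Fin N) (Fin N) A} (h : t.Kill x) :
    t.Fix (oneEps x) := by
  classical
  rw [Ten.fix_iff]
  ext1 i j
  have hk := congrFun (congrFun ((t.kill_iff x).1 h) i) j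
  rw [Matrix.mul_apply, Matrix.mul_apply] at hk ⊢
  have ht : ∀ i j, t.mat (DualNumber A) i j = inl (t.mat A i j) := by
    intro i j
    rw [Ten.mat, Ten.mat, Matrix.of_apply, Matrix.of_apply]
    exact (map_intCast (inlHom A A) _).symm
  simp only [ht, tpow_oneEps]
  have e1 : ∑ l, ((inl ((1 : Matrix _ _ A) i l) + inr (tder t.p x i l)) * inl (t.mat A l j) :
      DualNumber A) = inl (t.mat A i j) + inr (∑ l, tder t.p x i l * t.mat A l j) := by
    have : ∀ l, ((inl ((1 : Matrix _ _ A) i l) + inr (tder t.p x i l)) * inl (t.mat A l j) :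
        DualNumber A) = inl ((1 : Matrix _ _ A) i l * t.mat A l j) +
          inr (tder t.p x i l * t.mat A l j) := by
      intro l
      ext <;> simp
    rw [Finset.sum_congr rfl fun l _ => this l, Finset.sum_add_distrib, ← inl_sum, ← inr_sum]
    congr 2
    have := Matrix.mul_apply (M := (1 : Matrix _ _ A)) (N := t.mat A) (i := i) (k := j)
    rw [Matrix.one_mul] at this
    exact this.symm
  have e2 : ∑ l, (inl (t.mat A i l) * (inl ((1 : Matrix _ _ A) l j) + inr (tder t.q x l j)) :
      DualNumber A) = inl (t.mat A i j) + inr (∑ l, t.mat A i l * tder t.q x l j) := by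
    have : ∀ l, (inl (t.mat A i l) * (inl ((1 : Matrix _ _ A) l j) + inr (tder t.q x l j)) :
        DualNumber A) = inl (t.mat A i l * (1 : Matrix _ _ A) l j) +
          inr (t.mat A i l * tder t.q x l j) := by
      intro l
      ext <;> simp
    rw [Finset.sum_congr rfl fun l _ => this l, Finset.sum_add_distrib, ← inl_sum, ← inr_sum]
    congr 2
    have := Matrix.mul_apply (M := t.mat A) (N := (1 : Matrix _ _ A)) (i := i) (k := j)
    rw [Matrix.mul_one] at this
    exact this.symm
  rw [e1, e2, hk]

variable {G : TG}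

/-- The tangent vector `x` as a point of `G` over the dual numbers. -/
def tan {x : Matrix (Fin G.N) (Fin G.N) A} (h : IsLie G.ten x) : G.Gr (DualNumber A) :=
  gmk (oneEps x) (by rw [oneEps, det_one_add_eps, h.1, inr_zero, add_zero]; rfl)
    (fun t ht => fix_oneEps (h.2 t ht))

/-- Central elements commute with the Lie algebra. -/
theorem central_comm [Algebra ℂ A] {c : G.Gr ℂ} (hc : ∀ (R : Type) [CommRing R] [Algebra ℂ R]
    (x : G.Gr R), gmul (gmf (algebraMap ℂ R) c) x = gmul x (gmf (algebraMap ℂ R) c))
    {x : Matrix (Fin G.N) (Fin G.N) A} (h : IsLie G.ten x) :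
    mt (gm G (algebraMap ℂ A) c) * x = x * mt (gm G (algebraMap ℂ A) c) := by
  have h1 := congrArg mt (hc (DualNumber A) (tan h))
  change mt (gm G (algebraMap ℂ (DualNumber A)) c) * oneEps x =
    oneEps x * mt (gm G (algebraMap ℂ (DualNumber A)) c) at h1
  have h2 : ∀ i j, mt (gm G (algebraMap ℂ (DualNumber A)) c) i j =
      inl (mt (gm G (algebraMap ℂ A) c) i j) := fun i j => rfl
  ext i j
  have h3 := congrArg TrivSqZeroExt.snd (congrFun (congrFun h1 i) j)
  rw [Matrix.mul_apply, Matrix.mul_apply, snd_sum, snd_sum] at h3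
  simp only [h2, oneEps_apply] at h3
  rw [Matrix.mul_apply, Matrix.mul_apply]
  simpa using h3

end

end Vale.Agent.P286.R2.H505
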