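import Mathlib

/-!
# Derivations of Lie algebras with a nondegenerate Killing form, and their filtered version
-/

namespace Vale.Agent.P286.R2.H505

open Matrix

section

variable {ι R : Type} [Fintype ι] [DecidableEq ι] [CommRing R]

/-- The element which represents the functional `x ↦ tr (D ad x)`. -/
def repr (B : ι → Matrix ι ι R) (W D : Matrix ι ι R) (i : ι) : R :=
  ∑ j, W i j * (D * B j).trace

theorem almost_inner (B : ι → Matrix ι ι R) (W Q D : Matrix ι ι R)
    (hJ : ∀ i j, B i * B j - B j * B i = ∑ k, B i k j • B k)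
    (hQ : ∀ i j, Q i j = (B i * B j).trace) (hWQ : W * Q = 1) (P : ι → Matrix ι ι R)
    (hD : ∀ j, D * B j - B j * D = ∑ k, D k j • B k + P j) :
    D - ∑ i, repr B W D i • B i = -(W * Matrix.of fun l j => (B l * P j).trace) := by
  have hQW : Q * W = 1 := mul_eq_one_comm.1 hWQ
  have hQs : ∀ i j, Q i j = Q j i := fun i j => by rw [hQ, hQ, Matrix.trace_mul_comm]
  set H := ∑ i, repr B W D i • B i with hH
  have h1 : ∀ l, (H * B l).trace = (D * B l).trace := by
    intro l
    rw [hH, Finset.sum_mul, Matrix.trace_sum]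
    simp only [Matrix.smul_mul, Matrix.trace_smul, smul_eq_mul, ← hQ, repr, Finset.sum_mul]
    rw [Finset.sum_comm]
    have h2 : ∀ j, ∑ i, W i j * (D * B j).trace * Q i l = (Q * W) l j * (D * B j).trace := by
      intro j
      rw [Matrix.mul_apply, Finset.sum_mul]
      exact Finset.sum_congr rfl fun i _ => by rw [hQs i l]; ring
    simp only [h2, hQW, Matrix.one_apply, ite_mul, one_mul, zero_mul, Finset.sum_ite_eq,
      Finset.mem_univ, if_true]
  have h3 : ∀ j, H * B j - B j * H = ∑ k, H k j • B k := by
    intro j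
    rw [hH, Finset.sum_mul, Finset.mul_sum, ← Finset.sum_sub_distrib]
    have h4 : ∀ i, (repr B W D i • B i) * B j - B j * (repr B W D i • B i) =
        ∑ k, (repr B W D i * B i k j) • B k := by
      intro i
      rw [Matrix.smul_mul, Matrix.mul_smul, ← smul_sub, hJ, Finset.smul_sum]
      exact Finset.sum_congr rfl fun k _ => by rw [smul_smul]
    rw [Finset.sum_congr rfl fun i _ => h4 i, Finset.sum_comm]
    refine Finset.sum_congr rfl fun k _ => ?_
    rw [← Finset.sum_smul, Matrix.sum_apply]
    simp only [Matrix.smul_apply, smul_eq_mul]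
  obtain ⟨D', hD'⟩ : ∃ x, x = D - H := ⟨_, rfl⟩
  have h5 : ∀ l, (D' * B l).trace = 0 := by
    intro l
    rw [hD', Matrix.sub_mul, Matrix.trace_sub, h1, sub_self]
  have h6 : ∀ j, ∑ k, D' k j • B k = (D' * B j - B j * D') - P j := by
    intro j
    have h7 : ∑ k, D' k j • B k = ∑ k, D k j • B k - ∑ k, H k j • B k := by
      rw [← Finset.sum_sub_distrib]
      exact Finset.sum_congr rfl fun k _ => by rw [hD', Matrix.sub_apply, sub_smul]
    rw [h7, ← h3, hD', Matrix.sub_mul, Matrix.mul_sub]
    have := hD j
    rw [sub_eq_iff_eq_add] at this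
    rw [this]
    abel
  have h8 : Q * D' = -(Matrix.of fun l j => (B l * P j).trace) := by
    ext l j
    rw [Matrix.mul_apply, Matrix.neg_apply, Matrix.of_apply]
    have h9 : ∑ k, Q l k * D' k j = (B l * ∑ k, D' k j • B k).trace := by
      rw [Finset.mul_sum, Matrix.trace_sum]
      exact Finset.sum_congr rfl fun k _ => by
        rw [Matrix.mul_smul, Matrix.trace_smul, hQ, smul_eq_mul, mul_comm]
    rw [h9, h6, Matrix.mul_sub, Matrix.trace_sub]
    have h10 : (B l * (D' * B j - B j * D')).trace = (D' * (B j * B l - B l * B j)).trace := by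
      rw [Matrix.mul_sub, Matrix.mul_sub, Matrix.trace_sub, Matrix.trace_sub,
        ← Matrix.mul_assoc, Matrix.trace_mul_comm (B l * D') (B j), ← Matrix.mul_assoc (B j),
        Matrix.trace_mul_comm (B j * B l) D', ← Matrix.mul_assoc (B l),
        Matrix.trace_mul_comm (B l * B j) D']
    rw [h10, hJ, Finset.mul_sum, Matrix.trace_sum, Finset.sum_eq_zero, zero_sub]
    intro k _
    rw [Matrix.mul_smul, Matrix.trace_smul, h5, smul_zero]
  rw [← hD']
  calc D' = (W * Q) * D' := by rw [hWQ, Matrix.one_mul]
    _ = -(W * Matrix.of fun l j => (B l * P j).trace) := by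
        rw [Matrix.mul_assoc, h8, Matrix.mul_neg]

/-- Derivations are inner. -/
theorem inner_of_derivation (B : ι → Matrix ι ι R) (W Q D : Matrix ι ι R)
    (hJ : ∀ i j, B i * B j - B j * B i = ∑ k, B i k j • B k)
    (hQ : ∀ i j, Q i j = (B i * B j).trace) (hWQ : W * Q = 1)
    (hD : ∀ j, D * B j - B j * D = ∑ k, D k j • B k) :
    D = ∑ i, repr B W D i • B i := by
  have h := almost_inner B W Q D hJ hQ hWQ (fun _ => 0) (fun j => by rw [hD, add_zero])
  have h2 : (Matrix.of fun l (_ : ι) => (B l * (0 : Matrix ι ι R)).trace) = 0 := by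
    ext
    simp
  rw [h2, Matrix.mul_zero, neg_zero, sub_eq_zero] at h
  exact h

/-- The grading derivation is inner, for filtered Lie algebras with a self-dual filtration. -/
theorem filtered_inner (B : ι → Matrix ι ι R) (W Q : Matrix ι ι R) (lam : ι → ℤ)
    (hJ : ∀ i j, B i * B j - B j * B i = ∑ k, B i k j • B k)
    (hQ : ∀ i j, Q i j = (B i * B j).trace) (hWQ : W * Q = 1)
    (hB : ∀ i j k, lam k < lam i + lam j → B i k j = 0)
    (hW : ∀ i j, lam i + lam j < 0 → W i j = 0) :
    ∀ k j, lam k ≤ lam j →
      (∑ i, (if lam i = 0 then repr B W (Matrix.diagonal fun i => (lam i : R)) i else 0) • B i) k j =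
        if k = j then (lam j : R) else 0 := by
  set D : Matrix ι ι R := Matrix.diagonal fun i => (lam i : R) with hDd
  let P : ι → Matrix ι ι R := fun j => Matrix.of fun k i => ((lam k - lam i - lam j : ℤ) : R) * B j k i
  have hP : ∀ j, D * B j - B j * D = ∑ k, D k j • B k + P j := by
    intro j
    have h1 : ∑ k, D k j • B k = (lam j : R) • B j := by
      rw [Finset.sum_eq_single j]
      · rw [hDd, Matrix.diagonal_apply_eq]
      · intro k _ hk
        rw [hDd, Matrix.diagonal_apply_ne _ hk, zero_smul]
      · intro h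
        exact absurd (Finset.mem_univ j) h
    rw [h1]
    ext k i
    rw [Matrix.sub_apply, Matrix.add_apply, hDd, Matrix.diagonal_mul, Matrix.mul_diagonal,
      Matrix.smul_apply, smul_eq_mul]
    simp only [P, Matrix.of_apply]
    push_cast
    ring
  have h := almost_inner B W Q D hJ hQ hWQ P hP
  -- traces
  have hPt : ∀ l j, 0 ≤ lam l + lam j → (B l * P j).trace = 0 := by
    intro l j hlj
    rw [Matrix.trace]
    refine Finset.sum_eq_zero fun a _ => ?_
    rw [Matrix.diag_apply, Matrix.mul_apply]
    refine Finset.sum_eq_zero fun c _ => ?_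
    simp only [P, Matrix.of_apply]
    by_cases h1 : lam a < lam l + lam c
    · rw [hB l c a h1, zero_mul]
    · by_cases h2 : lam c < lam j + lam a
      · rw [hB j a c h2, mul_zero, mul_zero]
      · have h3 : lam c - lam a - lam j = 0 := by omega
        rw [h3, Int.cast_zero, zero_mul, mul_zero]
  have hDt : ∀ j, 0 < lam j → (D * B j).trace = 0 := by
    intro j hj
    rw [Matrix.trace]
    refine Finset.sum_eq_zero fun a _ => ?_
    rw [Matrix.diag_apply, hDd, Matrix.diagonal_mul, hB j a a (by omega), mul_zero]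
  have hneg : ∀ i, lam i < 0 → repr B W D i = 0 := by
    intro i hi
    refine Finset.sum_eq_zero fun j _ => ?_
    by_cases h1 : lam i + lam j < 0
    · rw [hW i j h1, zero_mul]
    · rw [hDt j (by omega), mul_zero]
  intro k j hkj
  have h4 : (∑ i, (if lam i = 0 then repr B W D i else 0) • B i) k j =
      (∑ i, repr B W D i • B i) k j := by
    rw [Matrix.sum_apply, Matrix.sum_apply]
    refine Finset.sum_congr rfl fun i _ => ?_
    rw [Matrix.smul_apply, Matrix.smul_apply]
    by_cases h1 : lam i = 0
    · rw [if_pos h1]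
    · rw [if_neg h1, zero_smul]
      rcases lt_or_gt_of_ne h1 with h2 | h2
      · rw [hneg i h2, zero_smul]
      · rw [hB i j k (by omega), smul_zero]
  rw [h4]
  have h5 : (D - ∑ i, repr B W D i • B i) k j = 0 := by
    rw [h, Matrix.neg_apply, Matrix.mul_apply, neg_eq_zero]
    refine Finset.sum_eq_zero fun l _ => ?_
    rw [Matrix.of_apply]
    by_cases h1 : lam k + lam l < 0
    · rw [hW k l h1, zero_mul]
    · rw [hPt l j (by omega), mul_zero]
  rw [Matrix.sub_apply, sub_eq_zero, hDd, Matrix.diagonal_apply] at h5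
  rw [← h5]
  split_ifs with h6
  · rw [h6]
  · rfl

end

end Vale.Agent.P286.R2.H505
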