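import Vale.Agent.P286.R2.H505.NoSec
import Vale.Agent.P286.R2.H505.Dual
import Vale.Agent.P286.R2.H505.Const

/-!
# Canonical factorisation where the Toeplitz operator is invertible
-/

namespace Vale.Agent.P286.R2.H505

open LaurentPolynomial Matrix

noncomputable section

variable {G : TG} {B : Type} [CommRing B]

/-- The twist condition. -/
def Tw (Z : Cen G) [Algebra ℂ B] (g : G.Gr B[T;T⁻¹]) : Prop :=
  ∀ ζ : ℂˣ, ζ ^ Z.m = 1 → ∃ c ∈ Z.μ, gm G (rot B ζ) g = gm G (algebraMap ℂ B[T;T⁻¹]) c * g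

theorem Ad_central (Z : Cen G) {R : Type} [CommRing R] [Algebra ℂ R] {c : G.Gr ℂ} (hc : c ∈ Z.μ)
    (g : G.Gr R) : Ad (gm G (algebraMap ℂ R) c * g) = Ad g := by
  have h1 : gm G (algebraMap ℂ R) c * g = g * gm G (algebraMap ℂ R) c := Z.central R g c hc
  rw [h1]
  apply Ad_central_mul
  intro i
  exact central_comm (fun R _ _ x => Z.central R x c hc) ((G.isLie i).map _)

theorem pw_AdZ (Z : Cen G) [Algebra ℂ B] {g : G.Gr B[T;T⁻¹]} (h : Tw Z g) :
    (AdZ Z.m g).map (pw Z.m B) = Ad g := by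
  ext1 i j
  rw [Matrix.map_apply, AdZ, Matrix.map_apply]
  apply pw_dn
  intro k hk
  apply coeff_of_rot (m := Z.m) _ hk
  intro ζ hζ
  obtain ⟨c, hc, e⟩ := h ζ hζ
  have h1 := Ad_map (rot B ζ) g
  rw [e, Ad_central Z hc] at h1
  exact (congrFun (congrFun h1 i) j).symm

theorem pw_AdZ_map (Z : Cen G) [Algebra ℂ B] {g : G.Gr B[T;T⁻¹]} (h : Tw Z g) {F : Type}
    [CommRing F] (π : B →+* F) :
    (AdZ Z.m (gm G (lmap π) g)).map (pw Z.m F) = Ad (gm G (lmap π) g) := by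
  rw [AdZ_map, Ad_map, ← pw_AdZ Z h]
  ext1 i j
  exact (RingHom.congr_fun (lmap_pw (m := Z.m) π) (AdZ Z.m g i j)).symm

theorem inj_of_isUnit {A : Type} [CommRing A] {n : ℕ} {φ : Module.End A (Jd n →₀ A)}
    (h : IsUnit φ) (x : Jd n →₀ A) (hx : φ x = 0) : x = 0 := by
  obtain ⟨u, rfl⟩ := h
  have : ((u⁻¹ : (Module.End A (Jd n →₀ A))ˣ) : Module.End A (Jd n →₀ A))
      ((u : Module.End A (Jd n →₀ A)) x) = x := LinearMap.congr_fun (Units.inv_mul u) x
  rw [← this, hx, map_zero]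

theorem surj_field (hK : G.kill.det ≠ 0) (Z : Cen G) [Algebra ℂ B] {g : G.Gr B[T;T⁻¹]}
    (h : Tw Z g) (hu : IsUnit (toep Z.m g)) (F : Type) [Field F] (π : B →+* F) :
    ∀ y, ∃ x, ltoep (mp π (mt g)) x = y := by
  have : CharZero F := charZero_of_injective_ringHom (π.comp (algebraMap ℂ B)).injective
  have h1 : IsUnit (toep Z.m (gm G (lmap π) g)) := by
    rw [← bc_toep]
    exact hu.map (bcHom (Jd G.d) π)
  obtain ⟨Y0, Y1, h0, h1, h2⟩ := exists_conn hK (pw_AdZ_map Z h π) (inj_of_isUnit h1)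
  obtain ⟨a, b, ha, ha1, hb, hb1, hab⟩ := trivial_of_conn (mt_mul_inv _) (det_mt _) h0 h1 h2
  intro y
  exact surj_of_trivial ha ha1 hb hb1 hab y

/-- The underlying element of `GL_N`. -/
def gl (x : G.Gr B) : Matrix.GeneralLinearGroup (Fin G.N) B :=
  ⟨mt x, mt x⁻¹, mt_mul_inv x, mt_inv_mul x⟩

theorem gl_val (x : G.Gr B) : (gl x : Matrix (Fin G.N) (Fin G.N) B) = mt x := rfl

section Prot

variable [Algebra ℂ B]

/-- The rotation of `B[z]`. -/
def prot (B : Type) [CommRing B] [Algebra ℂ B] (ζ : ℂˣ) : Polynomial B →+* Polynomial B :=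
  Polynomial.eval₂RingHom Polynomial.C (Polynomial.C (algebraMap ℂ B (ζ : ℂ)) * Polynomial.X)

theorem rot_pos1 (ζ : ℂˣ) : (rot B ζ).comp (ringPos 1 B) = (ringPos 1 B).comp (prot B ζ) := by
  apply Polynomial.ringHom_ext
  · intro a
    rw [RingHom.comp_apply, RingHom.comp_apply, ringPos_C, rot_C, prot,
      Polynomial.coe_eval₂RingHom, Polynomial.eval₂_C, ringPos_C]
  · rw [RingHom.comp_apply, RingHom.comp_apply, prot,
      Polynomial.coe_eval₂RingHom, Polynomial.eval₂_X, map_mul, ringPos_C, ringPos,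
      Polynomial.coe_eval₂RingHom, Polynomial.eval₂_X, rot_T]
    simp

theorem rot_neg1 (ζ : ℂˣ) : (rot B ζ).comp (ringNeg 1 B) = (ringNeg 1 B).comp (prot B ζ⁻¹) := by
  apply Polynomial.ringHom_ext
  · intro a
    rw [RingHom.comp_apply, RingHom.comp_apply, ringNeg_C, rot_C, prot,
      Polynomial.coe_eval₂RingHom, Polynomial.eval₂_C, ringNeg_C]
  · rw [RingHom.comp_apply, RingHom.comp_apply, prot,
      Polynomial.coe_eval₂RingHom, Polynomial.eval₂_X, map_mul, ringNeg_C, ringNeg,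
      Polynomial.coe_eval₂RingHom, Polynomial.eval₂_X, rot_T]
    simp

theorem cc_prot (ζ : ℂˣ) :
    (Polynomial.constantCoeff (R := B)).comp (prot B ζ) = Polynomial.constantCoeff := by
  apply Polynomial.ringHom_ext
  · intro a
    rw [RingHom.comp_apply, prot, Polynomial.coe_eval₂RingHom, Polynomial.eval₂_C]
  · rw [RingHom.comp_apply, prot, Polynomial.coe_eval₂RingHom, Polynomial.eval₂_X]
    simp

end Prot

/-- (d) The factorisation over `w` descends to `z = w^m`. -/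
theorem rot_fact (Z : Cen G) [Algebra ℂ B] {g : G.Gr B[T;T⁻¹]} (h : Tw Z g)
    {a b : G.Gr (Polynomial B)} (e : g * neg G 1 B b = pos G 1 B a) (ha : ev0 G B a = 1)
    (ζ : ℂˣ) (hζ : ζ ^ Z.m = 1) : gm G (prot B ζ) a = a ∧ gm G (prot B ζ⁻¹) b = b := by
  obtain ⟨c, hc, hg⟩ := h ζ hζ
  have h1 := congrArg (gm G (rot B ζ)) e
  rw [map_mul, hg] at h1
  have h2 : gm G (rot B ζ) (pos G 1 B a) = pos G 1 B (gm G (prot B ζ) a) :=
    congrArg (fun f => gm G f a) (rot_pos1 ζ)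
  have h3 : gm G (rot B ζ) (neg G 1 B b) = neg G 1 B (gm G (prot B ζ⁻¹) b) :=
    congrArg (fun f => gm G f b) (rot_neg1 ζ)
  obtain ⟨c', hc'⟩ : ∃ c', c' = gm G (algebraMap ℂ B) c := ⟨_, rfl⟩
  have h4 : gm G (algebraMap ℂ B[T;T⁻¹]) c = pos G 1 B (cst G B c') := by
    rw [hc', pos, cst, gm_gm, gm_gm]
    congr 2
    apply RingHom.ext
    intro x
    rw [RingHom.comp_apply, RingHom.comp_apply, ringPos_C]
    rfl
  rw [h2, h3, h4] at h1
  have h5 : pos G 1 B (a⁻¹ * (cst G B c')⁻¹ * gm G (prot B ζ) a) =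
      neg G 1 B (b⁻¹ * gm G (prot B ζ⁻¹) b) := by
    rw [map_mul, ← h1, map_mul, map_mul, map_inv, map_inv, map_inv, ← e]
    group
  obtain ⟨h6, h7⟩ := eq_const_of_pos_eq_neg h5
  have h8 : ∀ (x : G.Gr (Polynomial B)) (ξ : ℂˣ), ev0 G B (gm G (prot B ξ) x) = ev0 G B x :=
    fun x ξ => congrArg (fun f => gm G f x) (cc_prot ξ)
  have h9 : ev0 G B (a⁻¹ * (cst G B c')⁻¹ * gm G (prot B ζ) a) = c'⁻¹ := by
    rw [map_mul, map_mul, map_inv, map_inv, h8, ha, ev0_constSL, inv_one, one_mul, mul_one]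
  rw [h9] at h6
  rw [h6] at h7
  have h10 := congrArg (ev0 G B) h7
  rw [map_mul, map_inv, h8, inv_mul_cancel, ev0_constSL] at h10
  rw [← h10, map_one] at h6 h7
  have h11 : c' = 1 := by rw [← inv_inv c', ← h10, inv_one]
  rw [h11, map_one, inv_one, mul_one] at h6
  refine ⟨?_, ?_⟩
  · have := congrArg (fun x => a * x) h6
    simpa using this
  · have := congrArg (fun x => b * x) h7
    simpa using this

/-- Where the Toeplitz operator of `Ad g` is invertible the bundle is trivial, with a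
canonical trivialisation. -/
theorem exists_fact (hK : G.kill.det ≠ 0) (Z : Cen G) [Algebra ℂ B] (g : G.Gr B[T;T⁻¹])
    (h : Tw Z g) (hu : IsUnit (toep Z.m g)) :
    ∃ a b : G.Gr (Polynomial B), g * neg G Z.m B b = pos G Z.m B a ∧ ev0 G B a = 1 := by
  obtain ⟨x, hx⟩ := surj_ltoep (gl g) (fun F _ π _ => surj_field hK Z h hu F π) (npart G.N B 1)
  rw [gl_val, ltoep_apply] at hx
  obtain ⟨Y, hY⟩ : ∃ Y, Y = toMat G.N B x := ⟨_, rfl⟩
  obtain ⟨X, hX⟩ : ∃ X, X = mt g * Y := ⟨_, rfl⟩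
  rw [← hY, ← hX] at hx
  have hYL : MLE 0 Y := hY ▸ toMat_MLE x
  have h1 : MGE 1 (X - 1) := by
    have := sub_toMat_npart X
    rwa [hx, toMat_npart MLE.one] at this
  have hXG : MGE 0 X := by
    have := (h1.mono (show (0 : ℤ) ≤ 1 by norm_num)).add MGE.one
    simpa using this
  have hX0 : cf 0 X = 1 := by
    have := h1.cf_eq (show (0 : ℤ) < 1 by norm_num)
    rw [cf_sub, cf_one, sub_eq_zero] at this
    exact this
  have hdet : X.det = Y.det := by rw [hX, Matrix.det_mul, det_mt, one_mul]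
  have hdX : X.det = 1 := by
    have h2 : LE 0 X.det := by rw [hdet]; exact hYL.det.1
    rw [eq_C_of_LE_GE h2 hXG.det.1, hXG.det.2, hX0, Matrix.det_one, map_one]
  have hdY : Y.det = 1 := by rw [← hdet, hdX]
  have hfix := fix_of_fact hXG hdX hX0 hYL hdY hX.symm
  obtain ⟨a1, ha1⟩ := exists_pos (m := 1) X hXG hdX (fun t ht => (hfix t ht).1)
    fun _ _ k hk => absurd (dvd_one_cast k) hk
  obtain ⟨b1, hb1⟩ := exists_neg (m := 1) Y hYL hdY (fun t ht => (hfix t ht).2)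
    fun _ _ k hk => absurd (dvd_one_cast k) hk
  have e1 : g * neg G 1 B b1 = pos G 1 B a1 := by
    apply gext
    rw [mt_mul, ha1, hb1, hX]
  have hev : ∀ (m : ℕ) [NeZero m] (a : G.Gr (Polynomial B)), mt (pos G m B a) = X →
      ev0 G B a = 1 := by
    intro m _ a ha
    apply gext
    rw [mt_one, ← hX0, ← ha]
    ext i j
    exact (ringPos_coeff_zero (m := m) (mt a i j)).symm
  have hrot := rot_fact Z h e1 (hev 1 a1 ha1)
  have hXm : ∀ i j k, ¬ (Z.m : ℤ) ∣ k → (X i j).coeff k = 0 := by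
    intro i j k hk
    apply coeff_of_rot (m := Z.m) _ hk
    intro ζ hζ
    have h2 : gm G (rot B ζ) (pos G 1 B a1) = pos G 1 B (gm G (prot B ζ) a1) :=
      congrArg (fun f => gm G f a1) (rot_pos1 ζ)
    rw [(hrot ζ hζ).1] at h2
    have h3 := congrFun (congrFun (congrArg mt h2) i) j
    rw [mt_gm, Matrix.map_apply, ha1] at h3
    exact h3
  have hYm : ∀ i j k, ¬ (Z.m : ℤ) ∣ k → (Y i j).coeff k = 0 := by
    intro i j k hk
    apply coeff_of_rot (m := Z.m) _ hk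
    intro ζ hζ
    have h2 : gm G (rot B ζ) (neg G 1 B b1) = neg G 1 B (gm G (prot B ζ⁻¹) b1) :=
      congrArg (fun f => gm G f b1) (rot_neg1 ζ)
    rw [(hrot ζ hζ).2] at h2
    have h3 := congrFun (congrFun (congrArg mt h2) i) j
    rw [mt_gm, Matrix.map_apply, hb1] at h3
    exact h3
  obtain ⟨a, ha⟩ := exists_pos (m := Z.m) X hXG hdX (fun t ht => (hfix t ht).1) hXm
  obtain ⟨b, hb⟩ := exists_neg (m := Z.m) Y hYL hdY (fun t ht => (hfix t ht).2) hYm
  refine ⟨a, b, ?_, hev Z.m a ha⟩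
  apply gext
  rw [mt_mul, ha, hb, hX]

end

end Vale.Agent.P286.R2.H505
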