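import Mathlib

/-!
# Diagonalization of triangular matrices with scalar diagonal blocks
-/

namespace Vale.Agent.P286.R2.H505

open Matrix

noncomputable section

variable {ι R : Type} [Fintype ι] [DecidableEq ι] [CommRing R] [Algebra ℚ R]

/-- The unitriangular matrix `U` with `H U = U diag(lam)`. -/
def Ufun (lam : ι → ℤ) (H : Matrix ι ι R) (k j : ι) : R :=
  if lam k ≤ lam j then (if k = j then 1 else 0) else
    -(algebraMap ℚ R ((lam k - lam j : ℚ)⁻¹)) *
      ∑ l, if h : lam l < lam k ∧ lam j ≤ lam l then H k l * Ufun lam H l j else 0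
termination_by (lam k - lam j).toNat
decreasing_by omega

theorem Ufun_le {lam : ι → ℤ} (H : Matrix ι ι R) {k j : ι} (h : lam k ≤ lam j) :
    Ufun lam H k j = if k = j then 1 else 0 := by
  rw [Ufun, if_pos h]

theorem Ufun_gt {lam : ι → ℤ} (H : Matrix ι ι R) {k j : ι} (h : ¬ lam k ≤ lam j) :
    Ufun lam H k j = -(algebraMap ℚ R ((lam k - lam j : ℚ)⁻¹)) *
      ∑ l, if lam l < lam k ∧ lam j ≤ lam l then H k l * Ufun lam H l j else 0 := by
  rw [Ufun, if_neg h]
  congr 1

theorem Ufun_mem {lam : ι → ℤ} (H : Matrix ι ι R) (P : R → Prop) (h0 : P 0) (h1 : P 1)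
    (hadd : ∀ x y, P x → P y → P (x + y)) (hmul : ∀ x y, P x → P y → P (x * y))
    (hq : ∀ q : ℚ, P (algebraMap ℚ R q)) (hH : ∀ k l, P (H k l)) :
    ∀ (n : ℕ) (k j : ι), (lam k - lam j).toNat ≤ n → P (Ufun lam H k j) := by
  classical
  intro n
  induction n with
  | zero =>
    intro k j hkj
    rw [Ufun_le H (by omega)]
    split_ifs
    · exact h1
    · exact h0
  | succ n ih =>
    intro k j hkj
    by_cases h : lam k ≤ lam j
    · rw [Ufun_le H h]
      split_ifs
      · exact h1
      · exact h0
    · rw [Ufun_gt H h, ← map_neg]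
      refine hmul _ _ (hq _) ?_
      refine Finset.sum_induction _ P hadd h0 fun l _ => ?_
      split_ifs with h2
      · exact hmul _ _ (hH _ _) (ih l j (by omega))
      · exact h0

theorem Ufun_conj {lam : ι → ℤ} (H H' : Matrix ι ι R) (t : ℤ → R) (ht0 : t 0 = 1)
    (ht : ∀ a b, t (a + b) = t a * t b) (hH : ∀ k l, H' k l = t (lam k - lam l) * H k l) :
    ∀ (n : ℕ) (k j : ι), (lam k - lam j).toNat ≤ n →
      Ufun lam H' k j = t (lam k - lam j) * Ufun lam H k j := by
  have key : ∀ k j : ι, lam k ≤ lam j → Ufun lam H' k j = t (lam k - lam j) * Ufun lam H k j := by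
    intro k j h
    rw [Ufun_le H h, Ufun_le H' h]
    split_ifs with h1
    · rw [h1, sub_self, ht0, mul_one]
    · rw [mul_zero]
  intro n
  induction n with
  | zero =>
    intro k j hkj
    exact key k j (by omega)
  | succ n ih =>
    intro k j hkj
    by_cases h : lam k ≤ lam j
    · exact key k j h
    · rw [Ufun_gt H h, Ufun_gt H' h, mul_left_comm]
      congr 1
      rw [Finset.mul_sum]
      refine Finset.sum_congr rfl fun l _ => ?_
      split_ifs with h2
      · rw [ih l j (by omega), hH]
        have h3 : t (lam k - lam j) = t (lam k - lam l) * t (lam l - lam j) := by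
          rw [← ht]
          congr 1
          ring
        rw [h3]
        ring
      · rw [mul_zero]

theorem mul_Ufun {lam : ι → ℤ} (H : Matrix ι ι R)
    (hH : ∀ k j, lam k ≤ lam j → H k j = if k = j then (lam j : R) else 0) :
    H * (Matrix.of (Ufun lam H)) = Matrix.of (Ufun lam H) * Matrix.diagonal fun i => (lam i : R) := by
  ext k j
  rw [Matrix.mul_diagonal, Matrix.mul_apply]
  simp only [Matrix.of_apply]
  rcases lt_trichotomy (lam k) (lam j) with h | h | h
  · have hkj : k ≠ j := fun e => by rw [e] at h; exact lt_irrefl _ h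
    rw [Ufun_le H h.le, if_neg hkj, zero_mul]
    refine Finset.sum_eq_zero fun l _ => ?_
    by_cases h1 : lam k ≤ lam l
    · rw [hH k l h1]
      split_ifs with h2
      · rw [← h2, Ufun_le H h.le, if_neg hkj, mul_zero]
      · rw [zero_mul]
    · have h3 : l ≠ j := fun e => by rw [e] at h1; omega
      rw [Ufun_le H (by omega : lam l ≤ lam j), if_neg h3, mul_zero]
  · rw [Ufun_le H h.le, Finset.sum_eq_single k]
    · rw [hH k k le_rfl, if_pos rfl, Ufun_le H h.le]
      split_ifs with h1
      · rw [h1]
        ring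
      · ring
    · intro l _ hlk
      by_cases h1 : lam k ≤ lam l
      · rw [hH k l h1, if_neg (Ne.symm hlk), zero_mul]
      · have h3 : l ≠ j := fun e => by rw [e] at h1; omega
        rw [Ufun_le H (by omega : lam l ≤ lam j), if_neg h3, mul_zero]
    · intro h1
      exact absurd (Finset.mem_univ k) h1
  · have h0 : ¬ lam k ≤ lam j := not_le.2 h
    have h1 : ∑ l, H k l * Ufun lam H l j = (lam k : R) * Ufun lam H k j +
        ∑ l, if lam l < lam k ∧ lam j ≤ lam l then H k l * Ufun lam H l j else 0 := by
      rw [← Finset.add_sum_erase Finset.univ _ (Finset.mem_univ k),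
        ← Finset.add_sum_erase Finset.univ
          (fun l => if lam l < lam k ∧ lam j ≤ lam l then H k l * Ufun lam H l j else 0)
          (Finset.mem_univ k)]
      rw [hH k k le_rfl, if_pos rfl, if_neg (by omega), zero_add]
      congr 1
      refine Finset.sum_congr rfl fun l hl => ?_
      have hlk : l ≠ k := Finset.ne_of_mem_erase hl
      by_cases h2 : lam k ≤ lam l
      · rw [hH k l h2, if_neg (Ne.symm hlk), zero_mul, if_neg (by omega)]
      · by_cases h3 : lam j ≤ lam l
        · rw [if_pos ⟨by omega, h3⟩]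
        · have h4 : l ≠ j := fun e => by rw [e] at h3; omega
          rw [if_neg (by omega), Ufun_le H (by omega : lam l ≤ lam j), if_neg h4, mul_zero]
    rw [h1]
    have h2 := Ufun_gt H h0
    set S := ∑ l, if lam l < lam k ∧ lam j ≤ lam l then H k l * Ufun lam H l j else 0
    have h3 : S = -((lam k : R) - (lam j : R)) * Ufun lam H k j := by
      rw [h2]
      have h4 : (lam k : R) - (lam j : R) = algebraMap ℚ R (lam k - lam j : ℚ) := by
        rw [map_sub, map_intCast, map_intCast]
      have h5 : algebraMap ℚ R (lam k - lam j : ℚ) * algebraMap ℚ R ((lam k - lam j : ℚ)⁻¹) = 1 := by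
        rw [← map_mul, mul_inv_cancel₀, map_one]
        have : (lam j : ℚ) < lam k := by exact_mod_cast h
        linarith
      rw [h4]
      linear_combination (-S) * h5
    rw [h3]
    ring

theorem det_Ufun (lam : ι → ℤ) (H : Matrix ι ι R) : (Matrix.of (Ufun lam H)).det = 1 := by
  have hb : (Matrix.of (Ufun lam H)).BlockTriangular (fun i => -lam i) := by
    intro i j hij
    have hij' : -lam j < -lam i := hij
    rw [Matrix.of_apply, Ufun_le H (by omega), if_neg]
    rintro rfl
    exact lt_irrefl _ hij'
  rw [hb.det]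
  refine Finset.prod_eq_one fun a _ => ?_
  have h : (Matrix.of (Ufun lam H)).toSquareBlock (fun i => -lam i) a = 1 := by
    ext ⟨i, hi⟩ ⟨j, hj⟩
    rw [Matrix.toSquareBlock_def, Matrix.of_apply, Matrix.of_apply,
      Ufun_le H (by simp only at hi hj ⊢; omega), Matrix.one_apply]
    simp only [Subtype.mk.injEq]
  rw [h, Matrix.det_one]

end

end Vale.Agent.P286.R2.H505
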