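import Vale.Agent.P286.R2.H505.Lie
import Vale.Agent.P286.R2.H505.FL
import Vale.Agent.P286.R2.H505.Uni
import Vale.Agent.P286.H211.Birk

/-!
# Frames of the adjoint bundle; automorphisms of the Lie algebra
-/

namespace Vale.Agent.P286.R2.H505

open Matrix LaurentPolynomial

noncomputable section

namespace TG

variable (G : TG) {R S : Type} [CommRing R] [CommRing S]

/-- The matrix of an automorphism of the Lie algebra. -/
def IsAut (M : Matrix (Fin G.d) (Fin G.d) R) : Prop :=
  ∀ v, M * G.ad v = G.ad (M *ᵥ v) * M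

variable {G}

theorem IsAut.map {M : Matrix (Fin G.d) (Fin G.d) R} (h : G.IsAut M) (f : R →+* S) :
    G.IsAut (M.map f) := by
  have h1 : ∀ j, M.map f * G.ad (Pi.single j (1 : S)) = G.ad (M.map f *ᵥ Pi.single j (1 : S)) * M.map f := by
    intro j
    have h2 := congrArg (fun X : Matrix (Fin G.d) (Fin G.d) R => X.map f) (h (Pi.single j 1))
    simp only [Matrix.map_mul, G.ad_map] at h2
    have e1 : (fun i => f ((Pi.single j (1 : R) : Fin G.d → R) i)) = Pi.single j (1 : S) := by
      funext i
      by_cases hi : i = j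
      · subst hi; simp
      · simp [hi]
    have e2 : (fun i => f ((M *ᵥ Pi.single j (1 : R)) i)) = M.map f *ᵥ Pi.single j (1 : S) := by
      funext i
      simp
    rw [e1, e2] at h2
    exact h2
  intro v
  have h4 : v = ∑ j, v j • Pi.single j (1 : S) := by
    funext k
    simp [Finset.sum_apply, Pi.single_apply]
  rw [h4, Matrix.mulVec_sum, ← adL_apply, ← adL_apply, map_sum, map_sum, Finset.mul_sum,
    Finset.sum_mul]
  refine Finset.sum_congr rfl fun j _ => ?_
  rw [Matrix.mulVec_smul, map_smul, map_smul, adL_apply, adL_apply, Matrix.mul_smul,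
    Matrix.smul_mul, h1]

/-- The Killing form is invariant under automorphisms. -/
theorem IsAut.kill {M M' : Matrix (Fin G.d) (Fin G.d) R} (h : G.IsAut M) (h1 : M * M' = 1) :
    M.transpose * G.kill.map (Int.castRingHom R) * M = G.kill.map (Int.castRingHom R) := by
  have h1' : M' * M = 1 := mul_eq_one_comm.1 h1
  have h2 : ∀ v, G.ad (M *ᵥ v) = M * G.ad v * M' := by
    intro v
    rw [h v, Matrix.mul_assoc, h1, Matrix.mul_one]
  have h3 : ∀ v w, (G.ad (M *ᵥ v) * G.ad (M *ᵥ w)).trace = (G.ad v * G.ad w).trace := by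
    intro v w
    rw [h2, h2]
    calc (M * G.ad v * M' * (M * G.ad w * M')).trace =
        (M * (G.ad v * (M' * M) * G.ad w) * M').trace := by simp only [Matrix.mul_assoc]
      _ = (G.ad v * G.ad w).trace := by
          rw [h1', Matrix.mul_one, Matrix.trace_mul_comm, ← Matrix.mul_assoc, h1', Matrix.one_mul]
  ext i j
  have h4 := h3 (Pi.single i 1) (Pi.single j 1)
  rw [G.kill_apply, G.kill_apply] at h4
  simp only [Matrix.mulVec_single_one, single_one_dotProduct, Matrix.col_apply] at h4
  rw [← h4, Matrix.mul_assoc, Matrix.mul_apply]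
  simp only [dotProduct, Matrix.transpose_apply, Matrix.col_apply]
  refine Finset.sum_congr rfl fun k _ => ?_
  congr 1

theorem IsAut.det [IsDomain R] [CharZero R] (hK : G.kill.det ≠ 0)
    {M M' : Matrix (Fin G.d) (Fin G.d) R} (h : G.IsAut M) (h1 : M * M' = 1) :
    M.det = 1 ∨ M.det = -1 := by
  have h2 := congrArg Matrix.det (h.kill h1)
  rw [Matrix.det_mul, Matrix.det_mul, Matrix.det_transpose] at h2
  have h3 : (G.kill.map (Int.castRingHom R)).det ≠ 0 := by
    have : (G.kill.map (Int.castRingHom R)).det = ((G.kill.det : ℤ) : R) := by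
      rw [Int.cast_det]
      rfl
    rw [this]
    exact_mod_cast hK
  have h4 : M.det * M.det = 1 := by
    apply mul_right_cancel₀ h3
    linear_combination h2
  exact mul_self_eq_one_iff.1 h4

/-- The structure matrices of the Lie algebra in a frame. -/
def fr (P P' : Matrix (Fin G.d) (Fin G.d) R) (i : Fin G.d) : Matrix (Fin G.d) (Fin G.d) R :=
  P' * G.ad (fun k => P k i) * P

theorem fr_J {P P' : Matrix (Fin G.d) (Fin G.d) R} (h : P * P' = 1) (i j : Fin G.d) :
    fr P P' i * fr P P' j - fr P P' j * fr P P' i = ∑ k, fr P P' i k j • fr P P' k := by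
  have h1 : ∀ i j, fr P P' i * fr P P' j = P' * (G.ad (fun k => P k i) * G.ad (fun k => P k j)) * P := by
    intro i j
    calc fr P P' i * fr P P' j =
        P' * (G.ad (fun k => P k i) * (P * P') * G.ad (fun k => P k j)) * P := by
          simp only [fr, Matrix.mul_assoc]
      _ = _ := by rw [h, Matrix.mul_one]
  rw [h1, h1, ← Matrix.sub_mul, ← Matrix.mul_sub, ← G.ad_lie]
  have h2 : G.ad (fun k => P k i) *ᵥ (fun k => P k j) = P *ᵥ (fun k => fr P P' i k j) := by
    have h3 : P * fr P P' i = G.ad (fun k => P k i) * P := by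
      rw [fr, ← Matrix.mul_assoc, ← Matrix.mul_assoc, h, Matrix.one_mul]
    funext k
    have := congrFun (congrFun h3 k) j
    rw [Matrix.mul_apply, Matrix.mul_apply] at this
    exact this.symm
  rw [h2, G.ad_mulVec, Finset.mul_sum, Finset.sum_mul]
  refine Finset.sum_congr rfl fun k _ => ?_
  rw [Matrix.mul_smul, Matrix.smul_mul]
  rfl

theorem fr_Q {P P' : Matrix (Fin G.d) (Fin G.d) R} (h : P * P' = 1) (i j : Fin G.d) :
    (P.transpose * G.kill.map (Int.castRingHom R) * P) i j = (fr P P' i * fr P P' j).trace := by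
  have h1 : fr P P' i * fr P P' j = P' * (G.ad (fun k => P k i) * G.ad (fun k => P k j)) * P := by
    calc fr P P' i * fr P P' j =
        P' * (G.ad (fun k => P k i) * (P * P') * G.ad (fun k => P k j)) * P := by
          simp only [fr, Matrix.mul_assoc]
      _ = _ := by rw [h, Matrix.mul_one]
  rw [h1, Matrix.trace_mul_comm, ← Matrix.mul_assoc, h, Matrix.one_mul, G.kill_apply,
    Matrix.mul_assoc, Matrix.mul_apply]
  simp only [dotProduct, Matrix.transpose_apply]
  refine Finset.sum_congr rfl fun k _ => ?_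
  congr 1

end TG

section Birk

variable {K : Type} [Field K] {n : ℕ}

theorem _root_.Vale.Agent.P286.MGE.mapC {A : Type} [CommRing A] {m n : Type} (X : Matrix m n A) :
    MGE 0 (X.map (LaurentPolynomial.C : A →+* A[T;T⁻¹])) := fun i j => GE.C _

theorem _root_.Vale.Agent.P286.MLE.mapC {A : Type} [CommRing A] {m n : Type} (X : Matrix m n A) :
    MLE 0 (X.map (LaurentPolynomial.C : A →+* A[T;T⁻¹])) := fun i j => LE.C _

/-- Birkhoff factorization for matrices with determinant `±1`. -/
theorem birk (M M' : Matrix (Fin n) (Fin n) K[T;T⁻¹]) (h : M * M' = 1)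
    (hd : M.det = 1 ∨ M.det = -1) :
    ∃ (lam : Fin n → ℤ) (E E' F F' : Matrix (Fin n) (Fin n) K[T;T⁻¹]),
      ∑ i, lam i = 0 ∧ MGE 0 E ∧ MGE 0 E' ∧ E * E' = 1 ∧ MLE 0 F ∧ MLE 0 F' ∧ F * F' = 1 ∧
      M * F = E * mono lam := by
  have key : ∀ (M M' : Matrix (Fin n) (Fin n) K[T;T⁻¹]), M * M' = 1 → M.det = 1 →
      ∃ (lam : Fin n → ℤ) (E E' F F' : Matrix (Fin n) (Fin n) K[T;T⁻¹]),
      ∑ i, lam i = 0 ∧ MGE 0 E ∧ MGE 0 E' ∧ E * E' = 1 ∧ MLE 0 F ∧ MLE 0 F' ∧ F * F' = 1 ∧
      M * F = E * mono lam := by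
    intro M M' h hd
    obtain ⟨a, b, l, ha, ha1, hb, hb1, hab, hl⟩ := birkhoff M M' h (k := 0) (by rw [hd, T_zero])
    refine ⟨l, a.adjugate, a, b.adjugate, b, hl, ha.adjugate, ha, adjugate_mul_self ha1,
      hb.adjugate, hb, adjugate_mul_self hb1, ?_⟩
    calc M * b.adjugate = (a.adjugate * a) * M * b.adjugate := by
          rw [adjugate_mul_self ha1, Matrix.one_mul]
      _ = a.adjugate * (mono l * b) * b.adjugate := by rw [Matrix.mul_assoc a.adjugate, hab]
      _ = a.adjugate * mono l * (b * b.adjugate) := by simp only [Matrix.mul_assoc]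
      _ = a.adjugate * mono l := by rw [self_mul_adjugate hb1, Matrix.mul_one]
  rcases hd with hd | hd
  · exact key M M' h hd
  · rcases Nat.eq_zero_or_pos n with hn | hn
    · subst hn
      exact key M M' h (by simp)
    · let c0 : Matrix (Fin n) (Fin n) K := Matrix.diagonal fun i => if i = ⟨0, hn⟩ then -1 else 1
      have hc0 : c0 * c0 = 1 := by
        rw [Matrix.diagonal_mul_diagonal, ← Matrix.diagonal_one]
        congr 1
        funext i
        split_ifs <;> ring
      have hdc0 : c0.det = -1 := by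
        rw [Matrix.det_diagonal, Finset.prod_ite_eq' Finset.univ (⟨0, hn⟩ : Fin n) (fun _ => (-1 : K))]
        simp
      let c := c0.map (LaurentPolynomial.C : K →+* K[T;T⁻¹])
      have hc : c * c = 1 := by
        have := congrArg (fun X : Matrix (Fin n) (Fin n) K => X.map (LaurentPolynomial.C : K →+* K[T;T⁻¹])) hc0
        simp only [Matrix.map_mul] at this
        rw [this]
        simp
      have hdc : c.det = -1 := by
        have := RingHom.map_det (LaurentPolynomial.C : K →+* K[T;T⁻¹]) c0
        rw [hdc0, map_neg, map_one] at this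
        exact this.symm
      obtain ⟨lam, E, E', F, F', h1, h2, h3, h4, h5, h6, h7, h8⟩ := key (M * c) (c * M')
        (by rw [Matrix.mul_assoc, ← Matrix.mul_assoc c, hc, Matrix.one_mul, h])
        (by rw [Matrix.det_mul, hd, hdc]; ring)
      refine ⟨lam, E, E', c * F, F' * c, h1, h2, h3, h4, ?_, ?_, ?_, ?_⟩
      · have := (MLE.mapC c0).mul h5
        simpa using this
      · have := h6.mul (MLE.mapC c0)
        simpa using this
      · rw [Matrix.mul_assoc, ← Matrix.mul_assoc F, h7, Matrix.one_mul, hc]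
      · rw [← Matrix.mul_assoc, h8]

end Birk

end

end Vale.Agent.P286.R2.H505
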