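import Vale.Agent.P286.R2.H505.Lie

/-!
# Lemmas on the points of a tensor group
-/

namespace Vale.Agent.P286.R2.H505

open Matrix

variable {G : TG} {A B : Type} [CommRing A] [CommRing B]

theorem det_map_one (f : A →+* B) {N : ℕ} {x : Matrix (Fin N) (Fin N) A} (h : x.det = 1) :
    (x.map f).det = 1 := by
  have := f.map_det x
  rw [h, map_one] at this
  exact this.symm

theorem is_one (G : TG) (A : Type) [CommRing A] : G.Is (1 : Matrix (Fin G.N) (Fin G.N) A) :=
  ⟨Matrix.det_one, fun t _ => t.fix_one⟩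

theorem is_mul {x y : Matrix (Fin G.N) (Fin G.N) A} (hx : G.Is x) (hy : G.Is y) : G.Is (x * y) :=
  ⟨by rw [Matrix.det_mul, hx.1, hy.1, one_mul], fun t ht => (hx.2 t ht).mul (hy.2 t ht)⟩

theorem adj_mul {N : ℕ} {x : Matrix (Fin N) (Fin N) A} (h : x.det = 1) : x.adjugate * x = 1 := by
  rw [Matrix.adjugate_mul, h, one_smul]

theorem mul_adj {N : ℕ} {x : Matrix (Fin N) (Fin N) A} (h : x.det = 1) : x * x.adjugate = 1 := by
  rw [Matrix.mul_adjugate, h, one_smul]

theorem is_adj {x : Matrix (Fin G.N) (Fin G.N) A} (hx : G.Is x) : G.Is x.adjugate := by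
  refine ⟨?_, fun t ht => (hx.2 t ht).inv (adj_mul hx.1) (mul_adj hx.1)⟩
  have h := congrArg Matrix.det (adj_mul hx.1)
  rwa [Matrix.det_mul, hx.1, mul_one, Matrix.det_one] at h

theorem is_map {x : Matrix (Fin G.N) (Fin G.N) A} (hx : G.Is x) (f : A →+* B) : G.Is (x.map f) :=
  ⟨det_map_one f hx.1, fun t ht => (hx.2 t ht).map f⟩

end Vale.Agent.P286.R2.H505
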