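import Vale.Agent.P286.R2.H505.GAux
import Vale.Agent.P286.St.Alg
import Vale.Agent.P286.Loop

/-!
# The moduli stack of `G/μ`-bundles on the projective line and its canonical bundle

Let `G` be a tensor group (over `ℂ` this is any semisimple algebraic group) and let `μ` be a finite
central subgroup, `μ^m = 1`.  Étale locally on the base, a `G/μ`-bundle on `ℙ¹_A` is trivial on the
two charts `Spec A[z]`, `Spec A[z⁻¹]`, i.e. it is given by a transition matrix in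
`(G/μ)(A[z,z⁻¹])`; étale locally on the base this is the image of an element `g ∈ G(A[w,w⁻¹])`,
`w^m = z`, with `g(ζ w) ∈ μ g(w)` for all `ζ^m = 1`.  An isomorphism is (étale locally) given by a
pair `a ∈ G(A[z])`, `b ∈ G(A[z⁻¹])` with `g' b = a g`, and `c ∈ μ` acts trivially.  So the stack
`Bun_{G/μ}(ℙ¹)` is the stackification of the prestack of these data.

The canonical bundle `ω` has the fibre `det RΓ(ℙ¹, 𝔤_E) = det RΓ(ℙ¹, 𝔤_E(-1))` (as
`det Ad = ±1`), which is the determinant line of the Toeplitz operator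
`toep g : x ↦ (Ad(g) x)_{≤0}` on `𝔤 ⊗ A[z⁻¹]`.  A generator of this line is given by an invertible
operator `S` such that `S - toep g` has finite rank, and the generators `t_S` of two such operators
are related by `t_{S'} = fdet (S * S'⁻¹) • t_S` (Fredholm determinant).
-/

namespace Vale.Agent.P286.R2.H505

open CategoryTheory LaurentPolynomial

noncomputable section

section Groups

variable {G : TG} {A B : Type} [CommRing A] [CommRing B]

theorem TG.Is.one (G : TG) (A : Type) [CommRing A] : G.Is (1 : Matrix (Fin G.N) (Fin G.N) A) :=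
  is_one G A

theorem TG.Is.mul {x y : Matrix (Fin G.N) (Fin G.N) A} (hx : G.Is x) (hy : G.Is y) :
    G.Is (mm x y) := is_mul hx hy

theorem TG.Is.adj {x : Matrix (Fin G.N) (Fin G.N) A} (hx : G.Is x) : G.Is x.adjugate := is_adj hx

theorem TG.Is.map {x : Matrix (Fin G.N) (Fin G.N) A} (hx : G.Is x) (f : A →+* B) :
    G.Is (x.map f) := is_map hx f

/-- The underlying matrix. -/
def mt (x : G.Gr A) : Matrix (Fin G.N) (Fin G.N) A := x.m

/-- The map `G(A) → G(B)` defined by a ring homomorphism `A → B`. -/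
def gmf (f : A →+* B) (x : G.Gr A) : G.Gr B := ⟨x.m.map f, x.is.map f⟩

/-- The product in `G(A)`. -/
def gmul (x y : G.Gr A) : G.Gr A := ⟨mm x.m y.m, x.is.mul y.is⟩

/-- The inverse in `G(A)`. -/
def ginv (x : G.Gr A) : G.Gr A := ⟨x.m.adjugate, x.is.adj⟩

/-- The unit of `G(A)`. -/
def gone (G : TG) (A : Type) [CommRing A] : G.Gr A := ⟨1, TG.Is.one G A⟩

/-- The matrix of `Ad g` in the basis `b` of the Lie algebra. -/
def Ad (x : G.Gr A) : Matrix (Fin G.d) (Fin G.d) A :=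
  fun i j => pair (G.c i) (mm (mm (mt x) ((G.b j).map (Int.castRingHom A))) (mt (ginv x)))

end Groups

section Laurent

variable {A : Type} [CommRing A]

/-- `A[z] → A[w,w⁻¹]`, `z ↦ w^m` -/
def ringPos (m : ℕ) (A : Type) [CommRing A] : Polynomial A →+* A[T;T⁻¹] :=
  Polynomial.eval₂RingHom C (T (m : ℤ))

/-- `A[z⁻¹] → A[w,w⁻¹]`, `z⁻¹ ↦ w^{-m}`; the variable of the polynomial ring is `z⁻¹`. -/
def ringNeg (m : ℕ) (A : Type) [CommRing A] : Polynomial A →+* A[T;T⁻¹] :=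
  Polynomial.eval₂RingHom C (T (-(m : ℤ)))

/-- The map `∑ x_k w^k ↦ ∑ x_{mk} z^k`. -/
def dn (m : ℕ) [NeZero m] (x : A[T;T⁻¹]) : A[T;T⁻¹] :=
  ⟨x.coeff.comapDomain (fun k : ℤ => (m : ℤ) * k)
    (fun _ _ _ _ h => mul_left_cancel₀ (by exact_mod_cast NeZero.ne m) h)⟩

/-- The unit `ζ w`. -/
def rotU (A : Type) [CommRing A] [Algebra ℂ A] (ζ : ℂˣ) : (A[T;T⁻¹])ˣ where
  val := C (algebraMap ℂ A (ζ : ℂ)) * T 1
  inv := C (algebraMap ℂ A ((ζ⁻¹ : ℂˣ) : ℂ)) * T (-1)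
  val_inv := by
    rw [mul_mul_mul_comm, ← map_mul, ← map_mul, Units.mul_inv, map_one, map_one, ← T_add,
      add_neg_cancel, T_zero, one_mul]
  inv_val := by
    rw [mul_mul_mul_comm, ← map_mul, ← map_mul, Units.inv_mul, map_one, map_one, ← T_add,
      neg_add_cancel, T_zero, one_mul]

/-- The rotation `x(w) ↦ x(ζ w)` of `A[w,w⁻¹]`. -/
def rot (A : Type) [CommRing A] [Algebra ℂ A] (ζ : ℂˣ) : A[T;T⁻¹] →+* A[T;T⁻¹] :=
  LaurentPolynomial.eval₂ C (rotU A ζ)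

/-- The evaluation `ℂ[t,t⁻¹] → ℂ` at `ζ`. -/
def evL (ζ : ℂˣ) : ℂ[T;T⁻¹] →+* ℂ := LaurentPolynomial.eval₂ (RingHom.id ℂ) ζ

end Laurent

/-- A finite central subgroup `μ` of `G`, with `μ^m = 1`, whose elements are values of
one-parameter curves in `G` through the unit (so that `μ` lies in the identity component). -/
structure Cen (G : TG) : Type 1 where
  μ : Set (G.Gr ℂ)
  m : ℕ
  [nz : NeZero m]
  [fin : Finite μ]
  one : gone G ℂ ∈ μ
  mul : ∀ c ∈ μ, ∀ c' ∈ μ, gmul c c' ∈ μ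
  inv : ∀ c ∈ μ, ginv c ∈ μ
  tors : ∀ c ∈ μ, mt c ^ m = 1
  central : ∀ (R : Type) [CommRing R] [Algebra ℂ R] (x : G.Gr R), ∀ c ∈ μ,
    gmul (gmf (algebraMap ℂ R) c) x = gmul x (gmf (algebraMap ℂ R) c)
  curve : ∀ c ∈ μ, ∃ (l : G.Gr ℂ[T;T⁻¹]) (ζ : ℂˣ), gmf (evL 1) l = gone G ℂ ∧ gmf (evL ζ) l = c

attribute [instance] Cen.nz Cen.fin

section Toeplitz

variable {A B : Type} [CommRing A] [CommRing B]

/-- The basis `e_i z^{-l}` of `A[z⁻¹]^d`, indexed by `(l, i)`. -/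
abbrev Jd (d : ℕ) : Type := ℕ × Fin d

/-- The operators on `A[z⁻¹]^d`. -/
abbrev Opd (d : ℕ) (A : Type) [CommRing A] : Type := Module.End A (Jd d →₀ A)

/-- The nonpositive part of a Laurent vector; see `vpart_apply`. -/
def vpartFun (d : ℕ) (A : Type) [CommRing A] (v : Fin d → A[T;T⁻¹]) : Jd d →₀ A :=
  ∑ p : Fin d, ((v p).coeff.comapDomain (fun l : ℕ => -(l : ℤ))
      (fun x _ y _ h => by simpa using h)).mapDomain (fun l : ℕ => ((l, p) : Jd d))

/-- The Toeplitz operator `x ↦ (M x)_{≤ 0}` on `A[z⁻¹]^d`: the image of the basis vector `e_i z^{-l}`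
is the nonpositive part of `M e_i z^{-l}`. -/
def vtoep {d : ℕ} (M : Matrix (Fin d) (Fin d) A[T;T⁻¹]) : Opd d A :=
  Finsupp.linearCombination A fun i : Jd d => vpartFun d A fun p => M p i.2 * T (-(i.1 : ℤ))

end Toeplitz

section Bun

variable {G : TG} {A B : Type} [CommRing A] [CommRing B]

/-- `G(A[z]) → G(A[w,w⁻¹])` -/
def posf (m : ℕ) (x : G.Gr (Polynomial A)) : G.Gr A[T;T⁻¹] := gmf (ringPos m A) x

/-- `G(A[z⁻¹]) → G(A[w,w⁻¹])`; the variable of the polynomial ring is `z⁻¹`. -/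
def negf (m : ℕ) (x : G.Gr (Polynomial A)) : G.Gr A[T;T⁻¹] := gmf (ringNeg m A) x

/-- The Toeplitz operator `x ↦ (Ad(g) x)_{≤ 0}` on `𝔤 ⊗ A[z⁻¹]`, `z = w^m`.  Its kernel and
cokernel are `H⁰` and `H¹` of `𝔤_E(-1)` on `ℙ¹_A`, where `E` is the bundle with transition
matrix `g`. -/
def toep (m : ℕ) [NeZero m] (g : G.Gr A[T;T⁻¹]) : Opd G.d A := vtoep ((Ad g).map (dn m))

/-- The invertible operators on `𝔤 ⊗ A[z⁻¹]`. -/
abbrev OprU (G : TG) (A : Type) [CommRing A] : Type := (Opd G.d A)ˣ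

/-- `S` is a framing of the determinant line of the Toeplitz operator of `g`. -/
def IsFraming (m : ℕ) [NeZero m] (g : G.Gr A[T;T⁻¹]) (S : OprU G A) : Prop :=
  FinRank ((S : Opd G.d A) - toep m g)

/-- The pair `(a, b)` is an isomorphism from the bundle `f(g)` to the bundle `g'`. -/
def Glue (m : ℕ) (f : A →+* B) (g : G.Gr A[T;T⁻¹]) (g' : G.Gr B[T;T⁻¹])
    (a b : G.Gr (Polynomial B)) : Prop :=
  gmul g' (negf m b) = gmul (posf m a) (gmf (lmap f) g)

/-- The composition. -/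
def cmp (f : A →+* B) (x : G.Gr (Polynomial B)) (y : G.Gr (Polynomial A)) : G.Gr (Polynomial B) :=
  gmul x (gmf (Polynomial.mapRingHom f) y)

/-- The product `p s q u⁻¹`. -/
def mul₄ {E : Type} [Monoid E] (p s q : E) (u : Eˣ) : E := p * s * q * ((u⁻¹ : Eˣ) : E)

/-- The element `δ` with `t_{S'} = δ • (a, b)_* f_* t_S`. -/
def delta (m : ℕ) [NeZero m] (f : A →+* B) (a b : G.Gr (Polynomial B)) (S : OprU G A)
    (S' : OprU G B) : B :=
  fdet (mul₄ (toep m (posf m a)) (bc f (S : Opd G.d A)) (toep m (negf m (ginv b))) S')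

/-- `g(ζ w) ∈ μ g(w)` -/
def TwMu [Algebra ℂ A] (μ : Set (G.Gr ℂ)) (ζ : ℂˣ) (g : G.Gr A[T;T⁻¹]) : Prop :=
  ∃ c ∈ μ, gmf (rot A ζ) g = gmul (gmf (algebraMap ℂ A[T;T⁻¹]) c) g

/-- `a = b ∈ μ` -/
def InMu [Algebra ℂ A] (μ : Set (G.Gr ℂ)) (a b : G.Gr (Polynomial A)) : Prop :=
  ∃ c ∈ μ, a = gmf (algebraMap ℂ (Polynomial A)) c ∧ b = gmf (algebraMap ℂ (Polynomial A)) c

end Bun

/-- `G(A[z,z⁻¹])` -/
abbrev LG (G : TG) (A : SmAlg) : Type := G.Gr (A.R)[T;T⁻¹]

/-- `G(A[z])` -/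
abbrev PG (G : TG) (A : SmAlg) : Type := G.Gr (Polynomial A.R)

/-- Test objects of `Bun_{G/μ}(ℙ¹)` with a generator of `ω`. -/
structure BunObj (G : TG) (Z : Cen G) : Type 1 where
  A : SmAlg
  /-- the transition matrix -/
  g : LG G A
  /-- `g(ζ w) ∈ μ g(w)` -/
  twist : ∀ ζ : ℂˣ, ζ ^ Z.m = 1 → TwMu Z.μ ζ g
  /-- the framing of the determinant line of `RΓ(𝔤_E(-1))` -/
  S : OprU G A.R
  framing : IsFraming Z.m g S

/-- Morphisms of test objects of `Bun_{G/μ}(ℙ¹)`. -/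
structure BunHom {G : TG} {Z : Cen G} (X Y : BunObj G Z) : Type where
  f : X.A.Hm Y.A
  a : PG G Y.A
  b : PG G Y.A
  glue : Glue Z.m f.r X.g Y.g a b

/-- Test objects of `BG`: the trivial `G`-torsor over a smooth algebra. -/
structure BGObj (G : TG) : Type 1 where
  A : SmAlg

/-- The composition. -/
def gcmp {G : TG} {A B : Type} [CommRing A] [CommRing B] (f : A →+* B) (x : G.Gr B) (y : G.Gr A) :
    G.Gr B := gmul x (gmf f y)

/-- Morphisms of test objects of `BG`. -/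
@[ext]
structure BGHom {G : TG} (X Y : BGObj G) : Type where
  f : X.A.Hm Y.A
  h : G.Gr Y.A.R

end

end Vale.Agent.P286.R2.H505
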