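import Vale.Agent.P286.R2.H505.Pw
import Vale.Agent.P286.R2.H505.Frame

/-!
# The homomorphisms between the groups `G(A)`; the adjoint representation
-/

namespace Vale.Agent.P286.R2.H505

open CategoryTheory LaurentPolynomial Matrix

noncomputable section

variable {G : TG} {A B D : Type} [CommRing A] [CommRing B] [CommRing D]

theorem gext {x y : G.Gr A} (h : mt x = mt y) : x = y := by
  cases x
  cases y
  congr

instance instGroupGr (G : TG) (A : Type) [CommRing A] : Group (G.Gr A) where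
  mul := gmul
  one := gone G A
  inv := ginv
  mul_assoc x y z := gext (Matrix.mul_assoc (mt x) (mt y) (mt z))
  one_mul x := gext (Matrix.one_mul (mt x))
  mul_one x := gext (Matrix.mul_one (mt x))
  inv_mul_cancel x := gext (adj_mul x.is.1)

theorem mt_one : mt (1 : G.Gr A) = 1 := rfl

theorem mt_mul (x y : G.Gr A) : mt (x * y) = mt x * mt y := rfl

theorem mt_mul_inv (x : G.Gr A) : mt x * mt x⁻¹ = 1 := by
  rw [← mt_mul, mul_inv_cancel, mt_one]

theorem mt_inv_mul (x : G.Gr A) : mt x⁻¹ * mt x = 1 := by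
  rw [← mt_mul, inv_mul_cancel, mt_one]

theorem mt_fix (x : G.Gr A) : ∀ t ∈ G.ten, t.Fix (mt x) := x.is.2

theorem det_mt (x : G.Gr A) : (mt x).det = 1 := x.is.1

/-- An element of `G(A)` from a matrix. -/
def gmk (X : Matrix (Fin G.N) (Fin G.N) A) (h : X.det = 1) (h' : ∀ t ∈ G.ten, t.Fix X) : G.Gr A :=
  ⟨X, h, h'⟩

theorem mt_gmk (X : Matrix (Fin G.N) (Fin G.N) A) (h : X.det = 1) (h' : ∀ t ∈ G.ten, t.Fix X) :
    mt (gmk X h h' : G.Gr A) = X := rfl

/-- The map `G(A) → G(B)` defined by a ring homomorphism `A → B`. -/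
def gm (G : TG) (f : A →+* B) : G.Gr A →* G.Gr B where
  toFun := gmf f
  map_one' := gext (by
    change (1 : Matrix (Fin G.N) (Fin G.N) A).map f = 1
    exact Matrix.map_one f (map_zero f) (map_one f))
  map_mul' x y := gext (by
    change (mt x * mt y).map f = (mt x).map f * (mt y).map f
    exact Matrix.map_mul)

/-- The finite central subgroup as a subgroup. -/
def Cen.sub (Z : Cen G) : Subgroup (G.Gr ℂ) where
  carrier := Z.μ
  one_mem' := Z.one
  mul_mem' {x y} hx hy := Z.mul x hx y hy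
  inv_mem' {x} hx := Z.inv x hx

instance (Z : Cen G) : Finite Z.sub := Z.fin

theorem gmf_eq (f : A →+* B) (x : G.Gr A) : gmf f x = gm G f x := rfl

theorem mt_gm (f : A →+* B) (x : G.Gr A) : mt (gm G f x) = (mt x).map f := rfl

theorem gm_gm (f : A →+* B) (g : B →+* D) (x : G.Gr A) :
    gm G g (gm G f x) = gm G (g.comp f) x := rfl

theorem gm_id (x : G.Gr A) : gm G (RingHom.id A) x = x := rfl

theorem gm_injective (f : A →+* B) (hf : Function.Injective f) :
    Function.Injective (gm G f) := by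
  intro x y h
  apply gext
  ext i j
  apply hf
  exact congrFun (congrFun (congrArg mt h) i) j

/-- `G(A[z]) → G(A[w,w⁻¹])` -/
def pos (G : TG) (m : ℕ) (A : Type) [CommRing A] : G.Gr (Polynomial A) →* G.Gr A[T;T⁻¹] :=
  gm G (ringPos m A)

/-- `G(A[z⁻¹]) → G(A[w,w⁻¹])`; the variable of the polynomial ring is `z⁻¹`. -/
def neg (G : TG) (m : ℕ) (A : Type) [CommRing A] : G.Gr (Polynomial A) →* G.Gr A[T;T⁻¹] :=
  gm G (ringNeg m A)

theorem Glue.eq {m : ℕ} {f : A →+* B} {g : G.Gr A[T;T⁻¹]} {g' : G.Gr B[T;T⁻¹]}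
    {a b : G.Gr (Polynomial B)} (h : Glue m f g g' a b) :
    g' * neg G m B b = pos G m B a * gm G (lmap f) g := h

theorem Glue.mk {m : ℕ} {f : A →+* B} {g : G.Gr A[T;T⁻¹]} {g' : G.Gr B[T;T⁻¹]}
    {a b : G.Gr (Polynomial B)} (h : g' * neg G m B b = pos G m B a * gm G (lmap f) g) :
    Glue m f g g' a b := h

theorem cmp_eq (f : A →+* B) (x : G.Gr (Polynomial B)) (y : G.Gr (Polynomial A)) :
    cmp f x y = x * gm G (Polynomial.mapRingHom f) y := rfl

section Adjoint

theorem Ad_apply (x : G.Gr A) (i j : Fin G.d) :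
    Ad x i j = pair (G.c i) (mt x * (G.b j).map (Int.castRingHom A) * mt x⁻¹) := rfl

theorem Ad_one : Ad (1 : G.Gr A) = 1 := by
  ext i j
  rw [Ad_apply, inv_one, mt_one, Matrix.one_mul, Matrix.mul_one, pair_map, G.dual, Matrix.one_apply]
  split_ifs <;> simp

theorem Ad_map (f : A →+* B) (x : G.Gr A) : Ad (gm G f x) = (Ad x).map f := by
  ext i j
  rw [Ad_apply, Matrix.map_apply, Ad_apply, ← pair_map, ← map_inv, mt_gm, mt_gm, Matrix.map_mul,
    Matrix.map_mul]
  congr 3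
  ext p q
  simp

/-- Conjugation by a central element is trivial. -/
theorem Ad_central_mul {c : G.Gr A} (hc : ∀ i, mt c * (G.b i).map (Int.castRingHom A) =
    (G.b i).map (Int.castRingHom A) * mt c) (x : G.Gr A) : Ad (x * c) = Ad x := by
  ext i j
  rw [Ad_apply, Ad_apply, _root_.mul_inv_rev, mt_mul, mt_mul]
  congr 1
  calc mt x * mt c * (G.b j).map (Int.castRingHom A) * (mt c⁻¹ * mt x⁻¹) =
      mt x * ((G.b j).map (Int.castRingHom A) * (mt c * mt c⁻¹)) * mt x⁻¹ := by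
        rw [Matrix.mul_assoc (mt x), hc]
        simp only [Matrix.mul_assoc]
    _ = _ := by rw [mt_mul_inv, Matrix.mul_one]

theorem conj_isLie (x : G.Gr A) {y : Matrix (Fin G.N) (Fin G.N) A} (hy : IsLie G.ten y) :
    IsLie G.ten (mt x * y * mt x⁻¹) :=
  hy.conj (mt_mul_inv x) (mt_inv_mul x) (mt_fix x)

variable [Algebra ℚ A]

theorem li_Ad (x : G.Gr A) (v : Fin G.d → A) :
    G.li (Ad x *ᵥ v) = mt x * G.li v * mt x⁻¹ := by
  rw [← G.li_co (conj_isLie x (G.isLie_li v))]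
  congr 1
  funext i
  rw [TG.co, ← pairL_apply, TG.li, Finset.mul_sum, Finset.sum_mul, map_sum, Matrix.mulVec,
    dotProduct]
  refine Finset.sum_congr rfl fun j _ => ?_
  rw [Matrix.mul_smul, Matrix.smul_mul, map_smul, pairL_apply, smul_eq_mul, mul_comm]
  rfl

theorem Ad_ext {M M' : Matrix (Fin G.d) (Fin G.d) A} (h : ∀ v, G.li (M *ᵥ v) = G.li (M' *ᵥ v)) :
    M = M' := by
  ext i j
  have := congrFun (G.li_injective (h (Pi.single j 1))) i
  simpa using this

theorem Ad_mul (x y : G.Gr A) : Ad (x * y) = Ad x * Ad y := by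
  apply Ad_ext
  intro v
  rw [li_Ad, ← Matrix.mulVec_mulVec, li_Ad, li_Ad, _root_.mul_inv_rev, mt_mul, mt_mul]
  simp only [Matrix.mul_assoc]

theorem Ad_mul_inv (x : G.Gr A) : Ad x * Ad x⁻¹ = 1 := by
  rw [← Ad_mul, mul_inv_cancel, Ad_one]

theorem Ad_isAut (x : G.Gr A) : G.IsAut (Ad x) := by
  intro v
  apply Ad_ext
  intro w
  rw [← Matrix.mulVec_mulVec, ← Matrix.mulVec_mulVec, li_Ad, G.li_ad, G.li_ad, li_Ad, li_Ad]
  have h := mt_inv_mul x
  have e : ∀ p q : Matrix (Fin G.N) (Fin G.N) A,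
      mt x * p * mt x⁻¹ * (mt x * q * mt x⁻¹) = mt x * (p * q) * mt x⁻¹ := by
    intro p q
    calc mt x * p * mt x⁻¹ * (mt x * q * mt x⁻¹) = mt x * p * (mt x⁻¹ * mt x) * q * mt x⁻¹ := by
          simp only [Matrix.mul_assoc]
      _ = _ := by rw [h, Matrix.mul_one]; simp only [Matrix.mul_assoc]
  rw [e, e, Matrix.mul_sub, Matrix.sub_mul]

end Adjoint

end

end Vale.Agent.P286.R2.H505
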