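import Vale.Agent.P286.R2.H505.Frame
import Vale.Agent.P286.H211.Toep

/-!
# The canonical grading of the adjoint bundle
-/

namespace Vale.Agent.P286.R2.H505

open Matrix LaurentPolynomial

noncomputable section

/-- Adapted frames `E` (on the chart `z ≠ ∞`) and `F` (on the chart `z ≠ 0`) of the adjoint bundle with
transition matrix `M`, and the section `x` of the adjoint bundle which defines the grading. -/
structure SD (G : TG) {B : Type} [CommRing B] (M : Matrix (Fin G.d) (Fin G.d) B[T;T⁻¹])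
    (lam : Fin G.d → ℤ) (E E' F F' : Matrix (Fin G.d) (Fin G.d) B[T;T⁻¹])
    (x0 x1 : Fin G.d → B[T;T⁻¹]) : Prop where
  hE : MGE 0 E
  hE' : MGE 0 E'
  EE' : E * E' = 1
  hF : MLE 0 F
  hF' : MLE 0 F'
  FF' : F * F' = 1
  glue : M * F = E * mono lam
  hx0 : ∀ i, GE 0 (x0 i)
  hx1 : ∀ i, LE 0 (x1 i)
  glx : M *ᵥ x1 = x0
  adE : G.ad x0 * E = E * Matrix.diagonal fun i => (lam i : B[T;T⁻¹])
  adF : G.ad x1 * F = F * Matrix.diagonal fun i => (lam i : B[T;T⁻¹])

variable {G : TG} {K : Type} [Field K] [CharZero K]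

theorem _root_.Vale.Agent.P286.LE.mulVec {A : Type} [CommRing A] {n : ℕ} {X : Matrix (Fin n) (Fin n) A[T;T⁻¹]}
    {v : Fin n → A[T;T⁻¹]} (h : MLE 0 X) (hv : ∀ i, LE 0 (v i)) (i : Fin n) : LE 0 ((X *ᵥ v) i) := by
  rw [Matrix.mulVec, dotProduct]
  refine LE.sum _ fun j _ => ?_
  have := (h i j).mul (hv j)
  simpa using this

theorem _root_.Vale.Agent.P286.GE.mulVec {A : Type} [CommRing A] {n : ℕ} {X : Matrix (Fin n) (Fin n) A[T;T⁻¹]}
    {v : Fin n → A[T;T⁻¹]} (h : MGE 0 X) (hv : ∀ i, GE 0 (v i)) (i : Fin n) : GE 0 ((X *ᵥ v) i) := by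
  rw [Matrix.mulVec, dotProduct]
  refine GE.sum _ fun j _ => ?_
  have := (h i j).mul (hv j)
  simpa using this

theorem _root_.Vale.Agent.P286.LE.int {A : Type} [CommRing A] (k : ℤ) : LE 0 (k : A[T;T⁻¹]) := by
  have := LE.C (k : A)
  rwa [map_intCast] at this

theorem _root_.Vale.Agent.P286.GE.int {A : Type} [CommRing A] (k : ℤ) : GE 0 (k : A[T;T⁻¹]) := by
  have := GE.C (k : A)
  rwa [map_intCast] at this

theorem _root_.Vale.Agent.P286.LE.rat {A : Type} [CommRing A] [Algebra ℚ A] (q : ℚ) :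
    LE 0 (algebraMap ℚ A[T;T⁻¹] q) := by
  have := LE.C (algebraMap ℚ A q)
  have h : algebraMap ℚ A[T;T⁻¹] q = LaurentPolynomial.C (algebraMap ℚ A q) := rfl
  rwa [h]

theorem _root_.Vale.Agent.P286.GE.rat {A : Type} [CommRing A] [Algebra ℚ A] (q : ℚ) :
    GE 0 (algebraMap ℚ A[T;T⁻¹] q) := by
  have := GE.C (algebraMap ℚ A q)
  have h : algebraMap ℚ A[T;T⁻¹] q = LaurentPolynomial.C (algebraMap ℚ A q) := rfl
  rwa [h]

theorem _root_.Vale.Agent.P286.LE.mul0 {A : Type} [CommRing A] {x y : A[T;T⁻¹]} (hx : LE 0 x) (hy : LE 0 y) :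
    LE 0 (x * y) := by simpa using hx.mul hy

theorem _root_.Vale.Agent.P286.GE.mul0 {A : Type} [CommRing A] {x y : A[T;T⁻¹]} (hx : GE 0 x) (hy : GE 0 y) :
    GE 0 (x * y) := by simpa using hx.mul hy

theorem _root_.Vale.Agent.P286.MLE.mul0 {A : Type} [CommRing A] {l m n : Type} [Fintype m] {x : Matrix l m A[T;T⁻¹]}
    {y : Matrix m n A[T;T⁻¹]} (hx : MLE 0 x) (hy : MLE 0 y) : MLE 0 (x * y) := by
  simpa using hx.mul hy

theorem _root_.Vale.Agent.P286.MGE.mul0 {A : Type} [CommRing A] {l m n : Type} [Fintype m] {x : Matrix l m A[T;T⁻¹]}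
    {y : Matrix m n A[T;T⁻¹]} (hx : MGE 0 x) (hy : MGE 0 y) : MGE 0 (x * y) := by
  simpa using hx.mul hy

theorem _root_.Vale.Agent.P286.MLE.ad' {G : TG} {A : Type} [CommRing A] {v : Fin G.d → A[T;T⁻¹]} (hv : ∀ i, LE 0 (v i)) :
    MLE 0 (G.ad v) := by
  intro k j
  rw [TG.ad, Matrix.sum_apply]
  refine LE.sum _ fun i _ => ?_
  rw [Matrix.smul_apply, smul_eq_mul]
  exact (hv i).mul0 (LE.int _)

theorem _root_.Vale.Agent.P286.MGE.ad' {G : TG} {A : Type} [CommRing A] {v : Fin G.d → A[T;T⁻¹]} (hv : ∀ i, GE 0 (v i)) :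
    MGE 0 (G.ad v) := by
  intro k j
  rw [TG.ad, Matrix.sum_apply]
  refine GE.sum _ fun i _ => ?_
  rw [Matrix.smul_apply, smul_eq_mul]
  exact (hv i).mul0 (GE.int _)

theorem _root_.Vale.Agent.P286.MLE.transp {A : Type} [CommRing A] {m n : Type} {x : Matrix m n A[T;T⁻¹]} (hx : MLE 0 x) :
    MLE 0 x.transpose := fun i j => hx j i

theorem _root_.Vale.Agent.P286.MGE.transp {A : Type} [CommRing A] {m n : Type} {x : Matrix m n A[T;T⁻¹]} (hx : MGE 0 x) :
    MGE 0 x.transpose := fun i j => hx j i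

theorem mono_transpose {A : Type} [CommRing A] {n : ℕ} (l : Fin n → ℤ) :
    (mono l : Matrix (Fin n) (Fin n) A[T;T⁻¹]).transpose = mono l := by
  rw [mono, Matrix.diagonal_transpose]

theorem C_inj {A : Type} [CommRing A] :
    Function.Injective (LaurentPolynomial.C : A →+* A[T;T⁻¹]) := fun x y h => by
  have := congrArg (fun x : A[T;T⁻¹] => x.coeff 0) h
  simpa using this

section Steps

variable (M M' : Matrix (Fin G.d) (Fin G.d) K[T;T⁻¹]) {lam : Fin G.d → ℤ}
  {E E' F F' : Matrix (Fin G.d) (Fin G.d) K[T;T⁻¹]}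

omit [CharZero K] in
theorem frame_aux (hM : M * M' = 1) {X Y : Matrix (Fin G.d) (Fin G.d) K[T;T⁻¹]} {t : K[T;T⁻¹]}
    (hX : X = t • (M' * Y * M)) (hF1 : F = M' * E * mono lam) (hF2 : F' = mono (-lam) * E' * M) :
    F' * X * F = t • (mono (-lam) * (E' * Y * E) * mono lam) := by
  rw [hX, Matrix.mul_smul, Matrix.smul_mul]
  refine congrArg (fun Z => t • Z) ?_
  calc F' * (M' * Y * M) * F =
      mono (-lam) * E' * (M * M') * Y * (M * M') * E * mono lam := by
        rw [hF1, hF2]; simp only [Matrix.mul_assoc]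
    _ = mono (-lam) * (E' * Y * E) * mono lam := by
        rw [hM, Matrix.mul_one, Matrix.mul_one]; simp only [Matrix.mul_assoc]

omit [CharZero K] in
theorem frame_eqs (hM : M * M' = 1) (hEE : E * E' = 1) (hFF : F * F' = 1)
    (hMF : M * F = E * mono lam) :
    F = M' * E * mono lam ∧ F' = mono (-lam) * E' * M := by
  have hM' : M' * M = 1 := mul_eq_one_comm.1 hM
  have hF'F : F' * F = 1 := mul_eq_one_comm.1 hFF
  have hm1 : (mono lam : Matrix (Fin G.d) (Fin G.d) K[T;T⁻¹]) * mono (-lam) = 1 := mono_mul_neg lam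
  have hF1 : F = M' * E * mono lam := by
    calc F = (M' * M) * F := by rw [hM', Matrix.one_mul]
      _ = _ := by rw [Matrix.mul_assoc, hMF, Matrix.mul_assoc]
  refine ⟨hF1, ?_⟩
  have h1 : F * (mono (-lam) * E' * M) = 1 := by
    calc F * (mono (-lam) * E' * M) = M' * E * (mono lam * mono (-lam)) * E' * M := by
          rw [hF1]; simp only [Matrix.mul_assoc]
      _ = M' * (E * E') * M := by rw [hm1, Matrix.mul_one]; simp only [Matrix.mul_assoc]
      _ = 1 := by rw [hEE, Matrix.mul_one, hM']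
  calc F' = F' * (F * (mono (-lam) * E' * M)) := by rw [h1, Matrix.mul_one]
    _ = _ := by rw [← Matrix.mul_assoc, hF'F, Matrix.one_mul]

omit [CharZero K] in
theorem frame_col (hF1 : F = M' * E * mono lam) (i : Fin G.d) :
    (fun k => F k i) = (T (lam i) : K[T;T⁻¹]) • (M' *ᵥ fun k => E k i) := by
  funext k
  have h : F k i = (M' * E * mono lam : Matrix (Fin G.d) (Fin G.d) K[T;T⁻¹]) k i := by rw [hF1]
  rw [h, mono, Matrix.mul_diagonal, Matrix.mul_apply, Pi.smul_apply, smul_eq_mul, mul_comm]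
  rfl

omit [CharZero K] in
theorem ad_inv (hM : M * M' = 1) (hA : G.IsAut M) (v : Fin G.d → K[T;T⁻¹]) :
    G.ad (M' *ᵥ v) = M' * G.ad v * M := by
  have hM' : M' * M = 1 := mul_eq_one_comm.1 hM
  have h3 := hA (M' *ᵥ v)
  rw [Matrix.mulVec_mulVec, hM, Matrix.one_mulVec] at h3
  rw [Matrix.mul_assoc, ← h3, ← Matrix.mul_assoc, hM', Matrix.one_mul]

omit [CharZero K] in
theorem frame_rel (hM : M * M' = 1) (hA : G.IsAut M) (hEE : E * E' = 1) (hFF : F * F' = 1)
    (hMF : M * F = E * mono lam) (i k j : Fin G.d) :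
    TG.fr F F' i k j = T (lam i - lam k + lam j) * TG.fr E E' i k j := by
  obtain ⟨hF1, hF2⟩ := frame_eqs M M' hM hEE hFF hMF
  have h3 : G.ad (fun k => F k i) = (T (lam i) : K[T;T⁻¹]) • (M' * G.ad (fun k => E k i) * M) :=
    (congrArg G.ad (frame_col M' hF1 i)).trans ((G.ad_smul _ _).trans
      (congrArg ((T (lam i) : K[T;T⁻¹]) • ·) (ad_inv M M' hM hA _)))
  have h4 := congrFun (congrFun (frame_aux M M' hM h3 hF1 hF2) k) j
  have h5 : (T (lam i - lam k + lam j) : K[T;T⁻¹]) = T (lam i) * T ((-lam) k) * T (lam j) := by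
    rw [← T_add, ← T_add]
    congr 1
  refine h4.trans ?_
  rw [Matrix.smul_apply, mono, mono, Matrix.mul_diagonal, Matrix.diagonal_mul, smul_eq_mul, h5,
    TG.fr]
  ring

theorem inv_gram (hK : G.kill.det ≠ 0) (hM : M * M' = 1) (hA : G.IsAut M)
    (hE' : MGE 0 E') (hEE : E * E' = 1) (hF' : MLE 0 F') (hFF : F * F' = 1)
    (hMF : M * F = E * mono lam) :
    ∃ WF WE : Matrix (Fin G.d) (Fin G.d) K[T;T⁻¹], MLE 0 WF ∧ MGE 0 WE ∧
      WF * (F.transpose * G.kill.map (Int.castRingHom K[T;T⁻¹]) * F) = 1 ∧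
      ∀ i j, WF i j = T (-lam i - lam j) * WE i j := by
  classical
  have hE'E : E' * E = 1 := mul_eq_one_comm.1 hEE
  have hF'F : F' * F = 1 := mul_eq_one_comm.1 hFF
  have hm2 : (mono (-lam) : Matrix (Fin G.d) (Fin G.d) K[T;T⁻¹]) * mono lam = 1 := mono_neg_mul lam
  obtain ⟨Q0, hQ0⟩ : ∃ Q0 : Matrix (Fin G.d) (Fin G.d) K[T;T⁻¹],
    Q0 = G.kill.map (Int.castRingHom K[T;T⁻¹]) := ⟨_, rfl⟩
  obtain ⟨Wc, hWc⟩ : ∃ Wc : Matrix (Fin G.d) (Fin G.d) K, Wc * G.kill.map (Int.castRingHom K) = 1 := by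
    have h1 : IsUnit (G.kill.map (Int.castRingHom K)).det := by
      rw [isUnit_iff_ne_zero]
      have : (G.kill.map (Int.castRingHom K)).det = ((G.kill.det : ℤ) : K) := by
        rw [Int.cast_det]
        rfl
      rw [this]
      exact_mod_cast hK
    exact ⟨_, Matrix.nonsing_inv_mul _ h1⟩
  have hW0 : Wc.map (LaurentPolynomial.C : K →+* K[T;T⁻¹]) * Q0 = 1 := by
    have h1 := congrArg (fun X : Matrix (Fin G.d) (Fin G.d) K => X.map (LaurentPolynomial.C : K →+* K[T;T⁻¹])) hWc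
    simp only [Matrix.map_mul] at h1
    have h2 : (G.kill.map (Int.castRingHom K)).map (LaurentPolynomial.C : K →+* K[T;T⁻¹]) = Q0 := by
      ext i j
      simp [hQ0]
    rw [h2] at h1
    rw [h1]
    simp
  have hWL := MLE.mapC Wc
  have hWG := MGE.mapC Wc
  obtain ⟨W0, hW0'⟩ : ∃ W0, W0 = Wc.map (LaurentPolynomial.C : K →+* K[T;T⁻¹]) := ⟨_, rfl⟩
  rw [← hW0'] at hW0 hWL hWG
  have hWF : (F' * W0 * F'.transpose) * (F.transpose * Q0 * F) = 1 := by
    have h1 : F'.transpose * F.transpose = 1 := by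
      rw [← Matrix.transpose_mul, hFF, Matrix.transpose_one]
    calc (F' * W0 * F'.transpose) * (F.transpose * Q0 * F) =
        F' * W0 * (F'.transpose * F.transpose) * Q0 * F := by
          simp only [Matrix.mul_assoc]
      _ = F' * (W0 * Q0) * F := by rw [h1, Matrix.mul_one]; simp only [Matrix.mul_assoc]
      _ = 1 := by rw [hW0, Matrix.mul_one, hF'F]
  have hWE : (E' * W0 * E'.transpose) * (E.transpose * Q0 * E) = 1 := by
    have h1 : E'.transpose * E.transpose = 1 := by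
      rw [← Matrix.transpose_mul, hEE, Matrix.transpose_one]
    calc (E' * W0 * E'.transpose) * (E.transpose * Q0 * E) =
        E' * W0 * (E'.transpose * E.transpose) * Q0 * E := by
          simp only [Matrix.mul_assoc]
      _ = E' * (W0 * Q0) * E := by rw [h1, Matrix.mul_one]; simp only [Matrix.mul_assoc]
      _ = 1 := by rw [hW0, Matrix.mul_one, hE'E]
  have hQ : F.transpose * Q0 * F = mono lam * (E.transpose * Q0 * E) * mono lam := by
    have h1 : M.transpose * Q0 * M = Q0 := by rw [hQ0]; exact hA.kill hM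
    calc F.transpose * Q0 * F = (M * F).transpose * Q0 * (M * F) := by
          rw [Matrix.transpose_mul]
          conv_lhs => rw [← h1]
          simp only [Matrix.mul_assoc]
      _ = _ := by rw [hMF, Matrix.transpose_mul, mono_transpose]; simp only [Matrix.mul_assoc]
  obtain ⟨WE, hWEd⟩ : ∃ WE, WE = E' * W0 * E'.transpose := ⟨_, rfl⟩
  obtain ⟨WF, hWFd⟩ : ∃ WF, WF = F' * W0 * F'.transpose := ⟨_, rfl⟩
  have hL : MLE 0 WF := by rw [hWFd]; exact (hF'.mul0 hWL).mul0 hF'.transp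
  have hG : MGE 0 WE := by rw [hWEd]; exact (hE'.mul0 hWG).mul0 hE'.transp
  rw [← hWFd] at hWF
  rw [← hWEd] at hWE
  refine ⟨WF, WE, hL, hG, by rw [← hQ0]; exact hWF, ?_⟩
  have hWW : WF = mono (-lam) * WE * mono (-lam) := by
    have h1 : (mono (-lam) * WE * mono (-lam)) * (F.transpose * Q0 * F) = 1 := by
      calc (mono (-lam) * WE * mono (-lam)) * (F.transpose * Q0 * F) =
          mono (-lam) * WE * (mono (-lam) * mono lam) * (E.transpose * Q0 * E) * mono lam := by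
            rw [hQ]; simp only [Matrix.mul_assoc]
        _ = mono (-lam) * (WE * (E.transpose * Q0 * E)) * mono lam := by
            rw [hm2, Matrix.mul_one]; simp only [Matrix.mul_assoc]
        _ = 1 := by rw [hWE, Matrix.mul_one, hm2]
    have h2 : (F.transpose * Q0 * F) * WF = 1 := mul_eq_one_comm.1 hWF
    calc WF = ((mono (-lam) * WE * mono (-lam)) * (F.transpose * Q0 * F)) * WF := by
          rw [h1, Matrix.one_mul]
      _ = _ := by rw [Matrix.mul_assoc, h2, Matrix.mul_one]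
  intro i j
  rw [hWW, mono, Matrix.mul_diagonal, Matrix.diagonal_mul]
  have h1 : (T (-lam i - lam j) : K[T;T⁻¹]) = T ((-lam) i) * T ((-lam) j) := by
    rw [← T_add]
    congr 1
  rw [h1]
  ring

end Steps

section Main

variable {n : ℕ} {lam : Fin n → ℤ} {BF BE : Fin n → Matrix (Fin n) (Fin n) K[T;T⁻¹]}
  {WF WE QF : Matrix (Fin n) (Fin n) K[T;T⁻¹]}

omit [CharZero K] in
theorem exists_h
    (hJ : ∀ i j, BF i * BF j - BF j * BF i = ∑ k, BF i k j • BF k)
    (hQ : ∀ i j, QF i j = (BF i * BF j).trace) (hWF : WF * QF = 1)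
    (hBe : ∀ i k j, BF i k j = T (lam i - lam k + lam j) * BE i k j)
    (hBF : ∀ i, MLE 0 (BF i)) (hBE : ∀ i, MGE 0 (BE i))
    (hWe : ∀ i j, WF i j = T (-lam i - lam j) * WE i j) (hWFL : MLE 0 WF) (hWEG : MGE 0 WE) :
    ∃ h : Fin n → K[T;T⁻¹], (∀ i, LE 0 (h i)) ∧ (∀ i, GE 0 (h i)) ∧ (∀ i, lam i ≠ 0 → h i = 0) ∧
      ∀ k j, lam k ≤ lam j → (∑ i, h i • BF i) k j = if k = j then (lam j : K[T;T⁻¹]) else 0 := by
  classical
  have hB0 : ∀ i j k, lam k < lam i + lam j → BF i k j = 0 := by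
    intro i j k h
    refine eq_zero_of_LE_GE (hBF i k j) (m := lam i - lam k + lam j + 0) ?_ (by omega)
    rw [hBe]
    exact (GE.T _).mul (hBE i k j)
  have hW0' : ∀ i j, lam i + lam j < 0 → WF i j = 0 := by
    intro i j h
    refine eq_zero_of_LE_GE (hWFL i j) (m := -lam i - lam j + 0) ?_ (by omega)
    rw [hWe]
    exact (GE.T _).mul (hWEG i j)
  have hfi := filtered_inner BF WF QF lam hJ hQ hWF hB0 hW0'
  obtain ⟨D, hD⟩ : ∃ D : Matrix (Fin n) (Fin n) K[T;T⁻¹],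
    D = Matrix.diagonal fun i => (lam i : K[T;T⁻¹]) := ⟨_, rfl⟩
  rw [← hD] at hfi
  have hDL : MLE 0 D := by
    intro i j
    rw [hD, Matrix.diagonal_apply]
    split_ifs
    · exact LE.int _
    · exact LE.zero _
  have hDG : MGE 0 D := by
    intro i j
    rw [hD, Matrix.diagonal_apply]
    split_ifs
    · exact GE.int _
    · exact GE.zero _
  have htr : ∀ j, (D * BF j).trace = T (lam j) * (D * BE j).trace := by
    intro j
    rw [Matrix.trace, Matrix.trace, Finset.mul_sum]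
    refine Finset.sum_congr rfl fun k _ => ?_
    rw [Matrix.diag_apply, Matrix.diag_apply, hD, Matrix.diagonal_mul, Matrix.diagonal_mul, hBe]
    have h1 : lam j - lam k + lam k = lam j := by ring
    rw [h1]
    ring
  have hrep : ∀ i, lam i = 0 → repr BF WF D i = repr BE WE D i := by
    intro i hi
    refine Finset.sum_congr rfl fun j _ => ?_
    rw [hWe, htr, hi]
    have h1 : (T (-0 - lam j) : K[T;T⁻¹]) * T (lam j) = 1 := by
      rw [← T_add]
      simp [T_zero]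
    calc T (-0 - lam j) * WE i j * (T (lam j) * (D * BE j).trace) =
        (T (-0 - lam j) * T (lam j)) * (WE i j * (D * BE j).trace) := by ring
      _ = _ := by rw [h1, one_mul]
  refine ⟨fun i => if lam i = 0 then repr BF WF D i else 0, ?_, ?_, ?_, hfi⟩
  · intro i
    beta_reduce
    split_ifs with hi
    · refine LE.sum _ fun j _ => (hWFL i j).mul0 (LE.sum _ fun k _ => ?_)
      exact (hDL.mul0 (hBF j)) k k
    · exact LE.zero _
  · intro i
    beta_reduce
    split_ifs with hi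
    · rw [hrep i hi]
      refine GE.sum _ fun j _ => (hWEG i j).mul0 (GE.sum _ fun k _ => ?_)
      exact (hDG.mul0 (hBE j)) k k
    · exact GE.zero _
  · intro i hi
    exact if_neg hi

theorem exists_U {h : Fin n → K[T;T⁻¹]}
    (hBe : ∀ i k j, BF i k j = T (lam i - lam k + lam j) * BE i k j)
    (hBF : ∀ i, MLE 0 (BF i)) (hBE : ∀ i, MGE 0 (BE i))
    (hhL : ∀ i, LE 0 (h i)) (hhG : ∀ i, GE 0 (h i)) (hh0 : ∀ i, lam i ≠ 0 → h i = 0)
    (hHF : ∀ k j, lam k ≤ lam j → (∑ i, h i • BF i) k j = if k = j then (lam j : K[T;T⁻¹]) else 0) :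
    ∃ UF UE : Matrix (Fin n) (Fin n) K[T;T⁻¹], MLE 0 UF ∧ MGE 0 UE ∧ UF.det = 1 ∧ UE.det = 1 ∧
      (∑ i, h i • BF i) * UF = UF * Matrix.diagonal (fun i => (lam i : K[T;T⁻¹])) ∧
      (∑ i, h i • BE i) * UE = UE * Matrix.diagonal (fun i => (lam i : K[T;T⁻¹])) ∧
      mono lam * UF = UE * mono lam := by
  have hL : MLE 0 (∑ i, h i • BF i) := by
    intro k l
    simp only [Matrix.sum_apply, Matrix.smul_apply, smul_eq_mul]
    exact LE.sum _ fun i _ => (hhL i).mul0 (hBF i k l)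
  have hG : MGE 0 (∑ i, h i • BE i) := by
    intro k l
    simp only [Matrix.sum_apply, Matrix.smul_apply, smul_eq_mul]
    exact GE.sum _ fun i _ => (hhG i).mul0 (hBE i k l)
  have hHE : ∀ k l, (∑ i, h i • BE i) k l = T (lam k - lam l) * (∑ i, h i • BF i) k l := by
    intro k l
    simp only [Matrix.sum_apply, Matrix.smul_apply, smul_eq_mul, Finset.mul_sum]
    refine Finset.sum_congr rfl fun i _ => ?_
    by_cases hi : lam i = 0
    · rw [hBe, hi]
      have h1 : (T (lam k - lam l) : K[T;T⁻¹]) * T (0 - lam k + lam l) = 1 := by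
        rw [← T_add]
        have : lam k - lam l + (0 - lam k + lam l) = 0 := by ring
        rw [this, T_zero]
      linear_combination (-(h i * BE i k l)) * h1
    · rw [hh0 i hi]
      ring
  obtain ⟨HF, hHFd⟩ : ∃ HF, HF = ∑ i, h i • BF i := ⟨_, rfl⟩
  obtain ⟨HE, hHEd⟩ : ∃ HE, HE = ∑ i, h i • BE i := ⟨_, rfl⟩
  rw [← hHFd] at hHF hL hHE
  rw [← hHEd] at hG hHE
  rw [← hHFd, ← hHEd]
  have hHE' : ∀ k j, lam k ≤ lam j → HE k j = if k = j then (lam j : K[T;T⁻¹]) else 0 := by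
    intro k j hkj
    rw [hHE, hHF k j hkj]
    split_ifs with h1
    · rw [h1, sub_self, T_zero, one_mul]
    · rw [mul_zero]
  refine ⟨Matrix.of (Ufun lam HF), Matrix.of (Ufun lam HE), ?_, ?_, det_Ufun lam HF,
    det_Ufun lam HE, mul_Ufun HF hHF, mul_Ufun HE hHE', ?_⟩
  · exact fun k j => Ufun_mem HF (LE 0) (LE.zero 0) LE.one
      (fun _ _ => LE.add) (fun _ _ => LE.mul0) LE.rat hL _ k j le_rfl
  · exact fun k j => Ufun_mem HE (GE 0) (GE.zero 0) GE.one
      (fun _ _ => GE.add) (fun _ _ => GE.mul0) GE.rat hG _ k j le_rfl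
  · ext1 k j
    rw [mono, Matrix.mul_diagonal, Matrix.diagonal_mul, Matrix.of_apply, Matrix.of_apply]
    rw [Ufun_conj HF HE T T_zero T_add hHE _ k j le_rfl]
    have h2 : (T (lam k - lam j) : K[T;T⁻¹]) * T (lam j) = T (lam k) := by
      rw [← T_add]
      congr 1
      ring
    linear_combination (-(Ufun lam HF k j)) * h2

end Main

theorem ad_frame {R : Type} [CommRing R] {P P' : Matrix (Fin G.d) (Fin G.d) R} (h : P * P' = 1)
    (v : Fin G.d → R) : G.ad (P *ᵥ v) * P = P * ∑ i, v i • TG.fr P P' i := by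
  rw [G.ad_mulVec, Finset.sum_mul, Finset.mul_sum]
  refine Finset.sum_congr rfl fun i _ => ?_
  rw [Matrix.smul_mul, Matrix.mul_smul, TG.fr, ← Matrix.mul_assoc, ← Matrix.mul_assoc, h,
    Matrix.one_mul]

/-- Every bundle has adapted frames. -/
theorem exists_SD (hK : G.kill.det ≠ 0) (M M' : Matrix (Fin G.d) (Fin G.d) K[T;T⁻¹])
    (hM : M * M' = 1) (hA : G.IsAut M) :
    ∃ (lam : Fin G.d → ℤ) (E E' F F' : Matrix (Fin G.d) (Fin G.d) K[T;T⁻¹])
      (x0 x1 : Fin G.d → K[T;T⁻¹]), ∑ i, lam i = 0 ∧ SD G M lam E E' F F' x0 x1 := by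
  have hcz : CharZero K[T;T⁻¹] :=
    charZero_of_injective_ringHom (f := (LaurentPolynomial.C : K →+* K[T;T⁻¹])) C_inj
  obtain ⟨lam, E, E', F, F', hsum, hE, hE', hEE, hF, hF', hFF, hMF⟩ :=
    birk M M' hM (hA.det hK hM)
  obtain ⟨WF, WE, hWFL, hWEG, hWF, hWe⟩ := inv_gram M M' hK hM hA hE' hEE hF' hFF hMF
  have hBe := frame_rel M M' hM hA hEE hFF hMF
  have hBF : ∀ i, MLE 0 (TG.fr F F' i) := fun i => (hF'.mul0 (MLE.ad' fun k => hF k i)).mul0 hF
  have hBE : ∀ i, MGE 0 (TG.fr E E' i) := fun i => (hE'.mul0 (MGE.ad' fun k => hE k i)).mul0 hE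
  obtain ⟨h, hhL, hhG, hh0, hHF⟩ := exists_h (TG.fr_J hFF) (TG.fr_Q hFF) hWF hBe hBF hBE hWe
    hWFL hWEG
  obtain ⟨UF, UE, hUFL, hUEG, hdF, hdE, hUF, hUE, hUU⟩ := exists_U hBe hBF hBE hhL hhG hh0 hHF
  refine ⟨lam, E * UE, UE.adjugate * E', F * UF, UF.adjugate * F', E *ᵥ h, F *ᵥ h, hsum, ?_⟩
  refine ⟨hE.mul0 hUEG, hUEG.adjugate.mul0 hE', ?_, hF.mul0 hUFL, hUFL.adjugate.mul0 hF', ?_, ?_,
    GE.mulVec hE hhG, LE.mulVec hF hhL, ?_, ?_, ?_⟩
  · calc E * UE * (UE.adjugate * E') = E * (UE * UE.adjugate) * E' := by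
          simp only [Matrix.mul_assoc]
      _ = 1 := by rw [self_mul_adjugate hdE, Matrix.mul_one, hEE]
  · calc F * UF * (UF.adjugate * F') = F * (UF * UF.adjugate) * F' := by
          simp only [Matrix.mul_assoc]
      _ = 1 := by rw [self_mul_adjugate hdF, Matrix.mul_one, hFF]
  · rw [← Matrix.mul_assoc, hMF, Matrix.mul_assoc, hUU, Matrix.mul_assoc]
  · rw [Matrix.mulVec_mulVec, hMF, ← Matrix.mulVec_mulVec]
    congr 1
    funext i
    rw [mono, Matrix.mulVec_diagonal]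
    by_cases hi : lam i = 0
    · rw [hi, T_zero, one_mul]
    · rw [hh0 i hi, mul_zero]
  · rw [← Matrix.mul_assoc, ad_frame hEE, Matrix.mul_assoc, hUE, Matrix.mul_assoc]
  · rw [← Matrix.mul_assoc, ad_frame hFF, Matrix.mul_assoc, hUF, Matrix.mul_assoc]

end

end Vale.Agent.P286.R2.H505
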