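import Vale.Agent.P286.R2.H505.TG

/-!
# The Lie algebra of a tensor group
-/

namespace Vale.Agent.P286.R2.H505

open Matrix

section Basic

variable {N : ℕ} {R S : Type} [CommRing R] [CommRing S]

theorem Ten.mat_map (t : Ten N) (f : R →+* S) : (t.mat R).map f = t.mat S := by
  ext i j
  simp [Ten.mat]

theorem Ten.Fix.map {t : Ten N} {x : Matrix (Fin N) (Fin N) R} (h : t.Fix x) (f : R →+* S) :
    t.Fix (x.map f) := by
  rw [Ten.fix_iff] at h ⊢
  have h1 : (tpow t.p x * t.mat R).map f = (t.mat R * tpow t.q x).map f :=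
    congrArg (fun M : Matrix _ _ R => M.map f) h
  rw [Matrix.map_mul, Matrix.map_mul, tpow_map, tpow_map, t.mat_map] at h1
  exact h1

theorem Ten.Fix.of_map {t : Ten N} {x : Matrix (Fin N) (Fin N) R} (f : R →+* S)
    (hf : Function.Injective f) (h : t.Fix (x.map f)) : t.Fix x := by
  rw [Ten.fix_iff] at h ⊢
  have h1 : (tpow t.p x * t.mat R).map f = (t.mat R * tpow t.q x).map f := by
    rw [Matrix.map_mul, Matrix.map_mul, tpow_map, tpow_map, t.mat_map]
    exact h
  ext i j
  exact hf (congrFun (congrFun h1 i) j)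

theorem Ten.Kill.map {t : Ten N} {x : Matrix (Fin N) (Fin N) R} (h : t.Kill x) (f : R →+* S) :
    t.Kill (x.map f) := by
  rw [Ten.kill_iff] at h ⊢
  have h1 : (tder t.p x * t.mat R).map f = (t.mat R * tder t.q x).map f :=
    congrArg (fun M : Matrix _ _ R => M.map f) h
  rw [Matrix.map_mul, Matrix.map_mul, tder_map, tder_map, t.mat_map] at h1
  exact h1

theorem Ten.Kill.of_map {t : Ten N} {x : Matrix (Fin N) (Fin N) R} (f : R →+* S)
    (hf : Function.Injective f) (h : t.Kill (x.map f)) : t.Kill x := by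
  rw [Ten.kill_iff] at h ⊢
  have h1 : (tder t.p x * t.mat R).map f = (t.mat R * tder t.q x).map f := by
    rw [Matrix.map_mul, Matrix.map_mul, tder_map, tder_map, t.mat_map]
    exact h
  ext i j
  exact hf (congrFun (congrFun h1 i) j)

theorem trace_map' (f : R →+* S) (x : Matrix (Fin N) (Fin N) R) :
    (x.map f).trace = f x.trace := by
  simp [Matrix.trace]

variable {ten : Set (Ten N)}

theorem IsLie.map {x : Matrix (Fin N) (Fin N) R} (h : IsLie ten x) (f : R →+* S) :
    IsLie ten (x.map f) :=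
  ⟨by rw [trace_map', h.1, map_zero], fun t ht => (h.2 t ht).map f⟩

theorem IsLie.of_map {x : Matrix (Fin N) (Fin N) R} (f : R →+* S) (hf : Function.Injective f)
    (h : IsLie ten (x.map f)) : IsLie ten x :=
  ⟨by
    apply hf
    rw [← trace_map', h.1, map_zero], fun t ht => (h.2 t ht).of_map f hf⟩

theorem IsLie.zero : IsLie ten (0 : Matrix (Fin N) (Fin N) R) :=
  ⟨Matrix.trace_zero _ _, fun t _ => by
    rw [Ten.kill_iff, tder_zero, tder_zero, Matrix.zero_mul, Matrix.mul_zero]⟩

theorem IsLie.add {x y : Matrix (Fin N) (Fin N) R} (hx : IsLie ten x) (hy : IsLie ten y) :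
    IsLie ten (x + y) :=
  ⟨by rw [Matrix.trace_add, hx.1, hy.1, add_zero], fun t ht => by
    have h1 := hx.2 t ht
    have h2 := hy.2 t ht
    rw [Ten.kill_iff] at *
    rw [tder_add, tder_add, Matrix.add_mul, Matrix.mul_add, h1, h2]⟩

theorem IsLie.smul {x : Matrix (Fin N) (Fin N) R} (hx : IsLie ten x) (r : R) :
    IsLie ten (r • x) :=
  ⟨by rw [Matrix.trace_smul, hx.1, smul_zero], fun t ht => by
    have h1 := hx.2 t ht
    rw [Ten.kill_iff] at *
    rw [tder_smul, tder_smul, Matrix.smul_mul, Matrix.mul_smul, h1]⟩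

theorem IsLie.neg {x : Matrix (Fin N) (Fin N) R} (hx : IsLie ten x) : IsLie ten (-x) := by
  have := hx.smul (-1)
  rwa [neg_smul, one_smul] at this

theorem IsLie.sub {x y : Matrix (Fin N) (Fin N) R} (hx : IsLie ten x) (hy : IsLie ten y) :
    IsLie ten (x - y) := by
  rw [sub_eq_add_neg]
  exact hx.add hy.neg

theorem IsLie.sum {ι : Type*} (s : Finset ι) {x : ι → Matrix (Fin N) (Fin N) R}
    (hx : ∀ i ∈ s, IsLie ten (x i)) : IsLie ten (∑ i ∈ s, x i) := by
  classical
  induction s using Finset.induction_on with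
  | empty => rw [Finset.sum_empty]; exact IsLie.zero
  | insert a s ha ih =>
    rw [Finset.sum_insert ha]
    exact (hx a (Finset.mem_insert_self a s)).add
      (ih fun i hi => hx i (Finset.mem_insert_of_mem hi))

theorem IsLie.lie {x y : Matrix (Fin N) (Fin N) R} (hx : IsLie ten x) (hy : IsLie ten y) :
    IsLie ten (x * y - y * x) :=
  ⟨by rw [Matrix.trace_sub, Matrix.trace_mul_comm, sub_self], fun t ht => by
    have h1 := hx.2 t ht
    have h2 := hy.2 t ht
    rw [Ten.kill_iff] at *
    rw [tder_lie, tder_lie, Matrix.sub_mul, Matrix.mul_sub, Matrix.mul_assoc, Matrix.mul_assoc,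
      h1, h2, ← Matrix.mul_assoc, ← Matrix.mul_assoc, h1, h2]
    simp only [Matrix.mul_assoc]⟩

/-- conjugation by a matrix which fixes the tensors -/
theorem IsLie.conj {g gi x : Matrix (Fin N) (Fin N) R} (h : g * gi = 1) (h' : gi * g = 1)
    (hg : ∀ t ∈ ten, t.Fix g) (hx : IsLie ten x) : IsLie ten (g * x * gi) :=
  ⟨by rw [Matrix.trace_mul_comm, ← Matrix.mul_assoc, h', Matrix.one_mul, hx.1], fun t ht => by
    have h1 := hg t ht
    have h2 := hx.2 t ht
    have h3 : tpow t.p gi * t.mat R = t.mat R * tpow t.q gi := by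
      rw [Ten.fix_iff] at h1
      calc tpow t.p gi * t.mat R = tpow t.p gi * (t.mat R * tpow t.q g) * tpow t.q gi := by
            rw [Matrix.mul_assoc, Matrix.mul_assoc, ← tpow_mul, h, tpow_one, Matrix.mul_one]
        _ = t.mat R * tpow t.q gi := by
            rw [← h1, ← Matrix.mul_assoc, ← tpow_mul, h', tpow_one, Matrix.one_mul]
    rw [Ten.kill_iff] at *
    rw [Ten.fix_iff] at h1
    rw [← tpow_tder t.p h, ← tpow_tder t.q h, Matrix.mul_assoc, h3, Matrix.mul_assoc,
      ← Matrix.mul_assoc (tder t.p x), h2, ← Matrix.mul_assoc, ← Matrix.mul_assoc, h1]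
    simp only [Matrix.mul_assoc]⟩

section Pair

theorem pair_map (c : Matrix (Fin N) (Fin N) ℤ) (f : R →+* S) (x : Matrix (Fin N) (Fin N) R) :
    pair c (x.map f) = f (pair c x) := by
  simp [pair]

theorem pair_add (c : Matrix (Fin N) (Fin N) ℤ) (x y : Matrix (Fin N) (Fin N) R) :
    pair c (x + y) = pair c x + pair c y := by
  simp only [pair, Matrix.add_apply, mul_add, Finset.sum_add_distrib]

theorem pair_smul (c : Matrix (Fin N) (Fin N) ℤ) (r : R) (x : Matrix (Fin N) (Fin N) R) :
    pair c (r • x) = r * pair c x := by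
  simp only [pair, Matrix.smul_apply, smul_eq_mul, Finset.mul_sum]
  exact Finset.sum_congr rfl fun p _ => Finset.sum_congr rfl fun q _ => by ring

/-- `pair` as a linear map -/
def pairL (c : Matrix (Fin N) (Fin N) ℤ) (R : Type) [CommRing R] :
    Matrix (Fin N) (Fin N) R →ₗ[R] R where
  toFun := pair c
  map_add' := pair_add c
  map_smul' := pair_smul c

theorem pairL_apply (c : Matrix (Fin N) (Fin N) ℤ) (x : Matrix (Fin N) (Fin N) R) :
    pairL c R x = pair c x := rfl

end Pair

section Additive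

theorem addMap_int (φ : R →+ S) (r : R) (n : ℤ) : φ (r * (n : R)) = φ r * (n : S) := by
  rw [mul_comm, ← zsmul_eq_mul, map_zsmul, zsmul_eq_mul, mul_comm]

theorem tder_int (p : ℕ) (x : Matrix (Fin N) (Fin N) R) (i j : Fin p → Fin N) :
    tder p x i j = ∑ k, x (i k) (j k) *
      ((∏ l ∈ Finset.univ.erase k, (1 : Matrix (Fin N) (Fin N) ℤ) (i l) (j l) : ℤ) : R) := by
  simp only [tder, Matrix.of_apply]
  refine Finset.sum_congr rfl fun k _ => ?_
  congr 1
  rw [Int.cast_prod]
  refine Finset.prod_congr rfl fun l _ => ?_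
  rw [Matrix.one_apply, Matrix.one_apply]
  split_ifs <;> simp

theorem tder_addMap (p : ℕ) (φ : R →+ S) (x : Matrix (Fin N) (Fin N) R) :
    (tder p x).map φ = tder p (x.map φ) := by
  ext i j
  rw [Matrix.map_apply, tder_int, tder_int, map_sum]
  exact Finset.sum_congr rfl fun k _ => addMap_int φ _ _

theorem Ten.Kill.addMap {t : Ten N} {x : Matrix (Fin N) (Fin N) R} (h : t.Kill x) (φ : R →+ S) :
    t.Kill (x.map φ) := by
  rw [Ten.kill_iff] at h ⊢
  rw [← tder_addMap, ← tder_addMap]
  have h1 : (tder t.p x * t.mat R).map φ = (tder t.p x).map φ * t.mat S := by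
    ext i j
    rw [Matrix.map_apply, Matrix.mul_apply, Matrix.mul_apply, map_sum]
    exact Finset.sum_congr rfl fun k _ => addMap_int φ _ _
  have h2 : (t.mat R * tder t.q x).map φ = t.mat S * (tder t.q x).map φ := by
    ext i j
    rw [Matrix.map_apply, Matrix.mul_apply, Matrix.mul_apply, map_sum]
    refine Finset.sum_congr rfl fun k _ => ?_
    rw [mul_comm, mul_comm (t.mat S i k)]
    exact addMap_int φ _ _
  rw [← h1, ← h2]
  exact congrArg (fun M : Matrix _ _ R => M.map φ) h

theorem IsLie.addMap {x : Matrix (Fin N) (Fin N) R} (h : IsLie ten x) (φ : R →+ S) :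
    IsLie ten (x.map φ) :=
  ⟨by
    have h1 : (x.map φ).trace = φ x.trace := by simp [Matrix.trace]
    rw [h1, h.1, map_zero], fun t ht => (h.2 t ht).addMap φ⟩

theorem pair_addMap (c : Matrix (Fin N) (Fin N) ℤ) (φ : R →+ S) (x : Matrix (Fin N) (Fin N) R) :
    pair c (x.map φ) = φ (pair c x) := by
  simp only [pair, map_sum, Matrix.map_apply]
  refine Finset.sum_congr rfl fun p _ => Finset.sum_congr rfl fun q _ => ?_
  rw [mul_comm, mul_comm (c p q : R), addMap_int]

end Additive

end Basic

namespace TG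

variable (G : TG) {R S : Type} [CommRing R] [CommRing S]

/-- The element of the Lie algebra with given coordinates. -/
def li (v : Fin G.d → R) : Matrix (Fin G.N) (Fin G.N) R :=
  ∑ i, v i • (G.b i).map (Int.castRingHom R)

/-- The coordinates. -/
def co (x : Matrix (Fin G.N) (Fin G.N) R) : Fin G.d → R := fun i => pair (G.c i) x

theorem co_li (v : Fin G.d → R) : G.co (G.li v) = v := by
  funext i
  rw [co, li, ← pairL_apply, map_sum]
  have h : ∀ j, pairL (G.c i) R (v j • (G.b j).map (Int.castRingHom R)) = if i = j then v j else 0 := by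
    intro j
    rw [pairL_apply, pair_smul, pair_map, G.dual]
    split_ifs <;> simp
  simp only [h, Finset.sum_ite_eq, Finset.mem_univ, if_true]

theorem li_injective : Function.Injective (G.li : (Fin G.d → R) → _) := fun v w h => by
  rw [← G.co_li v, h, G.co_li]

theorem isLie_li (v : Fin G.d → R) : IsLie G.ten (G.li v) :=
  IsLie.sum _ fun i _ => ((G.isLie i).map _).smul _

theorem li_map (f : R →+* S) (v : Fin G.d → R) : (G.li v).map f = G.li fun i => f (v i) := by
  ext p q
  simp [li, Matrix.sum_apply]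

theorem co_map (f : R →+* S) (x : Matrix (Fin G.N) (Fin G.N) R) :
    G.co (x.map f) = fun i => f (G.co x i) := by
  funext i
  exact pair_map _ _ _

theorem li_add (v w : Fin G.d → R) : G.li (v + w) = G.li v + G.li w := by
  simp only [li, Pi.add_apply, add_smul, Finset.sum_add_distrib]

theorem li_smul (r : R) (v : Fin G.d → R) : G.li (r • v) = r • G.li v := by
  simp only [li, Pi.smul_apply, smul_eq_mul, mul_smul, Finset.smul_sum]

/-- `li` as a linear map -/
def liL (R : Type) [CommRing R] : (Fin G.d → R) →ₗ[R] Matrix (Fin G.N) (Fin G.N) R where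
  toFun := G.li
  map_add' := G.li_add
  map_smul' := G.li_smul

theorem liL_apply (v : Fin G.d → R) : G.liL R v = G.li v := rfl

theorem li_rat {y : Matrix (Fin G.N) (Fin G.N) ℚ} (h : IsLie G.ten y)
    (h0 : ∀ i, pair (G.c i) y = 0) : y = 0 := by
  classical
  let D : ℕ := ∏ p : Fin G.N × Fin G.N, (y p.1 p.2).den
  have hD : D ≠ 0 := Finset.prod_ne_zero_iff.2 fun p _ => (y p.1 p.2).den_nz
  have hz : ∀ i j, ∃ z : ℤ, (z : ℚ) = (D : ℚ) * y i j := by
    intro i j
    obtain ⟨e, he⟩ : (y i j).den ∣ D :=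
      Finset.dvd_prod_of_mem (fun p : Fin G.N × Fin G.N => (y p.1 p.2).den) (Finset.mem_univ (i, j))
    refine ⟨e * (y i j).num, ?_⟩
    have h1 : (y i j) * (y i j).den = (y i j).num := Rat.mul_den_eq_num _
    rw [he]
    push_cast
    rw [← h1]
    ring
  choose z hz using hz
  have hzy : (Matrix.of z).map (Int.castRingHom ℚ) = (D : ℚ) • y := by
    ext i j
    simp [hz]
  have hzL : IsLie G.ten (Matrix.of z : Matrix (Fin G.N) (Fin G.N) ℤ) := by
    apply IsLie.of_map (Int.castRingHom ℚ) Int.cast_injective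
    rw [hzy]
    exact h.smul _
  have hz0 : ∀ i, pair (G.c i) (Matrix.of z : Matrix (Fin G.N) (Fin G.N) ℤ) = 0 := by
    intro i
    apply Int.cast_injective (α := ℚ)
    have h2 := pair_map (G.c i) (Int.castRingHom ℚ) (Matrix.of z : Matrix (Fin G.N) (Fin G.N) ℤ)
    rw [hzy, pair_smul, h0, mul_zero] at h2
    simpa using h2.symm
  have h3 := G.span _ hzL
  simp only [hz0, zero_smul, Finset.sum_const_zero] at h3
  have h4 : (D : ℚ) • y = 0 := by
    rw [← hzy, h3]
    simp
  have h5 : (D : ℚ) ≠ 0 := by exact_mod_cast hD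
  exact (smul_eq_zero.1 h4).resolve_left h5

/-- Over a `ℚ`-algebra the Lie algebra has the basis `b`. -/
theorem li_co [Algebra ℚ R] {x : Matrix (Fin G.N) (Fin G.N) R} (h : IsLie G.ten x) :
    G.li (G.co x) = x := by
  have key : ∀ y : Matrix (Fin G.N) (Fin G.N) R, IsLie G.ten y → (∀ i, pair (G.c i) y = 0) →
      y = 0 := by
    intro y hy hy0
    ext i j
    rw [Matrix.zero_apply, ← Module.forall_dual_apply_eq_zero_iff ℚ]
    intro φ
    have h1 := G.li_rat (hy.addMap (φ : R →+ ℚ)) fun i => by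
      rw [pair_addMap, hy0, map_zero]
    exact congrFun (congrFun h1 i) j
  have h2 := key (x - G.li (G.co x)) (h.sub (G.isLie_li _)) fun i => by
    have h3 := congrFun (G.co_li (G.co x)) i
    rw [← pairL_apply, map_sub, sub_eq_zero]
    exact h3.symm
  exact (sub_eq_zero.1 h2).symm

/-- The matrix of `ad` of the element with coordinates `v`. -/
def ad (v : Fin G.d → R) : Matrix (Fin G.d) (Fin G.d) R :=
  ∑ i, v i • (G.adM i).map (Int.castRingHom R)

theorem ad_add (v w : Fin G.d → R) : G.ad (v + w) = G.ad v + G.ad w := by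
  simp only [ad, Pi.add_apply, add_smul, Finset.sum_add_distrib]

theorem ad_smul (r : R) (v : Fin G.d → R) : G.ad (r • v) = r • G.ad v := by
  simp only [ad, Pi.smul_apply, smul_eq_mul, mul_smul, Finset.smul_sum]

/-- `ad` as a linear map -/
def adL (R : Type) [CommRing R] : (Fin G.d → R) →ₗ[R] Matrix (Fin G.d) (Fin G.d) R where
  toFun := G.ad
  map_add' := G.ad_add
  map_smul' := G.ad_smul

theorem adL_apply (v : Fin G.d → R) : G.adL R v = G.ad v := rfl

theorem ad_sub (v w : Fin G.d → R) : G.ad (v - w) = G.ad v - G.ad w := map_sub (G.adL R) v w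

theorem ad_map (f : R →+* S) (v : Fin G.d → R) : (G.ad v).map f = G.ad fun i => f (v i) := by
  ext p q
  simp [ad, Matrix.sum_apply]

theorem b_lie (i j : Fin G.d) :
    G.b i * G.b j - G.b j * G.b i = ∑ k, G.adM i k j • G.b k :=
  G.span _ ((G.isLie i).lie (G.isLie j))

theorem li_ad (v w : Fin G.d → R) : G.li (G.ad v *ᵥ w) = G.li v * G.li w - G.li w * G.li v := by
  have h1 : ∀ i j, G.li ((G.adM i).map (Int.castRingHom R) *ᵥ Pi.single j (1 : R)) =
      (G.b i).map (Int.castRingHom R) * (G.b j).map (Int.castRingHom R) -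
        (G.b j).map (Int.castRingHom R) * (G.b i).map (Int.castRingHom R) := by
    intro i j
    rw [← Matrix.map_mul, ← Matrix.map_mul]
    have h2 := congrArg (fun x : Matrix (Fin G.N) (Fin G.N) ℤ => x.map (Int.castRingHom R)) (G.b_lie i j)
    have h3 : (G.b i * G.b j - G.b j * G.b i).map (Int.castRingHom R) =
        (G.b i * G.b j).map (Int.castRingHom R) - (G.b j * G.b i).map (Int.castRingHom R) := by
      ext p q
      simp
    rw [← h3, h2, Matrix.mulVec_single_one]
    ext p q
    simp only [li, Matrix.sum_apply, Matrix.map_apply, Matrix.smul_apply, smul_eq_mul, map_sum,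
      map_mul, Matrix.col_apply]
  have h4 : ∀ x y : Fin G.d → R, x = ∑ j, x j • Pi.single j (1 : R) := fun x _ => by
    funext k
    simp [Finset.sum_apply, Pi.single_apply]
  rw [h4 w w]
  simp only [← liL_apply, Matrix.mulVec_sum, Matrix.mulVec_smul, map_sum, map_smul,
    Finset.mul_sum, Finset.sum_mul, Matrix.mul_smul, Matrix.smul_mul]
  rw [← Finset.sum_sub_distrib]
  refine Finset.sum_congr rfl fun j _ => ?_
  rw [← smul_sub]
  congr 1
  rw [ad, Matrix.sum_mulVec, map_sum, liL_apply, liL_apply, li, Finset.sum_mul, Finset.mul_sum,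
    ← Finset.sum_sub_distrib]
  refine Finset.sum_congr rfl fun i _ => ?_
  rw [Matrix.smul_mulVec, map_smul, liL_apply, h1, Matrix.smul_mul, Matrix.mul_smul, ← smul_sub]
  have h5 : G.li (Pi.single j (1 : R)) = (G.b j).map (Int.castRingHom R) := by
    rw [li, Finset.sum_eq_single j]
    · simp
    · intro k _ hk
      simp [hk]
    · intro h
      exact absurd (Finset.mem_univ j) h
  rw [h5]

theorem ad_swap (v w : Fin G.d → R) : G.ad v *ᵥ w = -(G.ad w *ᵥ v) := by
  apply G.li_injective
  rw [← liL_apply, ← liL_apply, map_neg, liL_apply, liL_apply, li_ad, li_ad]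
  abel

theorem ad_lie (v w : Fin G.d → R) :
    G.ad (G.ad v *ᵥ w) = G.ad v * G.ad w - G.ad w * G.ad v := by
  have h : ∀ x y : Matrix (Fin G.d) (Fin G.d) R, (∀ u, x *ᵥ u = y *ᵥ u) → x = y := by
    intro x y hxy
    ext i j
    have := congrFun (hxy (Pi.single j 1)) i
    simpa using this
  apply h
  intro u
  apply G.li_injective
  rw [Matrix.sub_mulVec, ← Matrix.mulVec_mulVec, ← Matrix.mulVec_mulVec, ← liL_apply, ← liL_apply,
    map_sub, liL_apply, liL_apply, liL_apply]
  simp only [li_ad]
  noncomm_ring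

theorem ad_mulVec (M : Matrix (Fin G.d) (Fin G.d) R) (v : Fin G.d → R) :
    G.ad (M *ᵥ v) = ∑ j, v j • G.ad (fun i => M i j) := by
  have h : M *ᵥ v = ∑ j, v j • (fun i => M i j) := by
    funext i
    simp [Matrix.mulVec, dotProduct, Finset.sum_apply, mul_comm]
  rw [h, ← adL_apply, map_sum]
  exact Finset.sum_congr rfl fun j _ => by rw [map_smul, adL_apply]

/-- The Killing form. -/
theorem kill_apply (v w : Fin G.d → R) :
    (G.ad v * G.ad w).trace = v ⬝ᵥ ((G.kill.map (Int.castRingHom R)) *ᵥ w) := by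
  have h : ∀ i j, ((G.adM i).map (Int.castRingHom R) * (G.adM j).map (Int.castRingHom R)).trace =
      (G.kill.map (Int.castRingHom R)) i j := fun i j => by
    rw [← Matrix.map_mul, trace_map', Matrix.map_apply]
    rfl
  rw [ad, Finset.sum_mul, Matrix.trace_sum, dotProduct]
  refine Finset.sum_congr rfl fun i _ => ?_
  rw [ad, Finset.mul_sum, Matrix.trace_sum, Matrix.mulVec, dotProduct, Finset.mul_sum]
  refine Finset.sum_congr rfl fun j _ => ?_
  rw [Matrix.smul_mul, Matrix.mul_smul, Matrix.trace_smul, Matrix.trace_smul, h, smul_eq_mul,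
    smul_eq_mul]
  ring

end TG

end Vale.Agent.P286.R2.H505
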