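import Vale.Agent.P286.R2.H505.Mu
import Vale.Agent.P286.H527.BrFin

/-!
# The equivalences at irrational level on the projective line, for all groups
-/

namespace Vale.Agent.P286.R2.H505

open CategoryTheory LaurentPolynomial

noncomputable section

/-- The restriction to the trivial bundle is a quasi-equivalence. -/
theorem isQuasiEquiv_J {Γ : TG} (Z : Cen Γ) (hK : Γ.kill.det ≠ 0) {s : ℂ}
    (hs : ∀ m : ℤ, m ≠ 0 → ∀ k : ℤ, (k : ℂ) + s * m ≠ 0) : IsQuasiEquiv (Jfun Γ Z s) :=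
  quasiEquiv_of_inverse (Jfun Γ Z s) (Bfun Γ Z s) (presCart_J Γ Z s) (presCart_B Γ Z s)
    (Or.inl ⟨eps1 hK s, fun K hK' => eps1_qis hK hs K hK'⟩)
    (Or.inl ⟨eps2 Γ Z s, fun K _ => eps2_qis Γ Z s K⟩)

/-- Irrational twists are not resonant. -/
theorem not_resonant {h : ℕ} (hh : 0 < h) {c : ℂ} (hc : ∀ q : ℚ, c ≠ (q : ℂ)) (m : ℤ)
    (hm : m ≠ 0) (k : ℤ) : (k : ℂ) + ((h : ℂ) - c) / (2 * h) * m ≠ 0 :=
  P286.not_resonant hh hc m hm k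

/-- If `c` is irrational, then so is `-1/(rc)`. -/
theorem irrational_inv {r : ℕ} (hr : 0 < r) {c : ℂ} (hc : ∀ q : ℚ, c ≠ (q : ℂ)) (q : ℚ) :
    -1 / ((r : ℂ) * c) ≠ (q : ℂ) := by
  apply P286.irrational_inv
  intro q' h
  have hr' : (r : ℂ) ≠ 0 := by exact_mod_cast hr.ne'
  apply hc (q' / r)
  push_cast
  rw [← h]
  field_simp

theorem cen_BG (Γ : TG) (X : BGObj Γ) : (BG Γ (tCen Γ)).cen X = {𝟙 X} := by
  ext φ
  constructor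
  · rintro ⟨h1, c, hc, h2⟩
    have h3 : c = 1 := hc
    subst h3
    apply BGHom.ext
    · exact h1
    · exact h2.trans cel_one
  · rintro rfl
    exact ⟨rfl, 1, rfl, cel_one.symm⟩

theorem toT_BG (Γ : TG) : (BG Γ (tCen Γ)).toT 0 = BT Γ := by
  have h : (BG Γ (tCen Γ)).cen = fun X => {𝟙 X} := funext fun X => cen_BG Γ X
  unfold Site.toT BT
  rw [h]
  rfl

theorem dg_BG {Γ : TG} (Z : Cen Γ) (hK : Γ.kill.det ≠ 0) {s : ℂ}
    (hs : ∀ m : ℤ, m ≠ 0 → ∀ k : ℤ, (k : ℂ) + s * m ≠ 0) :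
    DGEquivalent (Bun Γ Z, s) (BG Γ (tCen Γ), 0) :=
  Relation.EqvGen.trans _ (BG Γ Z, 0) _
    (Relation.EqvGen.rel _ _ ⟨Jfun Γ Z s, inferInstance, inferInstance,
      isQuasiEquiv_J Z hK hs⟩)
    (Relation.EqvGen.rel _ _ (dgStep_BG Z 0))

/-- `D(ω^s) ≃ D(BG)` on `Bun_{G/μ}(ℙ¹)` for irrational `s`. -/
theorem main {Γ : TG} (Z : Cen Γ) (hK : Γ.kill.det ≠ 0) {s : ℂ}
    (hs : ∀ m : ℤ, m ≠ 0 → ∀ k : ℤ, (k : ℂ) + s * m ≠ 0) :
    St.DGEquivalent (BunT Γ Z s) (BT Γ) := by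
  have h := Br.dgEquivalent (dg_BG Z hK hs)
  change St.DGEquivalent ((Bun Γ Z).toT s) ((BG Γ (tCen Γ)).toT 0) at h
  rw [toT_Bun, toT_BG] at h
  exact h

theorem nonzero_Bun {Γ : TG} (Z : Cen Γ) (s : ℂ) :
    ∃ K : St.Cx (BunT Γ Z s), St.Cx.Cart K ∧ ¬ K.Acyclic :=
  Br.nonzero (cartesian_strBun Γ Z s) (not_tAcyclic_strBun Γ Z s)

end

end Vale.Agent.P286.R2.H505
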