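import Vale.Agent.P286.R2.H505.Sane
import Vale.Agent.P286.H211.Mu

/-!
# `D`-modules on `B(G/μ)` and on `BG`
-/

namespace Vale.Agent.P286.R2.H505

open CategoryTheory LaurentPolynomial

/-- The trivial central subgroup. -/
def tCen (Γ : TG) : Cen Γ where
  μ := {1}
  m := 1
  one := rfl
  mul c hc c' hc' := by
    have h : c = 1 := hc
    have h' : c' = 1 := hc'
    subst h h'
    exact one_mul (1 : Γ.Gr ℂ)
  inv c hc := by
    have h : c = 1 := hc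
    subst h
    exact inv_one (G := Γ.Gr ℂ)
  tors c hc := by
    have h : c = 1 := hc
    rw [h, mt_one, one_pow]
  central R _ _ x c hc := by
    have h : c = 1 := hc
    subst h
    change gm Γ (algebraMap ℂ R) 1 * x = x * gm Γ (algebraMap ℂ R) 1
    rw [map_one, one_mul, mul_one]
  curve c hc := by
    have h : c = 1 := hc
    subst h
    exact ⟨1, 1, map_one (gm Γ (evL 1)), map_one (gm Γ (evL 1))⟩

section GmBG

/-- `BG`, as a definition which is not unfolded automatically. -/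
def BGd (Γ : TG) (Z : Cen Γ) : Site := BG Γ Z

/-- A test object of `BG`. -/
def BG.pt (Γ : TG) (Z : Cen Γ) (A : SmAlg) : (BGd Γ Z).C := (⟨A⟩ : BGObj Γ)

/-- A morphism of test objects of `BG`. -/
def BG.mor (Γ : TG) (Z : Cen Γ) {A B : SmAlg} (f : A.R →ₐ[ℂ] B.R) (h : Γ.Gr B.R) :
    BG.pt Γ Z A ⟶ BG.pt Γ Z B := (⟨f, h⟩ : BGHom (⟨A⟩ : BGObj Γ) (⟨B⟩ : BGObj Γ))

/-- A one-parameter curve in `G`, over a smooth algebra. -/
noncomputable def crv {Γ : TG} (l : Γ.Gr ℂ[T;T⁻¹]) (A : SmAlg) : Γ.Gr A.R[T;T⁻¹] :=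
  gm Γ (lmap (algebraMap ℂ A.R)) l

/-- The family of automorphisms defined by a one-parameter curve. -/
noncomputable def bgGm {Γ : TG} (Z : Cen Γ) (l : Γ.Gr ℂ[T;T⁻¹]) (A : SmAlg) :
    GmData (BGd Γ Z) (BG.pt Γ Z A) (BG.pt Γ Z A.lau) where
  ι := BG.mor Γ Z A.lauC 1
  e k := (T k : A.R[T;T⁻¹])
  E := A.lauE
  hE k := rfl
  e_zero := T_zero
  v := euler A.R
  v_res a := euler_C A.R a
  v_e k := euler_T A.R k
  v_dl := Derivation.map_one_eq_zero (euler A.R)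
  σ := BG.mor Γ Z (AlgHom.id ℂ A.lau.R) (crv l A)
  res_σ := rfl
  c := 0
  v_dlσ := by
    rw [map_zero, zero_mul]
    exact Derivation.map_one_eq_zero (euler A.R)

/-- A constant element. -/
def cel {Γ : TG} (c : Γ.Gr ℂ) (A : Type) [CommRing A] [Algebra ℂ A] : Γ.Gr A :=
  gm Γ (algebraMap ℂ A) c

theorem cel_comm {Γ : TG} {Z : Cen Γ} {c : Γ.Gr ℂ} (hc : c ∈ Z.μ) {A : Type} [CommRing A]
    [Algebra ℂ A] (g : Γ.Gr A) : cel c A * g = g * cel c A := Z.central A g c hc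

theorem cel_mul {Γ : TG} (c c' : Γ.Gr ℂ) {A : Type} [CommRing A] [Algebra ℂ A] :
    cel c A * cel c' A = cel (c * c') A := (map_mul (gm Γ (algebraMap ℂ A)) c c').symm

theorem cel_one {Γ : TG} {A : Type} [CommRing A] [Algebra ℂ A] : cel (1 : Γ.Gr ℂ) A = 1 :=
  map_one (gm Γ (algebraMap ℂ A))

theorem cel_map {Γ : TG} {A B : Type} [CommRing A] [Algebra ℂ A] [CommRing B]
    [Algebra ℂ B] (f : A →ₐ[ℂ] B) (c : Γ.Gr ℂ) :
    gm Γ (f : A →+* B) (cel c A) = cel c B := by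
  have h : (f : A →+* B).comp (algebraMap ℂ A) = algebraMap ℂ B := RingHom.ext f.commutes
  exact congrArg (fun φ => gm Γ φ c) h

/-- The element `c` as an automorphism of a test object. -/
def BG.cent (Γ : TG) (Z : Cen Γ) (X : (BGd Γ Z).C) (c : Γ.Gr ℂ) : X ⟶ X :=
  (⟨AlgHom.id ℂ _, cel c _⟩ : BGHom (X : BGObj Γ) (X : BGObj Γ))

theorem BG.res_cent {Γ : TG} {Z : Cen Γ} (X : (BGd Γ Z).C) (c : Γ.Gr ℂ) :
    (BGd Γ Z).res (BG.cent Γ Z X c) = AlgHom.id ℂ _ := rfl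

theorem BG.cent_comm {Γ : TG} {W : Cen Γ} (Z : Cen Γ) {X Y : (BGd Γ W).C} (φ : X ⟶ Y) {c : Γ.Gr ℂ}
    (hc : c ∈ Z.μ) : BG.cent Γ W X c ≫ φ = φ ≫ BG.cent Γ W Y c := by
  refine BGHom.ext ?_ ?_
  · rfl
  · change BGHom.h φ * gm Γ _ (cel c _) = cel c _ * gm Γ _ (BGHom.h φ)
    rw [cel_map, cel_comm hc]
    rfl

theorem BG.cent_mul {Γ : TG} {Z : Cen Γ} (X : (BGd Γ Z).C) (c c' : Γ.Gr ℂ) :
    BG.cent Γ Z X c ≫ BG.cent Γ Z X c' = BG.cent Γ Z X (c' * c) := by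
  refine BGHom.ext ?_ ?_
  · rfl
  · refine (congrArg (cel c' _ * ·) (cel_map _ c)).trans ?_
    exact cel_mul c' c

theorem BG.cent_one {Γ : TG} {Z : Cen Γ} (X : (BGd Γ Z).C) :
    BG.cent Γ Z X 1 = 𝟙 X := by
  refine BGHom.ext ?_ ?_
  · rfl
  · exact cel_one

theorem comp_evL {A : Type} [CommRing A] [Algebra ℂ A] (ζ : ℂˣ) (f : A[T;T⁻¹] →+* A)
    (hf1 : ∀ a, f (C a) = a) (hf2 : ∀ k : ℤ, f (T k) = algebraMap ℂ A ((ζ ^ k : ℂˣ) : ℂ)) :
    f.comp (lmap (algebraMap ℂ A)) = (algebraMap ℂ A).comp (evL ζ) := by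
  apply RingHom.ext
  intro x
  induction x using LaurentPolynomial.induction_on' with
  | add p q hp hq => rw [map_add, map_add, hp, hq]
  | C_mul_T n a =>
    rw [RingHom.comp_apply, RingHom.comp_apply, map_mul, map_mul, map_mul, map_mul, lmap_C',
      lmap_T, hf1, hf2, evL, eval₂_C, eval₂_T]
    rfl

theorem map_ev_crv {Γ : TG} {A : SmAlg} (ζ : ℂˣ) {l : Γ.Gr ℂ[T;T⁻¹]} {c : Γ.Gr ℂ}
    (h : gmf (evL ζ) l = c) :
    gm Γ (A.lauEv ζ : A.lau.R →+* A.R) (crv l A) = cel c A.R := by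
  have e := comp_evL ζ (A.lauEv ζ : A.lau.R →+* A.R) (A.lauEv_C ζ) (A.lauEv_T ζ)
  rw [← h]
  exact congrArg (fun φ => gm Γ φ l) e

theorem BG.ι_σ_ev {Γ : TG} {Z : Cen Γ} (A : SmAlg) (ζ : ℂˣ) {l : Γ.Gr ℂ[T;T⁻¹]} {c : Γ.Gr ℂ}
    (h : gmf (evL ζ) l = c) :
    (bgGm Z l A).ι ≫ (bgGm Z l A).σ ≫ BG.mor Γ Z (A.lauEv ζ) 1 =
      BG.cent Γ Z (BG.pt Γ Z A) c := by
  refine BGHom.ext ?_ ?_
  · apply AlgHom.ext
    intro a
    exact A.lauEv_C ζ a
  · refine Eq.trans ?_ (map_ev_crv ζ h)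
    refine (congrArg (((1 : Γ.Gr A.R) *
      gm Γ ((A.lauEv ζ : A.lau.R →+* A.R) : A.R[T;T⁻¹] →+* A.R)
      (crv l A)) * ·) (map_one (gm Γ
      (((A.lauEv ζ).comp (AlgHom.id ℂ A.lau.R) : A.lau.R →ₐ[ℂ] A.R) : A.lau.R →+* A.R)))).trans ?_
    rw [mul_one, one_mul]
    rfl

theorem BG.ι_ev {Γ : TG} {Z : Cen Γ} (l : Γ.Gr ℂ[T;T⁻¹]) (A : SmAlg) (ζ : ℂˣ) :
    (bgGm Z l A).ι ≫ BG.mor Γ Z (A.lauEv ζ) 1 = 𝟙 (BG.pt Γ Z A) := by
  refine BGHom.ext ?_ ?_
  · apply AlgHom.ext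
    intro a
    exact A.lauEv_C ζ a
  · exact (one_mul _).trans (map_one (gm Γ (A.lauEv ζ : A.lau.R →+* A.R)))

/-- The central elements act trivially on the cohomology of a cartesian complex. -/
theorem BG.cent_bd {Γ : TG} {W : Cen Γ} (Z : Cen Γ) {s : ℂ} {K : TCx (BGd Γ W) s} (hK : Cartesian K)
    (X : (BGd Γ W).C) {c : Γ.Gr ℂ} (hc : c ∈ Z.μ) (j : ℤ) (z : K.obj j X) (hz : K.Cyc X j z) :
    K.Bd X j (K.map (BG.cent Γ W X c) j z - z) := by
  obtain ⟨A, rfl⟩ : ∃ A, X = BG.pt Γ W A := ⟨BGObj.A X, rfl⟩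
  obtain ⟨l, ζ, hl1, hlc⟩ := Z.curve c hc
  obtain ⟨z', hz', h'⟩ := (bgGm W l A).const hK rfl j z hz
  have h1 := h'.map (BG.mor Γ W (A.lauEv ζ) 1)
  have h2 := h'.map (BG.mor Γ W (A.lauEv 1) 1)
  rw [map_sub, ← K.map_comp, ← K.map_comp, ← K.map_comp, BG.ι_ev] at h1 h2
  rw [BG.ι_σ_ev A ζ hlc] at h1
  rw [BG.ι_σ_ev A 1 hl1] at h2
  have h3 := h1.sub h2
  have e : BG.cent Γ W (BG.pt Γ W A) (gone Γ ℂ) = 𝟙 _ := BG.cent_one _
  rw [e, K.map_id, K.map_id] at h3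
  simpa using h3

end GmBG

/-! ### The functor which forgets that `μ` acts trivially -/

section Incl

variable {Γ : TG} {Z : Cen Γ} {s : ℂ}

theorem BG.mem_cen (X : (BGd Γ Z).C) (φ : X ⟶ X) (h : φ ∈ (BGd Γ Z).cen X) :
    ∃ c ∈ Z.μ, φ = BG.cent Γ Z X c := by
  obtain ⟨h1, c, hc, h2⟩ := h
  exact ⟨c, hc, BGHom.ext h1 h2⟩

theorem BG.cent_mem_cen (X : (BGd Γ Z).C) {c : Γ.Gr ℂ} (hc : c ∈ Z.μ) :
    BG.cent Γ Z X c ∈ (BGd Γ Z).cen X := ⟨rfl, c, hc, rfl⟩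

/-- The forgetful functor on objects. -/
def inclObj (Γ : TG) (Z : Cen Γ) (s : ℂ) (M : TDMod (BGd Γ Z) s) : TDMod (BGd Γ (tCen Γ)) s where
  M := M.M
  grp := M.grp
  mod := M.mod
  act := M.act
  act_add := M.act_add
  add_act := M.add_act
  smul_act := M.smul_act
  leibniz := M.leibniz
  lie_act := M.lie_act
  map := M.map
  map_smul := M.map_smul
  map_id := M.map_id
  map_comp := M.map_comp
  map_act := M.map_act
  map_cen X φ h m := by
    obtain ⟨c, h1, rfl⟩ := BG.mem_cen X φ h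
    have h2 : c = 1 := h1
    subst h2
    exact (congrArg (fun ψ => M.map (X := X) (Y := X) ψ m) (BG.cent_one (Z := tCen Γ) X)).trans
      (M.map_id X m)

/-- The forgetful functor. -/
def incl (Γ : TG) (Z : Cen Γ) (s : ℂ) : TDMod (BGd Γ Z) s ⥤ TDMod (BGd Γ (tCen Γ)) s where
  obj M := inclObj Γ Z s M
  map {M N} f :=
    { app := TDMod.Hom.app (M := M) (N := N) f
      act := TDMod.Hom.act (M := M) (N := N) f
      nat := TDMod.Hom.nat (M := M) (N := N) f }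

instance : (incl Γ Z s).Additive where
  map_add := rfl

instance : (incl Γ Z s).Linear ℂ where
  map_smul _ _ := rfl

theorem presCart_incl (Γ : TG) (Z : Cen Γ) (s : ℂ) : PresCart (incl Γ Z s) where
  cart _ hK := hK
  qis _ _ _ _ _ hu := hu

end Incl

/-! ### Invariants -/

section Inv

variable {Γ : TG} {s : ℂ}

/-- The invariants under `μ`. -/
def invSub (Γ : TG) (Z : Cen Γ) {s : ℂ} (M : TDMod (BGd Γ (tCen Γ)) s) (X : (BGd Γ (tCen Γ)).C) :
    Submodule ((BGd Γ (tCen Γ)).R X) (M.M X) where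
  carrier := {m | ∀ c ∈ Z.μ, M.map (BG.cent Γ (tCen Γ) X c) m = m}
  add_mem' {a b} ha hb c hc := by rw [map_add, ha c hc, hb c hc]
  zero_mem' c hc := map_zero _
  smul_mem' a m hm c hc := by
    rw [M.map_smul, hm c hc]
    rfl

theorem act_cent (M : TDMod (BGd Γ (tCen Γ)) s) (X : (BGd Γ (tCen Γ)).C) (c : Γ.Gr ℂ)
    (v : (BGd Γ (tCen Γ)).Der X) (m : M.M X) :
    M.act X v (M.map (BG.cent Γ (tCen Γ) X c) m) =
      M.map (BG.cent Γ (tCen Γ) X c) (M.act X v m) := by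
  have h1 := M.map_act (BG.cent Γ (tCen Γ) X c) v 1 ![1] ![v]
    (by intro a; simp [BG.res_cent]) m
  have h2 : v ((BGd Γ (tCen Γ)).dl (BG.cent Γ (tCen Γ) X c) : (BGd Γ (tCen Γ)).R X) = 0 :=
    Derivation.map_one_eq_zero v
  rw [h2, mul_zero, zero_smul, sub_zero] at h1
  simpa using h1

theorem map_mem_invSub {Z : Cen Γ} (M : TDMod (BGd Γ (tCen Γ)) s) {X Y : (BGd Γ (tCen Γ)).C}
    (φ : X ⟶ Y) {m : M.M X} (hm : m ∈ invSub Γ Z M X) : M.map φ m ∈ invSub Γ Z M Y := by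
  intro c hc
  rw [← M.map_comp, ← BG.cent_comm Z φ hc, M.map_comp, hm c hc]

theorem act_mem_invSub {Z : Cen Γ} (M : TDMod (BGd Γ (tCen Γ)) s) {X : (BGd Γ (tCen Γ)).C}
    (v : (BGd Γ (tCen Γ)).Der X)
    {m : M.M X} (hm : m ∈ invSub Γ Z M X) : M.act X v m ∈ invSub Γ Z M X := by
  intro c hc
  rw [← act_cent, hm c hc]

/-- The `μ`-invariants of a `D`-module on `BG`. -/
def invObj₁ (Γ : TG) (Z : Cen Γ) (s : ℂ) (M : TDMod (BGd Γ (tCen Γ)) s) :
    TDMod (BGd Γ (tCen Γ)) s where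
  M X := invSub Γ Z M X
  act X v m := ⟨M.act X v m.1, act_mem_invSub M v m.2⟩
  act_add X v m m' := Subtype.ext (M.act_add X v m m')
  add_act X v w m := Subtype.ext (M.add_act X v w m)
  smul_act X a v m := Subtype.ext (M.smul_act X a v m)
  leibniz X v a m := Subtype.ext (M.leibniz X v a m)
  lie_act X v w m := Subtype.ext (M.lie_act X v w m)
  map {X Y} φ :=
    { toFun := fun m => ⟨M.map φ m.1, map_mem_invSub M φ m.2⟩
      map_zero' := Subtype.ext (map_zero _)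
      map_add' := fun m m' => Subtype.ext (map_add _ _ _) }
  map_smul φ a m := Subtype.ext (M.map_smul φ a m)
  map_id X m := Subtype.ext (M.map_id X m)
  map_comp φ ψ m := Subtype.ext (M.map_comp φ ψ m)
  map_act {X Y} φ w k c v hv m := by
    apply Subtype.ext
    refine (M.map_act φ w k c v hv m).trans ?_
    rw [AddSubgroupClass.coe_sub]
    congr 1
    rw [AddSubmonoidClass.coe_finsetSum]
    rfl
  map_cen X φ h m := Subtype.ext (M.map_cen X φ h m)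

theorem invObj₁_cen (Γ : TG) (Z : Cen Γ) (s : ℂ) (M : TDMod (BGd Γ (tCen Γ)) s) (X : (BGd Γ Z).C)
    (φ : X ⟶ X) (h : φ ∈ (BGd Γ Z).cen X) (m : (invObj₁ Γ Z s M).M X) :
    (invObj₁ Γ Z s M).map (X := X) (Y := X) φ m = m := by
  obtain ⟨c, h1, rfl⟩ := BG.mem_cen X φ h
  exact Subtype.ext (m.2 c h1)

/-- A `D`-module on `BG` on which `μ` acts trivially. -/
def relabel (Γ : TG) (Z : Cen Γ) (s : ℂ) (M : TDMod (BGd Γ (tCen Γ)) s)
    (H : ∀ (X : (BGd Γ Z).C) (φ : X ⟶ X), φ ∈ (BGd Γ Z).cen X → ∀ (m : M.M X),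
      M.map (X := X) (Y := X) φ m = m) : TDMod (BGd Γ Z) s where
  M := M.M
  grp := M.grp
  mod := M.mod
  act := M.act
  act_add := M.act_add
  add_act := M.add_act
  smul_act := M.smul_act
  leibniz := M.leibniz
  lie_act := M.lie_act
  map := M.map
  map_smul := M.map_smul
  map_id := M.map_id
  map_comp := M.map_comp
  map_act := M.map_act
  map_cen := H

/-- The invariants: morphisms. -/
def invMap₁ (Γ : TG) (Z : Cen Γ) (s : ℂ) {M N : TDMod (BGd Γ (tCen Γ)) s} (f : M ⟶ N) :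
    invObj₁ Γ Z s M ⟶ invObj₁ Γ Z s N :=
  { app := fun X => LinearMap.restrict (TDMod.Hom.app f X)
      (p := invSub Γ Z M X) (q := invSub Γ Z N X) (fun m hm c hc => by
        rw [← TDMod.Hom.nat, hm c hc])
    act := fun X v m => Subtype.ext (TDMod.Hom.act (M := M) (N := N) f X v m.1)
    nat := fun {X Y} φ m => Subtype.ext (TDMod.Hom.nat (M := M) (N := N) f φ m.1) }

/-- The functor of `μ`-invariants. -/
def inv₁ (Γ : TG) (Z : Cen Γ) (s : ℂ) :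
    TDMod (BGd Γ (tCen Γ)) s ⥤ TDMod (BGd Γ (tCen Γ)) s where
  obj M := invObj₁ Γ Z s M
  map {M N} f := invMap₁ Γ Z s f

instance (Γ : TG) (Z : Cen Γ) : (inv₁ Γ Z s).Additive where
  map_add := rfl

/-- The functor of `μ`-invariants. -/
def inv (Γ : TG) (Z : Cen Γ) (s : ℂ) : TDMod (BGd Γ (tCen Γ)) s ⥤ TDMod (BGd Γ Z) s where
  obj M := relabel Γ Z s (invObj₁ Γ Z s M) (invObj₁_cen Γ Z s M)
  map {M N} f :=
    { app := TDMod.Hom.app (M := invObj₁ Γ Z s M) (N := invObj₁ Γ Z s N) (invMap₁ Γ Z s f)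
      act := TDMod.Hom.act (M := invObj₁ Γ Z s M) (N := invObj₁ Γ Z s N) (invMap₁ Γ Z s f)
      nat := TDMod.Hom.nat (M := invObj₁ Γ Z s M) (N := invObj₁ Γ Z s N) (invMap₁ Γ Z s f) }

instance (Γ : TG) (Z : Cen Γ) : (inv Γ Z s).Additive where
  map_add := rfl

end Inv

/-! ### Averaging -/

section Avg

variable {Γ : TG} (Z : Cen Γ) {s : ℂ}

/-- The action of a central element. -/
def rootAct (M : TDMod (BGd Γ (tCen Γ)) s) (X : (BGd Γ (tCen Γ)).C) (c : Z.sub) :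
    M.M X →ₗ[(BGd Γ (tCen Γ)).R X] M.M X where
  toFun := M.map (BG.cent Γ (tCen Γ) X c.1)
  map_add' := map_add _
  map_smul' a m := M.map_smul _ a m

theorem rootAct_apply (M : TDMod (BGd Γ (tCen Γ)) s) (X : (BGd Γ (tCen Γ)).C) (c : Z.sub)
    (m : M.M X) :
    rootAct Z M X c m = M.map (BG.cent Γ (tCen Γ) X c.1) m := rfl

theorem rootAct_mul (M : TDMod (BGd Γ (tCen Γ)) s) (X : (BGd Γ (tCen Γ)).C) (c c' : Z.sub)
    (m : M.M X) : rootAct Z M X c (rootAct Z M X c' m) = rootAct Z M X (c * c') m := by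
  rw [rootAct_apply, rootAct_apply, ← M.map_comp, BG.cent_mul]
  rfl

noncomputable instance : Fintype Z.sub := Fintype.ofFinite Z.sub

/-- The average over `μ`. -/
noncomputable def avg (M : TDMod (BGd Γ (tCen Γ)) s) (X : (BGd Γ (tCen Γ)).C) :
    M.M X →ₗ[(BGd Γ (tCen Γ)).R X] M.M X :=
  algebraMap ℂ ((BGd Γ (tCen Γ)).R X) ((Fintype.card Z.sub : ℂ))⁻¹ •
    ∑ c : Z.sub, rootAct Z M X c

theorem avg_apply (M : TDMod (BGd Γ (tCen Γ)) s) (X : (BGd Γ (tCen Γ)).C) (m : M.M X) :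
    avg Z M X m = algebraMap ℂ ((BGd Γ (tCen Γ)).R X) ((Fintype.card Z.sub : ℂ))⁻¹ •
    ∑ c : Z.sub, rootAct Z M X c m := by
  rw [avg, LinearMap.smul_apply, LinearMap.sum_apply]

theorem avg_sum (M : TDMod (BGd Γ (tCen Γ)) s) (X : (BGd Γ (tCen Γ)).C) (m : M.M X) :
    algebraMap ℂ ((BGd Γ (tCen Γ)).R X) ((Fintype.card Z.sub : ℂ))⁻¹ •
      ∑ _c : Z.sub, m = m := by
  rw [Finset.sum_const, Finset.card_univ, ← Nat.cast_smul_eq_nsmul ((BGd Γ (tCen Γ)).R X), smul_smul,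
    ← map_natCast (algebraMap ℂ ((BGd Γ (tCen Γ)).R X)), ← map_mul, inv_mul_cancel₀, map_one, one_smul]
  exact_mod_cast Fintype.card_ne_zero

theorem avg_mem (M : TDMod (BGd Γ (tCen Γ)) s) (X : (BGd Γ (tCen Γ)).C) (m : M.M X) :
    avg Z M X m ∈ invSub Γ Z M X := by
  intro c hc
  obtain ⟨c', rfl⟩ : ∃ c' : Z.sub, (c' : Γ.Gr ℂ) = c := ⟨⟨c, hc⟩, rfl⟩
  change rootAct Z M X c' (avg Z M X m) = _
  rw [avg_apply, _root_.map_smul, map_sum]
  congr 1
  simp only [rootAct_mul]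
  exact Fintype.sum_equiv (Equiv.mulLeft c') _ _ (fun ζ => rfl)

theorem avg_of_mem (M : TDMod (BGd Γ (tCen Γ)) s) (X : (BGd Γ (tCen Γ)).C) {m : M.M X}
    (hm : m ∈ invSub Γ Z M X) : avg Z M X m = m := by
  rw [avg_apply]
  refine Eq.trans ?_ (avg_sum Z M X m)
  congr 1
  refine Finset.sum_congr rfl fun c _ => ?_
  exact hm _ c.2

theorem avg_map (M : TDMod (BGd Γ (tCen Γ)) s) {X Y : (BGd Γ (tCen Γ)).C} (φ : X ⟶ Y) (m : M.M X) :
    M.map φ (avg Z M X m) = avg Z M Y (M.map φ m) := by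
  rw [avg_apply, avg_apply, M.map_smul, map_sum, AlgHom.commutes]
  congr 1
  refine Finset.sum_congr rfl fun c _ => ?_
  rw [rootAct_apply, rootAct_apply, ← M.map_comp, ← M.map_comp, BG.cent_comm Z φ c.2]

theorem avg_app {M N : TDMod (BGd Γ (tCen Γ)) s} (f : M ⟶ N) (X : (BGd Γ (tCen Γ)).C) (m : M.M X) :
    TDMod.Hom.app f X (avg Z M X m) = avg Z N X (TDMod.Hom.app f X m) := by
  rw [avg_apply, avg_apply, _root_.map_smul, map_sum]
  congr 1
  refine Finset.sum_congr rfl fun c _ => ?_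
  rw [rootAct_apply, rootAct_apply, TDMod.Hom.nat]

theorem avg_bd {K : TCx (BGd Γ (tCen Γ)) s} (hK : Cartesian K) (X : (BGd Γ (tCen Γ)).C)
    (j : ℤ) (z : K.obj j X) (hz : K.Cyc X j z) :
    K.Bd X j (avg Z (HomologicalComplex.X K j) X z - z) := by
  have h1 := (TCx.Bd.sum (K := K) (X := X) (j := j) Finset.univ
    (z := fun c : Z.sub => rootAct Z (HomologicalComplex.X K j) X c z - z)
    (fun c _ => BG.cent_bd Z hK X c.2 j z hz)).smul
      (algebraMap ℂ ((BGd Γ (tCen Γ)).R X) ((Fintype.card Z.sub : ℂ))⁻¹)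
  rw [Finset.sum_sub_distrib, smul_sub, ← avg_apply, avg_sum] at h1
  exact h1

end Avg

/-! ### The equivalence -/
section Equiv

variable {Γ : TG} {Z : Cen Γ} {s : ℂ}

/-- The complex of invariants. -/
noncomputable abbrev invCx (Γ : TG) (Z : Cen Γ) (s : ℂ) (K : TCx (BGd Γ (tCen Γ)) s) : TCx (BGd Γ (tCen Γ)) s :=
  (mapCx (inv₁ Γ Z s)).obj K

/-- The inclusion of the invariants. -/
def invVal (K : TCx (BGd Γ (tCen Γ)) s) (X : (BGd Γ (tCen Γ)).C) (j : ℤ) :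
    (invCx Γ Z s K).obj j X →ₗ[(BGd Γ (tCen Γ)).R X] K.obj j X :=
  (invSub Γ Z (HomologicalComplex.X K j) X).subtype

/-- An invariant section. -/
def invMk (K : TCx (BGd Γ (tCen Γ)) s) (X : (BGd Γ (tCen Γ)).C) (j : ℤ) (m : K.obj j X)
    (hm : m ∈ invSub Γ Z (HomologicalComplex.X K j) X) : (invCx Γ Z s K).obj j X :=
  (⟨m, hm⟩ : invSub Γ Z (HomologicalComplex.X K j) X)

theorem invVal_mk (K : TCx (BGd Γ (tCen Γ)) s) (X : (BGd Γ (tCen Γ)).C) (j : ℤ) (m : K.obj j X)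
    (hm : m ∈ invSub Γ Z (HomologicalComplex.X K j) X) :
    invVal K X j (invMk K X j m hm) = m := rfl

theorem invVal_mem (K : TCx (BGd Γ (tCen Γ)) s) (X : (BGd Γ (tCen Γ)).C) (j : ℤ)
    (m : (invCx Γ Z s K).obj j X) :
    invVal K X j m ∈ invSub Γ Z (HomologicalComplex.X K j) X :=
  Subtype.property (p := fun m => m ∈ invSub Γ Z (HomologicalComplex.X K j) X) m

theorem invVal_injective (K : TCx (BGd Γ (tCen Γ)) s) (X : (BGd Γ (tCen Γ)).C) (j : ℤ) :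
    Function.Injective (invVal (Z := Z) K X j) :=
  Subtype.val_injective

theorem invVal_d (K : TCx (BGd Γ (tCen Γ)) s) (X : (BGd Γ (tCen Γ)).C) (i j : ℤ)
    (m : (invCx Γ Z s K).obj i X) :
    invVal K X j ((invCx Γ Z s K).d X i j m) = K.d X i j (invVal K X i m) := rfl

theorem invVal_map (K : TCx (BGd Γ (tCen Γ)) s) {X Y : (BGd Γ (tCen Γ)).C} (φ : X ⟶ Y) (j : ℤ)
    (m : (invCx Γ Z s K).obj j X) :
    invVal K Y j ((invCx Γ Z s K).map φ j m) = K.map φ j (invVal K X j m) := rfl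

theorem inv_cyc (K : TCx (BGd Γ (tCen Γ)) s) (X : (BGd Γ (tCen Γ)).C) (j : ℤ)
    (m : (invCx Γ Z s K).obj j X) :
    (invCx Γ Z s K).Cyc X j m ↔ K.Cyc X j (invVal K X j m) := by
  unfold TCx.Cyc
  rw [← invVal_d]
  constructor
  · intro h
    rw [h, map_zero]
  · intro h
    apply invVal_injective K X
    rw [h, map_zero]

theorem d_avg (K : TCx (BGd Γ (tCen Γ)) s) (X : (BGd Γ (tCen Γ)).C) (i j : ℤ) (m : K.obj i X) :
    K.d X i j (avg Z (HomologicalComplex.X K i) X m) =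
      avg Z (HomologicalComplex.X K j) X (K.d X i j m) :=
  avg_app Z (HomologicalComplex.d K i j) X m

/-- The projection to the invariants. -/
noncomputable def invPr (K : TCx (BGd Γ (tCen Γ)) s) (X : (BGd Γ (tCen Γ)).C) (j : ℤ) :
    K.obj j X →ₗ[(BGd Γ (tCen Γ)).R X] (invCx Γ Z s K).obj j X :=
  LinearMap.codRestrict (invSub Γ Z (HomologicalComplex.X K j) X)
    (avg Z (HomologicalComplex.X K j) X) (avg_mem Z _ X)

theorem invVal_pr (K : TCx (BGd Γ (tCen Γ)) s) (X : (BGd Γ (tCen Γ)).C) (j : ℤ) (m : K.obj j X) :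
    invVal K X j (invPr (Z := Z) K X j m) = avg Z (HomologicalComplex.X K j) X m := rfl

theorem invPr_val (K : TCx (BGd Γ (tCen Γ)) s) (X : (BGd Γ (tCen Γ)).C) (j : ℤ)
    (m : (invCx Γ Z s K).obj j X) : invPr K X j (invVal K X j m) = m := by
  apply invVal_injective K X
  rw [invVal_pr]
  exact avg_of_mem Z _ X (invVal_mem K X j m)

theorem d_pr (K : TCx (BGd Γ (tCen Γ)) s) (X : (BGd Γ (tCen Γ)).C) (i j : ℤ) (m : K.obj i X) :
    (invCx Γ Z s K).d X i j (invPr K X i m) = invPr K X j (K.d X i j m) := by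
  apply invVal_injective K X
  rw [invVal_d, invVal_pr, invVal_pr, d_avg]

theorem map_pr (K : TCx (BGd Γ (tCen Γ)) s) {X Y : (BGd Γ (tCen Γ)).C} (φ : X ⟶ Y) (j : ℤ)
    (m : K.obj j X) :
    (invCx Γ Z s K).map φ j (invPr K X j m) = invPr K Y j (K.map φ j m) := by
  apply invVal_injective K Y
  rw [invVal_map, invVal_pr, invVal_pr]
  exact avg_map Z _ φ m

theorem inv_bd (K : TCx (BGd Γ (tCen Γ)) s) (X : (BGd Γ (tCen Γ)).C) (j : ℤ)
    (m : (invCx Γ Z s K).obj j X) :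
    (invCx Γ Z s K).Bd X j m ↔ K.Bd X j (invVal K X j m) := by
  constructor
  · rintro ⟨y, rfl⟩
    exact ⟨invVal K X _ y, rfl⟩
  · rintro ⟨y, hy⟩
    refine ⟨invPr K X _ y, ?_⟩
    rw [d_pr, hy, invPr_val]

/-- The comparison of `u : Q → K(X)` with the composite `Q → K(X) → K(X)^{μ}`. -/
theorem hIso_pr {K : TCx (BGd Γ (tCen Γ)) s} (hK : Cartesian K) (X : (BGd Γ (tCen Γ)).C)
    {Q₁ Q₂ Q₃ : Type} [AddCommGroup Q₁] [AddCommGroup Q₂] [AddCommGroup Q₃] (e₁ : Q₁ →+ Q₂)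
    (e₂ : Q₂ →+ Q₃) (j k : ℤ) (hk : j + 1 = k) (i : ℤ) (hi : i + 1 = j) (u : Q₂ →+ K.obj j X)
    (hu : ∀ w, e₂ w = 0 → K.d X j k (u w) = 0)
    (h : HIso e₁ e₂ (K.d X i j) (K.d X j k) u) (u' : Q₂ →+ (invCx Γ Z s K).obj j X)
    (hu' : ∀ w, u' w = invPr K X j (u w)) :
    HIso e₁ e₂ ((invCx Γ Z s K).d X i j) ((invCx Γ Z s K).d X j k) u' := by
  subst hk
  obtain rfl : i = j - 1 := by omega
  refine ⟨fun x hx hx' => ?_, fun y hy => ?_⟩
  · apply h.1 x hx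
    obtain ⟨y, hy⟩ := hx'
    have h1 : K.Bd X j (invVal K X j (u' x)) := by
      rw [← inv_bd]
      exact ⟨y, hy⟩
    rw [hu', invVal_pr] at h1
    have h2 := h1.sub (avg_bd Z hK X j (u x) (hu x hx))
    change K.Bd X j (u x)
    simpa using h2
  · obtain ⟨x, hx, y', hy'⟩ := h.2 (invVal K X j y) ((inv_cyc K X j y).1 hy)
    refine ⟨x, hx, invPr K X _ y', ?_⟩
    rw [d_pr, hy', map_sub, invPr_val, hu']

theorem cart_inv₁ {K : TCx (BGd Γ (tCen Γ)) s} (hK : Cartesian K) :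
    Cartesian (invCx Γ Z s K) := by
  intro X
  obtain ⟨P, hP, p, hpd, hp, hq⟩ := hK X
  refine ⟨P, hP, fun i => (invPr K X i).comp (p i), ?_, ?_, ?_⟩
  · intro i j x
    change invPr K X j (p j (P.d i j x)) = _
    rw [hpd, ← d_pr]
    rfl
  · intro i j k hi hk
    refine hIso_pr hK X _ _ j k hk i hi (p j).toAddMonoidHom ?_ (hp i j k hi hk) _
      (fun w => rfl)
    intro w hw
    change K.d X j k (p j w) = 0
    rw [← hpd]
    change p k ((P.d j k).toAddMonoidHom w) = 0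
    rw [hw, map_zero]
  · intro Y φ i j k hi hk
    refine hIso_pr hK Y _ _ j k hk i hi _ ?_ (hq Y φ i j k hi hk) _ ?_
    · intro w hw
      refine (ExtS.lift_chain φ P p hpd j k _ (fun a x => by simp [TCx.map, TDMod.map_smul])
        w).trans ?_
      rw [hw, map_zero]
    · intro w
      induction w using ExtS.induction with
      | h0 => rw [map_zero, map_zero, map_zero]
      | ht b x =>
        refine Eq.trans ?_ (_root_.map_smul (invPr K Y j) b (K.map φ j (p j x))).symm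
        exact congrArg (fun y : (invCx Γ Z s K).obj j Y => b • y) (map_pr K φ j (p j x))
      | ha x y hx hy => rw [map_add, map_add, map_add, hx, hy]

theorem inv_hom {K L : TCx (BGd Γ (tCen Γ)) s} (u : K ⟶ L) (X : (BGd Γ (tCen Γ)).C) (j : ℤ)
    (m : (invCx Γ Z s K).obj j X) :
    invVal L X j (TCx.hom ((mapCx (inv₁ Γ Z s)).map u) X j m) = TCx.hom u X j (invVal K X j m) :=
  rfl

theorem pr_hom {K L : TCx (BGd Γ (tCen Γ)) s} (u : K ⟶ L) (X : (BGd Γ (tCen Γ)).C) (j : ℤ)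
    (m : K.obj j X) :
    TCx.hom ((mapCx (inv₁ Γ Z s)).map u) X j (invPr K X j m) =
      invPr L X j (TCx.hom u X j m) := by
  apply invVal_injective L X
  rw [inv_hom, invVal_pr, invVal_pr]
  exact avg_app Z (HomologicalComplex.Hom.f u j) X m

theorem qis_inv₁ {K L : TCx (BGd Γ (tCen Γ)) s} (u : K ⟶ L) (hu : qis _ _ u) :
    qis _ _ ((mapCx (inv₁ Γ Z s)).map u) := by
  rw [qis_iff] at hu ⊢
  intro X j
  obtain ⟨h1, h2⟩ := hu X j
  refine ⟨fun z hz hz' => ?_, fun z hz => ?_⟩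
  · rw [inv_bd] at hz' ⊢
    rw [inv_cyc] at hz
    rw [inv_hom] at hz'
    exact h1 _ hz hz'
  · rw [inv_cyc] at hz
    obtain ⟨z', hz', y, hy⟩ := h2 _ hz
    refine ⟨invPr K X j z', ?_, invPr L X _ y, ?_⟩
    · change (invCx Γ Z s K).d X j (j + 1) (invPr K X j z') = 0
      rw [d_pr]
      rw [show K.d X j (j + 1) z' = 0 from hz', map_zero]
    · rw [d_pr, hy, map_sub, invPr_val, pr_hom]

theorem presCart_inv (s : ℂ) : PresCart (inv Γ Z s) where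
  cart K hK := by
    exact cart_inv₁ hK
  qis K L u _ _ hu := by
    exact qis_inv₁ u hu

/-- The inclusion of the invariants is a natural transformation. -/
def invCounit₁ (Γ : TG) (Z : Cen Γ) (s : ℂ) : inv₁ Γ Z s ⟶ 𝟭 _ where
  app M :=
    { app := fun X => (invSub Γ Z M X).subtype
      act := fun X v m => rfl
      nat := fun φ m => rfl }

/-- The inclusion of the invariants is a natural transformation. -/
def invCounit (Γ : TG) (Z : Cen Γ) (s : ℂ) : inv Γ Z s ⋙ incl Γ Z s ⟶ 𝟭 _ where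
  app M :=
    { app := TDMod.Hom.app ((invCounit₁ Γ Z s).app M)
      act := TDMod.Hom.act ((invCounit₁ Γ Z s).app M)
      nat := TDMod.Hom.nat ((invCounit₁ Γ Z s).app M) }

theorem counit_qis₁ {K : TCx (BGd Γ (tCen Γ)) s} (hK : Cartesian K)
    (X : (BGd Γ (tCen Γ)).C) (j : ℤ) :
    (∀ z : (invCx Γ Z s K).obj j X, (invCx Γ Z s K).Cyc X j z → K.Bd X j (invVal K X j z) →
      (invCx Γ Z s K).Bd X j z) ∧
    (∀ z, K.Cyc X j z → ∃ z', (invCx Γ Z s K).Cyc X j z' ∧ K.Bd X j (z - invVal K X j z')) := by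
  refine ⟨fun z _ hz' => (inv_bd K X j z).2 hz', fun z hz => ⟨invPr K X j z, ?_, ?_⟩⟩
  · change (invCx Γ Z s K).d X j (j + 1) (invPr K X j z) = 0
    rw [d_pr]
    rw [show K.d X j (j + 1) z = 0 from hz, map_zero]
  · have := (avg_bd Z hK X j z hz).neg
    rw [neg_sub] at this
    exact this

theorem counit_qis {K : TCx (BGd Γ (tCen Γ)) s} (hK : Cartesian K) :
    qis (BGd Γ (tCen Γ)) s ((counitCx (inv Γ Z s) (incl Γ Z s) (invCounit Γ Z s)).app K) := by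
  rw [qis_iff]
  exact counit_qis₁ (Z := Z) hK

/-- The modules on which `μ` acts trivially. -/
def inclUnit (Γ : TG) (Z : Cen Γ) (s : ℂ) : 𝟭 _ ⟶ incl Γ Z s ⋙ inv Γ Z s where
  app M :=
    { app := fun X =>
        { toFun := fun m => (⟨m, fun c hc => M.map_cen X (BG.cent Γ Z X c)
            (BG.cent_mem_cen X hc) m⟩ : invSub Γ Z (inclObj Γ Z s M) X)
          map_add' := fun m m' => rfl
          map_smul' := fun a m => rfl }
      act := fun X v m => rfl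
      nat := fun φ m => rfl }

theorem unit_qis (K : TCx (BGd Γ Z) s) :
    qis (BGd Γ Z) s ((unitCx (incl Γ Z s) (inv Γ Z s) (inclUnit Γ Z s)).app K) := by
  rw [qis_iff]
  intro X j
  refine ⟨fun z _ hz' => ?_, fun z hz => ?_⟩
  · obtain ⟨y, hy⟩ := hz'
    exact ⟨_, congrArg Subtype.val hy⟩
  · refine ⟨Subtype.val z, congrArg Subtype.val hz, 0, ?_⟩
    rw [map_zero, eq_comm, sub_eq_zero]
    rfl

theorem isQuasiEquiv_incl (s : ℂ) : IsQuasiEquiv (incl Γ Z s) :=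
  quasiEquiv_of_inverse (incl Γ Z s) (inv Γ Z s) (presCart_incl Γ Z s) (presCart_inv s)
    (Or.inl ⟨inclUnit Γ Z s, fun K _ => unit_qis K⟩)
    (Or.inr ⟨invCounit Γ Z s, fun _ hK => counit_qis hK⟩)

end Equiv

theorem dgStep_BGd {Γ : TG} (Z : Cen Γ) (s : ℂ) :
    DGStep (BGd Γ Z, s) (BGd Γ (tCen Γ), s) :=
  ⟨incl Γ Z s, inferInstance, inferInstance, isQuasiEquiv_incl s⟩

/-- The DG categories of `D`-modules on `B(G/μ)` and on `BG` are equivalent. -/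
theorem dgStep_BG {Γ : TG} (Z : Cen Γ) (s : ℂ) :
    DGStep (BG Γ Z, s) (BG Γ (tCen Γ), s) := dgStep_BGd Z s

end Vale.Agent.P286.R2.H505
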