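import Vale.Agent.P286.R2.H505.Conn

/-!
# Bundles with a connection and trivial determinant are trivial
-/

namespace Vale.Agent.P286.R2.H505

open LaurentPolynomial Matrix

noncomputable section

variable {F : Type} [Field F] [CharZero F] {N : ℕ}

theorem VLE.zero_of_all {u : Fin N → F[T;T⁻¹]} (n : ℤ) (h : ∀ j : ℕ, VLE (n - j) u) : u = 0 := by
  funext i
  ext l
  have h1 := h (n - l + 1).toNat i l (by omega)
  rw [h1]
  rfl

theorem flat_zero {Y1 : Matrix (Fin N) (Fin N) F[T;T⁻¹]} (h1 : MLE (-2) Y1) {n : ℤ} (hn : n < 0)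
    {u : Fin N → F[T;T⁻¹]} (hu : VLE n u) (h : (fun i => ddw F (u i)) = Y1 *ᵥ u) : u = 0 := by
  apply VLE.zero_of_all n
  intro j
  induction j with
  | zero => simpa using hu
  | succ j ih =>
    intro i k hk
    rcases lt_or_eq_of_le (show n - j ≤ k by push_cast at hk; omega) with h2 | h2
    · exact ih i k h2
    · have h3 := congrArg (fun x : F[T;T⁻¹] => x.coeff (k - 1)) (congrFun h i)
      simp only [ddw_coeff] at h3
      have h4 := VLE.mulVec h1 ih i (k - 1) (by omega)
      rw [h4, sub_add_cancel] at h3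
      have h5 : ((k : ℤ) : F) ≠ 0 := by
        have : k ≠ 0 := by omega
        exact_mod_cast this
      exact (mul_eq_zero.1 h3).resolve_left h5

theorem no_section {g gi Y0 Y1 : Matrix (Fin N) (Fin N) F[T;T⁻¹]} (hgi : gi * g = 1)
    (h0 : MGE 0 Y0) (h1 : MLE (-2) Y1) (h : g.map (ddw F) + g * Y1 = Y0 * g)
    {u : Fin N → F[T;T⁻¹]} (hu : VLE (-1) u) (hg : VGE 0 (g *ᵥ u)) : u = 0 := by
  obtain ⟨L, hL⟩ := exists_MGE gi
  have hbig : ∀ u : Fin N → F[T;T⁻¹], VLE (-1 - L) u → VGE 0 (g *ᵥ u) → u = 0 := by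
    intro u hu hg
    have h2 : u = gi *ᵥ (g *ᵥ u) := by rw [Matrix.mulVec_mulVec, hgi, Matrix.one_mulVec]
    have h3 : VGE (-L) u := by
      rw [h2]
      have := VGE.mulVec hL hg
      simpa using this
    funext i
    exact eq_zero_of_LE_GE (hu i) (h3 i) (by omega)
  have key : ∀ j : ℕ, ∀ n : ℕ, n + j = L → ∀ u : Fin N → F[T;T⁻¹], VLE (-1 - n) u →
      VGE 0 (g *ᵥ u) → u = 0 := by
    intro j
    induction j with
    | zero =>
      intro n hn u hu hg
      rw [add_zero] at hn
      subst hn
      exact hbig u hu hg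
    | succ j ih =>
      intro n hn u hu hg
      have h2 : (fun i => ddw F (u i)) - Y1 *ᵥ u = 0 := by
        apply ih (n + 1) (by omega)
        · intro i
          have h3 := ddw_LE (hu i)
          have h4 := VLE.mulVec h1 hu i
          refine LE.sub (h3.mono ?_) (h4.mono ?_)
          · push_cast; omega
          · push_cast; omega
        · have h3 : g *ᵥ ((fun i => ddw F (u i)) - Y1 *ᵥ u) =
              (fun i => ddw F ((g *ᵥ u) i)) - Y0 *ᵥ (g *ᵥ u) := by
            rw [Matrix.mulVec_sub, dvec, Matrix.mulVec_mulVec, Matrix.mulVec_mulVec, ← h,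
              Matrix.add_mulVec]
            abel
          rw [h3]
          intro i
          have h4 := ddw_GE (hg i)
          have h5 := VGE.mulVec h0 hg i
          refine GE.sub h4 ?_
          simpa using h5
      exact flat_zero h1 (by omega) hu (sub_eq_zero.1 h2)
  exact key L 0 (by omega) u (by simpa using hu) hg

/-- A bundle with a connection and trivial determinant is trivial. -/
theorem trivial_of_conn {g gi Y0 Y1 : Matrix (Fin N) (Fin N) F[T;T⁻¹]} (hgi : g * gi = 1)
    (hd : g.det = 1)
    (h0 : MGE 0 Y0) (h1 : MLE (-2) Y1) (h : g.map (ddw F) + g * Y1 = Y0 * g) :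
    ∃ a b : Matrix (Fin N) (Fin N) F[T;T⁻¹], MGE 0 a ∧ a.det = 1 ∧ MLE 0 b ∧ b.det = 1 ∧
      a * g = b := by
  have hgi' : gi * g = 1 := mul_eq_one_comm.1 hgi
  obtain ⟨a, b, l, ha, ha1, hb, hb1, hab, hl⟩ := birkhoff g gi hgi (k := 0) (by rw [hd, T_zero])
  have hle : ∀ i, l i ≤ 0 := by
    intro i
    by_contra hcon
    rw [not_le] at hcon
    let u : Fin N → F[T;T⁻¹] := fun k => b.adjugate k i * T (-1)
    have hu : VLE (-1) u := fun k => by
      have := (hb.adjugate k i).mul (LE.T (R := F) (-1))
      simpa using this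
    have e1 : g * b.adjugate = a.adjugate * mono l := by
      calc g * b.adjugate = (a.adjugate * a) * g * b.adjugate := by
            rw [adjugate_mul_self ha1, Matrix.one_mul]
        _ = a.adjugate * (mono l * b) * b.adjugate := by rw [Matrix.mul_assoc a.adjugate, hab]
        _ = a.adjugate * mono l * (b * b.adjugate) := by simp only [Matrix.mul_assoc]
        _ = a.adjugate * mono l := by rw [self_mul_adjugate hb1, Matrix.mul_one]
    have hgu : g *ᵥ u = fun k => a.adjugate k i * T (l i) * T (-1) := by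
      funext k
      have h2 := congrFun (congrFun e1 k) i
      rw [mono, Matrix.mul_diagonal, Matrix.mul_apply] at h2
      rw [← h2]
      change ∑ j, g k j * u j = _
      rw [Finset.sum_mul]
      refine Finset.sum_congr rfl fun j _ => ?_
      simp only [u, mul_assoc]
    have h3 := no_section hgi' h0 h1 h hu (by
      rw [hgu]
      intro k
      refine (((ha.adjugate k i).mul (GE.T (R := F) (l i))).mul (GE.T (-1))).mono ?_
      omega)
    have h4 : ∀ k, b.adjugate k i = 0 := by
      intro k
      have h5 := congrFun h3 k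
      have h6 : b.adjugate k i = u k * T 1 := by
        simp only [u]
        rw [mul_assoc, ← T_add, neg_add_cancel, T_zero, mul_one]
      rw [h6, h5, Pi.zero_apply, zero_mul]
    have h5 : (b * b.adjugate) i i = 0 := by
      rw [Matrix.mul_apply]
      exact Finset.sum_eq_zero fun k _ => by rw [h4, mul_zero]
    rw [self_mul_adjugate hb1, Matrix.one_apply_eq] at h5
    exact one_ne_zero h5
  have hl0 : l = 0 := by
    funext i
    exact (Finset.sum_eq_zero_iff_of_nonpos (s := Finset.univ) (f := l) (fun i _ => hle i)).1 hl i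
      (Finset.mem_univ i)
  refine ⟨a, b, ha, ha1, hb, hb1, ?_⟩
  rw [hab, hl0, mono_zero, Matrix.one_mul]

theorem surj_of_trivial {g a b : Matrix (Fin N) (Fin N) F[T;T⁻¹]} (ha : MGE 0 a)
    (ha1 : a.det = 1) (hb : MLE 0 b) (hb1 : b.det = 1) (hab : a * g = b) (y : Ix N →₀ F) :
    ∃ x, ltoep g x = y := by
  have ha' := adjugate_mul_self ha1
  have hb'' := self_mul_adjugate hb1
  obtain ⟨Y, hY⟩ : ∃ Y, Y = toMat N F y := ⟨_, rfl⟩
  refine ⟨npart N F (b.adjugate * toMat N F (npart N F (a * Y))), ?_⟩
  have h6 : MLE 0 (b.adjugate * toMat N F (npart N F (a * Y))) := by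
    have := hb.adjugate.mul (toMat_MLE (npart N F (a * Y)))
    simpa using this
  rw [ltoep_apply, toMat_npart h6]
  have e1 : g = a.adjugate * b := by
    rw [← hab, ← Matrix.mul_assoc, ha', Matrix.one_mul]
  have e2 : g * (b.adjugate * toMat N F (npart N F (a * Y))) =
      Y - a.adjugate * (a * Y - toMat N F (npart N F (a * Y))) := by
    rw [e1, Matrix.mul_sub, ← Matrix.mul_assoc, Matrix.mul_assoc a.adjugate, hb'', Matrix.mul_one,
      ← Matrix.mul_assoc, ha', Matrix.one_mul]
    abel
  rw [e2, map_sub, hY, npart_toMat, npart_eq_zero, sub_zero]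
  have := ha.adjugate.mul (sub_toMat_npart (a * toMat N F y))
  simpa using this

end

end Vale.Agent.P286.R2.H505
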