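import Vale.Agent.P286.H527.Pull
import Vale.Agent.P286.R2.H505.Fact

/-!
# Base change of test objects; the action of a one-parameter group at a split bundle
-/

namespace Vale.Agent.P286.R2.H505

open CategoryTheory LaurentPolynomial Matrix

noncomputable section

variable {Γ : TG} {Z : Cen Γ}

theorem IsFraming.bc {A B : Type} [CommRing A] [CommRing B] [RatAlg A] [RatAlg B] (f : A →+* B)
    {g : Γ.Gr A[T;T⁻¹]} {S : (Module.End A (Jd Γ.d →₀ A))ˣ}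
    (h : IsFraming Z.m g S) : IsFraming Z.m (gm Γ (lmap f) g) (bcU Γ f S) := by
  have h2 := FinRank.bc f h
  rw [bc_sub, bc_toep] at h2
  exact h2

theorem Tw.map {A B : Type} [CommRing A] [CommRing B] [Algebra ℂ A] [Algebra ℂ B] {g : Γ.Gr A[T;T⁻¹]}
    (h : Tw Z g) (f : A →+* B) (hf : ∀ c : ℂ, f (algebraMap ℂ A c) = algebraMap ℂ B c) :
    Tw Z (gm Γ (lmap f) g) := by
  intro ζ hζ
  obtain ⟨c, hc, e⟩ := h ζ hζ
  refine ⟨c, hc, ?_⟩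
  have h1 : gm Γ (rot B ζ) (gm Γ (lmap f) g) = gm Γ (lmap f) (gm Γ (rot A ζ) g) :=
    congrArg (fun φ => gm Γ φ g) (lmap_rot f hf ζ).symm
  rw [h1, e, map_mul, gm_gm]
  congr 3
  apply RingHom.ext
  intro x
  change lmap f (LaurentPolynomial.C (algebraMap ℂ A x)) = LaurentPolynomial.C (algebraMap ℂ B x)
  rw [lmap_C', hf]

/-- Base change of a test object. -/
abbrev BunObj.pull (X : BunObj Γ Z) (B : SmAlg) (f : X.A.R →ₐ[ℂ] B.R) : BunObj Γ Z where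
  A := B
  g := gm Γ (lmap (f : X.A.R →+* B.R)) X.g
  twist := Tw.map X.twist _ f.commutes
  S := bcU Γ (f : X.A.R →+* B.R) X.S
  framing := X.framing.bc _

/-- The canonical morphism to the base change. -/
def BunObj.pullHom (X : BunObj Γ Z) (B : SmAlg) (f : X.A.R →ₐ[ℂ] B.R) : X ⟶ X.pull B f :=
  ({ f := f
     a := 1
     b := 1
     glue := by
      apply Glue.mk
      rw [map_one, map_one, one_mul, mul_one] } : BunHom X (X.pull B f))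

theorem transport_one {A B : Type} [CommRing A] [CommRing B] [RatAlg A] [RatAlg B] (f : A →+* B)
    (S : (Module.End A (Jd Γ.d →₀ A))ˣ) : transport Z.m f 1 1 S = bcU Γ f S := by
  rw [transport, map_one, map_one, inv_one, one_mul, mul_one]

theorem transport_id {B : Type} [CommRing B] [RatAlg B]
    (a b : Γ.Gr (Polynomial B)) (S : (Module.End B (Jd Γ.d →₀ B))ˣ) :
    transport Z.m (RingHom.id B) a b S = toepPos Γ Z.m B a * S * (toepNeg Γ Z.m B b)⁻¹ := by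
  rw [transport, bcU_id]

theorem BunObj.pullHom_dl (X : BunObj Γ Z) (B : SmAlg) (f : X.A.R →ₐ[ℂ] B.R) :
    (Bun Γ Z).dl (X.pullHom B f) = 1 := by
  apply Units.ext
  change fdet ((transport Z.m (f : X.A.R →+* B.R) 1 1 X.S * (bcU Γ (f : X.A.R →+* B.R) X.S)⁻¹ :
      (Module.End B.R (Jd Γ.d →₀ B.R))ˣ) : Module.End B.R (Jd Γ.d →₀ B.R)) = 1
  rw [transport_one, mul_inv_cancel, Units.val_one, fdet_one]

/-- `X × G_m` -/
abbrev BunObj.gm (X : BunObj Γ Z) : BunObj Γ Z := X.pull X.A.laurent (Calg X.A.R)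

/-- The condition that `(a, b)` is an automorphism of `X × G_m`. -/
def GmGlue (X : BunObj Γ Z) (a b : Γ.Gr (Polynomial (X.A.R)[T;T⁻¹])) : Prop :=
  gm Γ (lmap (LaurentPolynomial.C : X.A.R →+* (X.A.R)[T;T⁻¹])) X.g * neg Γ Z.m (X.A.R)[T;T⁻¹] b =
    pos Γ Z.m (X.A.R)[T;T⁻¹] a * gm Γ (lmap (LaurentPolynomial.C : X.A.R →+* (X.A.R)[T;T⁻¹])) X.g

theorem GmGlue.inv {X : BunObj Γ Z} {a b : Γ.Gr (Polynomial (X.A.R)[T;T⁻¹])} (h : GmGlue X a b) :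
    GmGlue X a⁻¹ b⁻¹ := by
  unfold GmGlue at *
  rw [map_inv, map_inv, mul_inv_eq_iff_eq_mul, mul_assoc, h, inv_mul_cancel_left]

/-- The automorphism of `X × G_m`. -/
def gmSigma (X : BunObj Γ Z) (a b : Γ.Gr (Polynomial (X.A.R)[T;T⁻¹])) (ht : GmGlue X a b) :
    X.gm ⟶ X.gm :=
  ({ f := AlgHom.id ℂ (X.A.R)[T;T⁻¹]
     a := a
     b := b
     glue := by
      refine ht.trans ?_
      congr 1
      exact (gm_lmap_id _).symm } : BunHom X.gm X.gm)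

theorem gmSigma_dl (X : BunObj Γ Z) (a b : Γ.Gr (Polynomial (X.A.R)[T;T⁻¹])) (ht : GmGlue X a b) :
    (((Bun Γ Z).dl (gmSigma X a b ht) : ((X.A.R)[T;T⁻¹])ˣ) : (X.A.R)[T;T⁻¹]) =
      fdet ((toepPos Γ Z.m (X.A.R)[T;T⁻¹] a *
        bcU Γ (LaurentPolynomial.C : X.A.R →+* (X.A.R)[T;T⁻¹]) X.S *
        (toepNeg Γ Z.m (X.A.R)[T;T⁻¹] b)⁻¹ *
        (bcU Γ (LaurentPolynomial.C : X.A.R →+* (X.A.R)[T;T⁻¹]) X.S)⁻¹ :
          (Module.End (X.A.R)[T;T⁻¹] (Jd Γ.d →₀ (X.A.R)[T;T⁻¹]))ˣ) :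
            Module.End (X.A.R)[T;T⁻¹] (Jd Γ.d →₀ (X.A.R)[T;T⁻¹])) := by
  change fdet ((transport Z.m (RingHom.id (X.A.R)[T;T⁻¹]) a b
        (bcU Γ (LaurentPolynomial.C : X.A.R →+* (X.A.R)[T;T⁻¹]) X.S) *
        (bcU Γ (LaurentPolynomial.C : X.A.R →+* (X.A.R)[T;T⁻¹]) X.S)⁻¹ :
          (Module.End (X.A.R)[T;T⁻¹] (Jd Γ.d →₀ (X.A.R)[T;T⁻¹]))ˣ) :
            Module.End (X.A.R)[T;T⁻¹] (Jd Γ.d →₀ (X.A.R)[T;T⁻¹])) = _
  rw [transport_id]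

theorem gmSigma_finRank (X : BunObj Γ Z) (a b : Γ.Gr (Polynomial (X.A.R)[T;T⁻¹]))
    (ht : GmGlue X a b) :
    FinRank (((toepPos Γ Z.m (X.A.R)[T;T⁻¹] a *
        bcU Γ (LaurentPolynomial.C : X.A.R →+* (X.A.R)[T;T⁻¹]) X.S *
        (toepNeg Γ Z.m (X.A.R)[T;T⁻¹] b)⁻¹ *
        (bcU Γ (LaurentPolynomial.C : X.A.R →+* (X.A.R)[T;T⁻¹]) X.S)⁻¹ :
          (Module.End (X.A.R)[T;T⁻¹] (Jd Γ.d →₀ (X.A.R)[T;T⁻¹]))ˣ) :
            Module.End (X.A.R)[T;T⁻¹] (Jd Γ.d →₀ (X.A.R)[T;T⁻¹])) - 1) := by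
  have h : FinRank (((transport Z.m (RingHom.id (X.A.R)[T;T⁻¹]) a b
        (bcU Γ (LaurentPolynomial.C : X.A.R →+* (X.A.R)[T;T⁻¹]) X.S) *
        (bcU Γ (LaurentPolynomial.C : X.A.R →+* (X.A.R)[T;T⁻¹]) X.S)⁻¹ :
          (Module.End (X.A.R)[T;T⁻¹] (Jd Γ.d →₀ (X.A.R)[T;T⁻¹]))ˣ) :
            Module.End (X.A.R)[T;T⁻¹] (Jd Γ.d →₀ (X.A.R)[T;T⁻¹])) - 1) :=
    BunHom.finRank (gmSigma X a b ht)
  rwa [transport_id] at h

/-- The one-parameter group of automorphisms. -/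
def gmData (X : BunObj Γ Z) (a b : Γ.Gr (Polynomial (X.A.R)[T;T⁻¹])) (ht : GmGlue X a b) (m : ℤ)
    (hm : (((Bun Γ Z).dl (gmSigma X a b ht) : ((X.A.R)[T;T⁻¹])ˣ) : (X.A.R)[T;T⁻¹]) = T m) :
    GmData (Bun Γ Z) X X.gm where
  ι := X.pullHom X.A.laurent (Calg X.A.R)
  e k := (T k : (X.A.R)[T;T⁻¹])
  E := laurentEquiv X.A.R
  hE k := laurentEquiv_single X.A.R k
  e_zero := T_zero
  v := eulerD X.A.R
  v_res a := eulerD_C X.A.R a
  v_e k := eulerD_T X.A.R k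
  v_dl := by
    rw [BunObj.pullHom_dl, Units.val_one]
    exact Derivation.map_one_eq_zero (eulerD X.A.R)
  σ := gmSigma X a b ht
  res_σ := rfl
  c := m
  v_dlσ := by
    have h := eulerD_T X.A.R m
    rw [hm, map_intCast]
    exact h

theorem gmSigma_comp (X : BunObj Γ Z) (a b a' b' : Γ.Gr (Polynomial (X.A.R)[T;T⁻¹]))
    (ht) (ht') (haa : a' * a = 1) (hbb : b' * b = 1) :
    gmSigma X a b ht ≫ gmSigma X a' b' ht' = 𝟙 X.gm := by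
  have ha : a' * gm Γ (Polynomial.mapRingHom (RingHom.id (X.A.R)[T;T⁻¹])) a = 1 := by
    rw [gm_poly_id, haa]
  have hb : b' * gm Γ (Polynomial.mapRingHom (RingHom.id (X.A.R)[T;T⁻¹])) b = 1 := by
    rw [gm_poly_id, hbb]
  apply BunHom.ext
  · rfl
  · exact ha
  · exact hb

/-- Equivariance for a torus without resonance forces acyclicity. -/
theorem acyclic_of_torus {s : ℂ} {K : TCx (Bun Γ Z) s} (hK : Cartesian K) (X : BunObj Γ Z)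
    (a b : Γ.Gr (Polynomial (X.A.R)[T;T⁻¹])) (ht : GmGlue X a b) (m : ℤ)
    (hm : (((Bun Γ Z).dl (gmSigma X a b ht) : ((X.A.R)[T;T⁻¹])ˣ) : (X.A.R)[T;T⁻¹]) = T m)
    (hs : ∀ k : ℤ, (k : ℂ) + s * m ≠ 0) (j : ℤ) (z : K.obj j X) (hz : K.Cyc X j z) :
    K.Bd X j z :=
  (gmData X a b ht m hm).acyclic hK (gmSigma X a⁻¹ b⁻¹ ht.inv)
    (gmSigma_comp X a b a⁻¹ b⁻¹ ht ht.inv (inv_mul_cancel a) (inv_mul_cancel b)) hs j z hz

end

end Vale.Agent.P286.R2.H505
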