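import Vale.Agent.P286.R2.H505.Grp
import Vale.Agent.P286.R2.H505.K4
import Vale.Agent.P286.H211.Laurent
import Vale.Agent.P286.H211.Toep
import Vale.Agent.P286.H527.Maps

/-!
# Laurent polynomials in `w` and in `z = w^m`
-/

namespace Vale.Agent.P286.R2.H505

open LaurentPolynomial Matrix

noncomputable section

variable {A B : Type} [CommRing A] [CommRing B]

theorem coeff_C_mul_T_mul (a : A) (n : ℤ) (y : A[T;T⁻¹]) (k : ℤ) :
    (C a * T n * y).coeff k = a * y.coeff (k - n) := by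
  rw [coeff_mul', ← single_eq_C_mul_T]
  change (Finsupp.single n a).sum _ = _
  rw [Finsupp.sum_single_index]
  rw [zero_mul]

theorem coeff_C_mul_T' (a : A) (n k : ℤ) : (C a * T n : A[T;T⁻¹]).coeff k = if n = k then a else 0 := by
  rw [← single_eq_C_mul_T, AddMonoidAlgebra.coeff_single, Finsupp.single_apply]

/-- The unit `T m`. -/
def TU (A : Type) [CommRing A] (m : ℤ) : (A[T;T⁻¹])ˣ where
  val := T m
  inv := T (-m)
  val_inv := by rw [← T_add, add_neg_cancel, T_zero]
  inv_val := by rw [← T_add, neg_add_cancel, T_zero]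

theorem TU_zpow (m k : ℤ) : ((TU A m ^ k : (A[T;T⁻¹])ˣ) : A[T;T⁻¹]) = T (m * k) := by
  induction k using Int.induction_on with
  | zero => simp
  | succ i ih =>
    rw [_root_.zpow_add_one, Units.val_mul, ih]
    change T (m * i) * T m = _
    rw [← T_add]
    congr 1
    ring
  | pred i ih =>
    rw [_root_.zpow_sub_one, Units.val_mul, ih]
    change T (m * -i) * T (-m) = _
    rw [← T_add]
    congr 1
    ring

/-- `x(z) ↦ x(w^m)` -/
def pw (m : ℕ) (A : Type) [CommRing A] : A[T;T⁻¹] →+* A[T;T⁻¹] :=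
  LaurentPolynomial.eval₂ C (TU A m)

theorem pw_C (m : ℕ) (a : A) : pw m A (C a) = C a := eval₂_C _ _ _

theorem pw_T (m : ℕ) (k : ℤ) : pw m A (T k) = T (m * k) := by
  rw [pw, eval₂_T, TU_zpow]

theorem dn_coeff (m : ℕ) [NeZero m] (x : A[T;T⁻¹]) (k : ℤ) : (dn m x).coeff k = x.coeff (m * k) := rfl

theorem dn_add (m : ℕ) [NeZero m] (x y : A[T;T⁻¹]) : dn m (x + y) = dn m x + dn m y := by
  ext k
  simp [dn_coeff]

theorem dn_zero (m : ℕ) [NeZero m] : dn m (0 : A[T;T⁻¹]) = 0 := by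
  ext k
  simp [dn_coeff]

theorem dn_sum {ι : Type*} (m : ℕ) [NeZero m] (s : Finset ι) (x : ι → A[T;T⁻¹]) :
    dn m (∑ i ∈ s, x i) = ∑ i ∈ s, dn m (x i) := by
  classical
  induction s using Finset.induction_on with
  | empty => rw [Finset.sum_empty, Finset.sum_empty, dn_zero]
  | insert a s ha ih => rw [Finset.sum_insert ha, Finset.sum_insert ha, dn_add, ih]

variable {m : ℕ} [NeZero m]

theorem mz : (m : ℤ) ≠ 0 := by exact_mod_cast NeZero.ne m

theorem dn_pw_mul (x y : A[T;T⁻¹]) : dn m (pw m A x * y) = x * dn m y := by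
  induction x using LaurentPolynomial.induction_on' with
  | add p q hp hq => rw [map_add, add_mul, dn_add, hp, hq, add_mul]
  | C_mul_T n a =>
    ext k
    rw [map_mul, pw_C, pw_T, dn_coeff, coeff_C_mul_T_mul, coeff_C_mul_T_mul, dn_coeff, mul_sub]

theorem dn_one : dn m (1 : A[T;T⁻¹]) = 1 := by
  ext k
  rw [dn_coeff, ← T_zero, T_apply, T_apply]
  have := mz (m := m)
  by_cases hk : k = 0
  · subst hk; simp
  · rw [if_neg (Ne.symm hk), if_neg]
    intro h
    rcases mul_eq_zero.1 h.symm with h1 | h1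
    · exact this h1
    · exact hk h1

theorem dn_pw (x : A[T;T⁻¹]) : dn m (pw m A x) = x := by
  have := dn_pw_mul (m := m) x 1
  rwa [mul_one, dn_one, mul_one] at this

theorem pw_injective : Function.Injective (pw m A) := fun x y h => by
  rw [← dn_pw (m := m) x, h, dn_pw]

theorem dn_mul_pw (x y : A[T;T⁻¹]) : dn m (x * pw m A y) = dn m x * y := by
  rw [mul_comm, dn_pw_mul, mul_comm]

theorem pw_coeff_mul (x : A[T;T⁻¹]) (k : ℤ) : (pw m A x).coeff (m * k) = x.coeff k := by
  rw [← dn_coeff, dn_pw]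

theorem pw_coeff_of_not (x : A[T;T⁻¹]) {k : ℤ} (hk : ¬ (m : ℤ) ∣ k) : (pw m A x).coeff k = 0 := by
  induction x using LaurentPolynomial.induction_on' with
  | add p q hp hq => rw [map_add, AddMonoidAlgebra.coeff_add, Finsupp.add_apply, hp, hq, add_zero]
  | C_mul_T n a =>
    rw [map_mul, pw_C, pw_T, coeff_C_mul_T', if_neg]
    rintro rfl
    exact hk (dvd_mul_right _ _)

theorem pw_dn {x : A[T;T⁻¹]} (h : ∀ k, ¬ (m : ℤ) ∣ k → x.coeff k = 0) : pw m A (dn m x) = x := by
  ext k
  by_cases hk : (m : ℤ) ∣ k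
  · obtain ⟨l, rfl⟩ := hk
    rw [pw_coeff_mul, dn_coeff]
  · rw [pw_coeff_of_not _ hk, h k hk]

theorem dn_lmap (f : A →+* B) (x : A[T;T⁻¹]) : dn m (lmap f x) = lmap f (dn m x) := by
  ext k
  simp only [dn_coeff, lmap, AddMonoidAlgebra.coeff_mapRingHom]

theorem lmap_C' (f : A →+* B) (a : A) : lmap f (C a) = C (f a) := lmap_C f a

omit [NeZero m] in
theorem lmap_pw (f : A →+* B) : (lmap f).comp (pw m A) = (pw m B).comp (lmap f) := by
  apply RingHom.ext
  intro x
  induction x using LaurentPolynomial.induction_on' with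
  | add p q hp hq => rw [map_add, map_add, hp, hq]
  | C_mul_T n a =>
    simp only [RingHom.comp_apply, map_mul, pw_C, pw_T, lmap_C, lmap_T]

omit [NeZero m] in
theorem ringPos_eq : ringPos m A = (pw m A).comp (Polynomial.toLaurent (R := A)) := by
  apply Polynomial.ringHom_ext
  · intro r
    rw [ringPos, Polynomial.coe_eval₂RingHom, Polynomial.eval₂_C, RingHom.comp_apply,
      Polynomial.toLaurent_C, pw_C]
  · rw [ringPos, Polynomial.coe_eval₂RingHom, Polynomial.eval₂_X, RingHom.comp_apply,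
      Polynomial.toLaurent_X, pw_T, mul_one]

/-- `A[z⁻¹] → A[z,z⁻¹]` -/
def rneg (A : Type) [CommRing A] : Polynomial A →+* A[T;T⁻¹] :=
  (invert (R := A)).toRingEquiv.toRingHom.comp (Polynomial.toLaurent (R := A))

theorem rneg_apply (x : Polynomial A) : rneg A x = invert (Polynomial.toLaurent x) := rfl

omit [NeZero m] in
theorem ringNeg_eq : ringNeg m A = (pw m A).comp (rneg A) := by
  apply Polynomial.ringHom_ext
  · intro r
    rw [ringNeg, Polynomial.coe_eval₂RingHom, Polynomial.eval₂_C, RingHom.comp_apply, rneg_apply,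
      Polynomial.toLaurent_C, invert_C, pw_C]
  · rw [ringNeg, Polynomial.coe_eval₂RingHom, Polynomial.eval₂_X, RingHom.comp_apply, rneg_apply,
      Polynomial.toLaurent_X, invert_T, pw_T]
    congr 1
    ring

theorem rneg_injective : Function.Injective (rneg A) := fun x y h => by
  apply Polynomial.toLaurent_injective
  exact (invert (R := A)).injective h

theorem ringPos_injective : Function.Injective (ringPos m A) := by
  rw [ringPos_eq]
  exact pw_injective.comp Polynomial.toLaurent_injective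

theorem ringNeg_injective : Function.Injective (ringNeg m A) := by
  rw [ringNeg_eq]
  exact pw_injective.comp rneg_injective

theorem toLaurent_GE (x : Polynomial A) : GE 0 (Polynomial.toLaurent x) := by
  intro k hk
  rw [LaurentPolynomial.coeff_toLaurent]
  apply Finsupp.mapDomain_of_notMem_range
  rintro ⟨l, hl⟩
  have hl' : (l : ℤ) = _ := hl
  omega

theorem rneg_LE (x : Polynomial A) : LE 0 (rneg A x) := by
  intro k hk
  rw [rneg_apply, invert_apply]
  exact toLaurent_GE x _ (by omega)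

theorem pw_GE {x : A[T;T⁻¹]} (h : GE 0 x) : GE 0 (pw m A x) := by
  intro k hk
  by_cases hm : (m : ℤ) ∣ k
  · obtain ⟨l, rfl⟩ := hm
    rw [pw_coeff_mul]
    apply h
    have : (0 : ℤ) < m := by exact_mod_cast Nat.pos_of_neZero m
    by_contra hl
    rw [not_lt] at hl
    have := mul_nonneg this.le hl
    omega
  · exact pw_coeff_of_not _ hm

theorem pw_LE {x : A[T;T⁻¹]} (h : LE 0 x) : LE 0 (pw m A x) := by
  intro k hk
  by_cases hm : (m : ℤ) ∣ k
  · obtain ⟨l, rfl⟩ := hm
    rw [pw_coeff_mul]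
    apply h
    have : (0 : ℤ) < m := by exact_mod_cast Nat.pos_of_neZero m
    by_contra hl
    rw [not_lt] at hl
    have := mul_nonpos_of_nonneg_of_nonpos this.le hl
    omega
  · exact pw_coeff_of_not _ hm

theorem dn_GE {x : A[T;T⁻¹]} (h : GE 0 x) : GE 0 (dn m x) := by
  intro k hk
  rw [dn_coeff]
  apply h
  have : (0 : ℤ) < m := by exact_mod_cast Nat.pos_of_neZero m
  exact mul_neg_of_pos_of_neg this hk

theorem dn_LE {x : A[T;T⁻¹]} (h : LE 0 x) : LE 0 (dn m x) := by
  intro k hk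
  rw [dn_coeff]
  apply h
  have : (0 : ℤ) < m := by exact_mod_cast Nat.pos_of_neZero m
  exact mul_pos this hk

theorem lmap_comp_pos (f : A →+* B) :
    (lmap f).comp (ringPos m A) = (ringPos m B).comp (Polynomial.mapRingHom f) := by
  rw [ringPos_eq, ringPos_eq, ← RingHom.comp_assoc, lmap_pw, RingHom.comp_assoc, lmap_toLaurent]
  rfl

theorem lmap_comp_neg (f : A →+* B) :
    (lmap f).comp (ringNeg m A) = (ringNeg m B).comp (Polynomial.mapRingHom f) := by
  have h1 : (lmap f).comp (rneg A) = (rneg B).comp (Polynomial.mapRingHom f) := by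
    apply RingHom.ext
    intro x
    change lmap f (invert (Polynomial.toLaurent x)) =
      invert (Polynomial.toLaurent (Polynomial.mapRingHom f x))
    have h := RingHom.congr_fun (lmap_toLaurent f) x
    change lmap f (Polynomial.toLaurent x) = Polynomial.toLaurent (Polynomial.mapRingHom f x) at h
    rw [← h, lmap_invert]
  rw [ringNeg_eq, ringNeg_eq, ← RingHom.comp_assoc, lmap_pw, RingHom.comp_assoc, h1]
  rfl

theorem lmap_id'' : lmap (RingHom.id A) = RingHom.id A[T;T⁻¹] := RingHom.ext fun x => lmap_id x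

theorem lmap_comp'' {D : Type} [CommRing D] (f : A →+* B) (g : B →+* D) :
    (lmap g).comp (lmap f) = lmap (g.comp f) :=
  RingHom.ext fun x => lmap_lmap f g x

section Rot

variable [Algebra ℂ A]

theorem rotU_zpow (ζ : ℂˣ) (k : ℤ) : ((rotU A ζ ^ k : (A[T;T⁻¹])ˣ) : A[T;T⁻¹]) =
    C (algebraMap ℂ A ((ζ ^ k : ℂˣ) : ℂ)) * T k := by
  induction k using Int.induction_on with
  | zero => simp
  | succ i ih =>
    rw [_root_.zpow_add_one, Units.val_mul, ih, _root_.zpow_add_one, Units.val_mul, map_mul, map_mul,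
      T_add]
    change C _ * T _ * (C _ * T 1) = _
    ring
  | pred i ih =>
    rw [_root_.zpow_sub_one, Units.val_mul, ih, _root_.zpow_sub_one, Units.val_mul, map_mul, map_mul,
      sub_eq_add_neg (-(i : ℤ)), T_add]
    change C _ * T _ * (C _ * T (-1)) = _
    ring

theorem rot_C (ζ : ℂˣ) (a : A) : rot A ζ (C a) = C a := eval₂_C _ _ _

theorem rot_T (ζ : ℂˣ) (k : ℤ) : rot A ζ (T k) = C (algebraMap ℂ A ((ζ ^ k : ℂˣ) : ℂ)) * T k := by
  rw [rot, eval₂_T, rotU_zpow]

theorem rot_coeff (ζ : ℂˣ) (x : A[T;T⁻¹]) (k : ℤ) :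
    (rot A ζ x).coeff k = algebraMap ℂ A ((ζ ^ k : ℂˣ) : ℂ) * x.coeff k := by
  induction x using LaurentPolynomial.induction_on' with
  | add p q hp hq =>
    rw [map_add, AddMonoidAlgebra.coeff_add, Finsupp.add_apply, hp, hq, AddMonoidAlgebra.coeff_add,
      Finsupp.add_apply, mul_add]
  | C_mul_T n a =>
    have h1 : rot A ζ (C a * T n) = C (a * algebraMap ℂ A ((ζ ^ n : ℂˣ) : ℂ)) * T n := by
      rw [map_mul, rot_C, rot_T, map_mul, mul_assoc]
    rw [h1, coeff_C_mul_T', coeff_C_mul_T']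
    split_ifs with h
    · subst h
      rw [mul_comm]
    · rw [mul_zero]

theorem lmap_rot [Algebra ℂ B] (f : A →+* B) (hf : ∀ c : ℂ, f (algebraMap ℂ A c) = algebraMap ℂ B c)
    (ζ : ℂˣ) : (lmap f).comp (rot A ζ) = (rot B ζ).comp (lmap f) := by
  apply RingHom.ext
  intro x
  ext k
  rw [RingHom.comp_apply, RingHom.comp_apply, rot_coeff]
  simp only [lmap, AddMonoidAlgebra.coeff_mapRingHom]
  rw [rot_coeff, map_mul, hf]

/-- A Laurent polynomial which is invariant under the rotations by `ζ^m = 1` is a Laurent polynomial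
in `w^m`. -/
theorem coeff_of_rot {x : A[T;T⁻¹]} (h : ∀ ζ : ℂˣ, ζ ^ m = 1 → rot A ζ x = x) {k : ℤ}
    (hk : ¬ (m : ℤ) ∣ k) : x.coeff k = 0 := by
  obtain ⟨ζ, hζ⟩ : ∃ ζ : ℂ, IsPrimitiveRoot ζ m := ⟨_, Complex.isPrimitiveRoot_exp m (NeZero.ne m)⟩
  have hu : IsUnit ζ := hζ.isUnit (NeZero.ne m)
  obtain ⟨u, rfl⟩ := hu
  have h0 : IsPrimitiveRoot u m := IsPrimitiveRoot.coe_units_iff.1 hζ
  have h1 := congrArg (fun y : A[T;T⁻¹] => y.coeff k) (h u h0.pow_eq_one)
  simp only [rot_coeff] at h1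
  have h2 : (u ^ k : ℂˣ) ≠ 1 := fun h => hk ((h0.zpow_eq_one_iff_dvd k).1 h)
  have h3 : ((u ^ k : ℂˣ) : ℂ) - 1 ≠ 0 := by
    rw [sub_ne_zero]
    exact fun h => h2 (Units.ext h)
  have h4 : algebraMap ℂ A (((u ^ k : ℂˣ) : ℂ) - 1) * x.coeff k = 0 := by
    rw [map_sub, map_one, sub_mul, h1, one_mul, sub_self]
  calc x.coeff k = algebraMap ℂ A ((((u ^ k : ℂˣ) : ℂ) - 1)⁻¹) *
        (algebraMap ℂ A (((u ^ k : ℂˣ) : ℂ) - 1) * x.coeff k) := by
        rw [← mul_assoc, ← map_mul, inv_mul_cancel₀ h3, map_one, one_mul]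
    _ = 0 := by rw [h4, mul_zero]

end Rot

end

end Vale.Agent.P286.R2.H505
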