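import Vale.Agent.P286.R2.H505.OPG
import Vale.Agent.P286.R2.H505.K4

/-!
# Rationality of eigenvalues
-/

namespace Vale.Agent.P286.R2.H505

open Matrix

noncomputable section

section Field

variable {Ω : Type} [Field Ω] [CharZero Ω]

/-- A functional on a Lie algebra with nondegenerate Killing form which vanishes on brackets is zero. -/
theorem functional_zero {G : TG} (hK : G.kill.det ≠ 0) (ψ : (Fin G.d → Ω) →ₗ[Ω] Ω)
    (h : ∀ v w, ψ (G.ad v *ᵥ w) = 0) : ψ = 0 := by
  classical
  have hdet : (G.kill.map (Int.castRingHom Ω)).det ≠ 0 := by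
    have : (G.kill.map (Int.castRingHom Ω)).det = ((G.kill.det : ℤ) : Ω) := by
      rw [Int.cast_det]
      rfl
    rw [this]
    exact_mod_cast hK
  obtain ⟨Q, hQ⟩ : ∃ Q, Q = G.kill.map (Int.castRingHom Ω) := ⟨_, rfl⟩
  rw [← hQ] at hdet
  have hu : IsUnit Q.det := isUnit_iff_ne_zero.2 hdet
  let c : Fin G.d → Ω := fun i => ψ (Pi.single i 1)
  have hc : ∀ v, ψ v = c ⬝ᵥ v := by
    intro v
    have h4 : v = ∑ j, v j • Pi.single j (1 : Ω) := by
      funext k
      simp [Finset.sum_apply, Pi.single_apply]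
    conv_lhs => rw [h4]
    rw [map_sum, dotProduct]
    exact Finset.sum_congr rfl fun j _ => by rw [map_smul, smul_eq_mul, mul_comm]
  let u : Fin G.d → Ω := c ᵥ* Q⁻¹
  have hψ : ∀ v, (G.ad u * G.ad v).trace = ψ v := by
    intro v
    rw [G.kill_apply, ← hQ, Matrix.dotProduct_mulVec, Matrix.vecMul_vecMul,
      Matrix.nonsing_inv_mul _ hu, Matrix.vecMul_one, hc]
  have h1 : ∀ v w, (G.ad (G.ad u *ᵥ v) * G.ad w).trace = 0 := by
    intro v w
    have h2 := h v w
    rw [← hψ, G.ad_lie, Matrix.mul_sub, Matrix.trace_sub] at h2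
    rw [G.ad_lie, Matrix.sub_mul, Matrix.trace_sub, Matrix.mul_assoc, Matrix.mul_assoc,
      Matrix.trace_mul_comm (G.ad v), Matrix.mul_assoc]
    exact h2
  have h3 : ∀ v, G.ad u *ᵥ v = 0 := by
    intro v
    have h4 : (G.ad u *ᵥ v) ᵥ* Q = 0 := by
      funext j
      have h5 := h1 v (Pi.single j 1)
      rw [G.kill_apply, ← hQ, Matrix.dotProduct_mulVec] at h5
      simpa using h5
    calc G.ad u *ᵥ v = ((G.ad u *ᵥ v) ᵥ* Q) ᵥ* Q⁻¹ := by
          rw [Matrix.vecMul_vecMul, Matrix.mul_nonsing_inv _ hu, Matrix.vecMul_one]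
      _ = 0 := by rw [h4, Matrix.zero_vecMul]
  have h6 : G.ad u = 0 := by
    ext i j
    have := congrFun (h3 (Pi.single j 1)) i
    simpa using this
  refine LinearMap.ext fun v => ?_
  rw [← hψ, h6, Matrix.zero_mul, Matrix.trace_zero]
  rfl

theorem trace_idem {N : ℕ} {E : Matrix (Fin N) (Fin N) Ω} (h : E * E = E) :
    ∃ r : ℕ, E.trace = r ∧ (r = 0 → E = 0) := by
  have h1 : IsIdempotentElem (Matrix.toLin' E) := by
    rw [IsIdempotentElem, Module.End.mul_eq_comp, ← Matrix.toLin'_mul, h]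
  refine ⟨Module.finrank Ω (LinearMap.range (Matrix.toLin' E)), ?_, ?_⟩
  · rw [← Matrix.trace_toLin'_eq]
    exact (LinearMap.IsIdempotentElem.isProj_range _ h1).trace
  · intro h2
    have h3 : LinearMap.trace Ω _ (Matrix.toLin' E) = 0 := by
      rw [(LinearMap.IsIdempotentElem.isProj_range _ h1).trace, h2, Nat.cast_zero]
    have h4 := (LinearMap.IsIdempotentElem.trace_eq_zero_iff h1).1 h3
    exact Matrix.toLin'.map_eq_zero_iff.1 h4

/-- Rational eigenvalues. -/
theorem rat_eigen {N : ℕ} [IsAlgClosed Ω] (P : Matrix (Fin N) (Fin N) Ω) {ι : Type}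
    (y : ι → Matrix (Fin N) (Fin N) Ω) (l : ι → ℤ) (hy : ∀ j, P * y j - y j * P = (l j : Ω) • y j)
    (hZ : ∀ Z : Matrix (Fin N) (Fin N) Ω, (∀ j, Z * y j = y j * Z) → (Z * P).trace = 0) :
    ∃ S : Finset ℚ, Polynomial.aeval P (chi S N) = 0 := by
  classical
  let S0 : Finset Ω := P.charpoly.roots.toFinset
  have hχ : Polynomial.aeval P (chi S0 N) = 0 := by
    have h1 : P.charpoly ∣ chi S0 N := by
      have h2 : P.charpoly = (P.charpoly.roots.map fun a => Polynomial.X - Polynomial.C a).prod := by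
        have h3 := (IsAlgClosed.splits P.charpoly).eq_prod_roots
        rw [P.charpoly_monic.leadingCoeff, map_one, one_mul] at h3
        exact h3
      rw [h2, Finset.prod_multiset_map_count, chi]
      refine Finset.prod_dvd_prod_of_dvd _ _ fun a _ => pow_dvd_pow _ ?_
      calc P.charpoly.roots.count a ≤ Multiset.card P.charpoly.roots := Multiset.count_le_card _ _
        _ ≤ P.charpoly.natDegree := Polynomial.card_roots' _
        _ = N := by rw [Matrix.charpoly_natDegree_eq_dim, Fintype.card_fin]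
    obtain ⟨q, hq⟩ := h1
    rw [hq, map_mul, Matrix.aeval_self_charpoly, zero_mul]
  have hz : ∀ a ∈ S0, ∀ b ∈ S0, ∀ j, a ≠ b + l j → prj S0 N P a * y j * prj S0 N P b = 0 := by
    intro a ha b hb j hab
    have h1 : P * y j = y j * (P + algebraMap Ω _ (l j : Ω)) := by
      rw [Matrix.mul_add, sub_eq_iff_eq_add.1 (hy j), add_comm]
      congr 1
      rw [Algebra.algebraMap_eq_smul_one, Matrix.mul_smul, Matrix.mul_one]
    refine inter_zero h1 (prj_comm a) ?_ hab (prj_nil hχ ha) (l := N) ?_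
    · rw [Matrix.add_mul, Matrix.mul_add, prj_comm, Algebra.commutes]
    · have h2 : P + algebraMap Ω (Matrix (Fin N) (Fin N) Ω) (l j : Ω) -
          algebraMap Ω (Matrix (Fin N) (Fin N) Ω) (b + l j) = P - algebraMap Ω _ b := by
        rw [map_add]
        abel
      rw [h2]
      exact prj_nil hχ hb
  have hl : ∀ x : Matrix (Fin N) (Fin N) Ω, x = ∑ b ∈ S0, x * prj S0 N P b := by
    intro x
    rw [← Finset.mul_sum, prj_sum hχ, Matrix.mul_one]
  have hr : ∀ x : Matrix (Fin N) (Fin N) Ω, x = ∑ b ∈ S0, prj S0 N P b * x := by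
    intro x
    rw [← Finset.sum_mul, prj_sum hχ, Matrix.one_mul]
  -- each eigenvalue with nonzero projection is rational
  have key : ∀ a ∈ S0, prj S0 N P a ≠ 0 → ∃ q : ℚ, (q : Ω) = a := by
    intro a ha hE
    by_contra hcon
    have hmem : a ∉ Submodule.span ℚ ({1} : Set Ω) := by
      intro hm
      obtain ⟨q, hq⟩ := Submodule.mem_span_singleton.1 hm
      exact hcon ⟨q, by rw [← hq, Algebra.smul_def, mul_one]; rfl⟩
    obtain ⟨φ, hφa, hφ1⟩ := Submodule.exists_dual_map_eq_bot_of_notMem hmem inferInstance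
    have hφ1' : φ 1 = 0 := by
      have h1 : φ 1 ∈ (Submodule.span ℚ ({1} : Set Ω)).map φ :=
        Submodule.mem_map_of_mem (Submodule.mem_span_singleton_self 1)
      rw [hφ1] at h1
      exact (Submodule.mem_bot ℚ).1 h1
    have hφl : ∀ (b : Ω) (k : ℤ), φ (b + k) = φ b := by
      intro b k
      have h1 : (k : Ω) = (k : ℤ) • (1 : Ω) := by rw [zsmul_eq_mul, mul_one]
      rw [map_add, h1, map_zsmul, hφ1', smul_zero, add_zero]
    let Z : Matrix (Fin N) (Fin N) Ω := ∑ b ∈ S0, (φ b : Ω) • prj S0 N P b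
    have hZy : ∀ j, Z * y j = y j * Z := by
      intro j
      have e1 : Z * y j = ∑ a ∈ S0, ∑ b ∈ S0, (φ a : Ω) • (prj S0 N P a * y j * prj S0 N P b) := by
        simp only [Z, Finset.sum_mul]
        refine Finset.sum_congr rfl fun a _ => ?_
        rw [Matrix.smul_mul, ← Finset.smul_sum, ← hl]
      have e2 : y j * Z = ∑ a ∈ S0, ∑ b ∈ S0, (φ b : Ω) • (prj S0 N P a * y j * prj S0 N P b) := by
        simp only [Z, Finset.mul_sum]
        rw [Finset.sum_comm]
        refine Finset.sum_congr rfl fun b _ => ?_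
        rw [Matrix.mul_smul, ← Finset.smul_sum]
        simp only [Matrix.mul_assoc]
        rw [← hr]
      rw [e1, e2]
      refine Finset.sum_congr rfl fun a ha => Finset.sum_congr rfl fun b hb => ?_
      by_cases hab : a = b + l j
      · rw [hab, hφl]
      · rw [hz a ha b hb j hab, smul_zero, smul_zero]
    have h2 := hZ Z hZy
    choose! r hr1 hr2 using fun b (hb : b ∈ S0) => trace_idem (prj_idem hχ hb)
    have h3 : ∀ b ∈ S0, (prj S0 N P b * P).trace = b * r b := by
      intro b hb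
      have h4 : ((P - algebraMap Ω _ b) * prj S0 N P b).trace = 0 := by
        have h5 : IsNilpotent ((P - algebraMap Ω _ b) * prj S0 N P b) := by
          refine ⟨N + 1, ?_⟩
          have hc : Commute (P - algebraMap Ω _ b) (prj S0 N P b) :=
            Commute.sub_left (prj_comm b) (Algebra.commutes b _)
          rw [hc.mul_pow, pow_succ' (prj S0 N P b), ← mul_assoc, pow_succ' (P - _),
            mul_assoc (P - _), prj_nil hχ hb, mul_zero, zero_mul]
        exact (Matrix.isNilpotent_trace_of_isNilpotent h5).eq_zero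
      rw [sub_mul, Matrix.trace_sub, sub_eq_zero, prj_comm] at h4
      rw [h4, Algebra.algebraMap_eq_smul_one, Matrix.smul_mul, Matrix.one_mul, Matrix.trace_smul,
        hr1 b hb, smul_eq_mul]
    have h4 : ∑ b ∈ S0, (φ b : Ω) * (b * r b) = 0 := by
      rw [← h2]
      simp only [Z, Finset.sum_mul, Matrix.trace_sum]
      refine Finset.sum_congr rfl fun b hb => ?_
      rw [Matrix.smul_mul, Matrix.trace_smul, h3 b hb, smul_eq_mul]
    have h5 : ∑ b ∈ S0, φ b * φ b * r b = 0 := by
      have h6 := congrArg φ h4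
      rw [map_sum, map_zero] at h6
      rw [← h6]
      refine Finset.sum_congr rfl fun b _ => ?_
      have h7 : (φ b : Ω) * (b * r b) = (φ b * r b : ℚ) • b := by
        rw [Algebra.smul_def, eq_ratCast]
        push_cast
        ring
      rw [h7, map_smul, smul_eq_mul]
      ring
    have h6 := (Finset.sum_eq_zero_iff_of_nonneg (fun b _ =>
      mul_nonneg (mul_self_nonneg (φ b)) (Nat.cast_nonneg (r b)))).1 h5 a ha
    rcases mul_eq_zero.1 h6 with h7 | h7
    · exact hφa (mul_self_eq_zero.1 h7)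
    · exact hE (hr2 a ha (by exact_mod_cast h7))
  choose! q hq using key
  refine ⟨(S0.filter fun a => prj S0 N P a ≠ 0).image q, ?_⟩
  have h1 : ∀ a ∈ S0, Polynomial.aeval P (chi ((S0.filter fun a => prj S0 N P a ≠ 0).image q) N) *
      prj S0 N P a = 0 := by
    intro a ha
    by_cases hE : prj S0 N P a = 0
    · rw [hE, mul_zero]
    · have hqa : q a ∈ (S0.filter fun a => prj S0 N P a ≠ 0).image q :=
        Finset.mem_image_of_mem q (Finset.mem_filter.2 ⟨ha, hE⟩)
      have h2 : (Polynomial.X - Polynomial.C (q a)) ^ N ∣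
          chi ((S0.filter fun a => prj S0 N P a ≠ 0).image q) N :=
        Finset.dvd_prod_of_mem (fun b => (Polynomial.X - Polynomial.C b : Polynomial ℚ) ^ N) hqa
      obtain ⟨c, hc⟩ := h2
      rw [hc, mul_comm, map_mul, map_pow, map_sub, Polynomial.aeval_X, Polynomial.aeval_C]
      have h3 : algebraMap ℚ (Matrix (Fin N) (Fin N) Ω) (q a) = algebraMap Ω _ a := by
        rw [IsScalarTower.algebraMap_apply ℚ Ω (Matrix (Fin N) (Fin N) Ω), eq_ratCast, hq a ha hE]
      rw [h3, mul_assoc, prj_nil hχ ha, mul_zero]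
  calc _ = Polynomial.aeval P (chi ((S0.filter fun a => prj S0 N P a ≠ 0).image q) N) *
        ∑ a ∈ S0, prj S0 N P a := by rw [prj_sum hχ, mul_one]
    _ = 0 := by rw [Finset.mul_sum, Finset.sum_eq_zero h1]

end Field

end

end Vale.Agent.P286.R2.H505
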