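import Vale.Agent.P286.R2.H505.Rat

/-!
# Rationality of eigenvalues over domains
-/

namespace Vale.Agent.P286.R2.H505

open Matrix

noncomputable section

variable {G : TG} {R : Type} [CommRing R]

theorem li_col_lie {x : Fin G.d → R} {E : Matrix (Fin G.d) (Fin G.d) R} {lam : Fin G.d → ℤ}
    (h : G.ad x * E = E * Matrix.diagonal fun i => (lam i : R)) (j : Fin G.d) :
    G.li x * G.li (fun k => E k j) - G.li (fun k => E k j) * G.li x =
      (lam j : R) • G.li (fun k => E k j) := by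
  rw [← G.li_ad, ← G.li_smul]
  congr 1
  funext k
  have h1 := congrFun (congrFun h k) j
  rw [Matrix.mul_apply, Matrix.mul_diagonal] at h1
  rw [Pi.smul_apply, smul_eq_mul, mul_comm, ← h1]
  rfl

theorem commute_li {E E' : Matrix (Fin G.d) (Fin G.d) R} (hE : E * E' = 1)
    {Z : Matrix (Fin G.N) (Fin G.N) R}
    (hZ : ∀ j, Z * G.li (fun k => E k j) = G.li (fun k => E k j) * Z) (v : Fin G.d → R) :
    Z * G.li v = G.li v * Z := by
  have h1 : v = ∑ j, (E' *ᵥ v) j • (fun k => E k j) := by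
    have h2 : E *ᵥ (E' *ᵥ v) = v := by rw [Matrix.mulVec_mulVec, hE, Matrix.one_mulVec]
    conv_lhs => rw [← h2]
    funext k
    rw [Finset.sum_apply, Matrix.mulVec, dotProduct]
    exact Finset.sum_congr rfl fun j _ => by rw [Pi.smul_apply, smul_eq_mul, mul_comm]
  rw [h1, ← G.liL_apply, map_sum, Finset.mul_sum, Finset.sum_mul]
  refine Finset.sum_congr rfl fun j _ => ?_
  rw [map_smul, G.liL_apply, Matrix.mul_smul, Matrix.smul_mul, hZ]

/-- A semisimple element of the Lie algebra with integral weights has rational eigenvalues. -/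
theorem exists_chi0 [IsDomain R] [Algebra ℚ R] (hK : G.kill.det ≠ 0) {x : Fin G.d → R}
    {E E' : Matrix (Fin G.d) (Fin G.d) R} {lam : Fin G.d → ℤ} (hE : E * E' = 1)
    (h : G.ad x * E = E * Matrix.diagonal fun i => (lam i : R)) :
    ∃ S : Finset ℚ, Polynomial.aeval (G.li x) (chi S G.N) = 0 := by
  have hc : CharZero R := algebraRat.charZero R
  let Ω := AlgebraicClosure (FractionRing R)
  have hcΩ : CharZero Ω := inferInstance
  let φ : R →+* Ω := (algebraMap (FractionRing R) Ω).comp (algebraMap R (FractionRing R))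
  have hφ : Function.Injective φ :=
    (algebraMap (FractionRing R) Ω).injective.comp (IsFractionRing.injective R (FractionRing R))
  obtain ⟨EΩ, hEΩ⟩ : ∃ EΩ : Matrix (Fin G.d) (Fin G.d) Ω, EΩ = E.map φ := ⟨_, rfl⟩
  obtain ⟨EΩ', hEΩ'⟩ : ∃ EΩ' : Matrix (Fin G.d) (Fin G.d) Ω, EΩ' = E'.map φ := ⟨_, rfl⟩
  have h1 : EΩ * EΩ' = 1 := by
    rw [hEΩ, hEΩ', ← Matrix.map_mul, hE]
    exact map_one φ.mapMatrix
  have h2 : G.ad (fun i => φ (x i)) * EΩ = EΩ * Matrix.diagonal fun i => (lam i : Ω) := by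
    have h3 := congrArg (fun X : Matrix (Fin G.d) (Fin G.d) R => X.map φ) h
    simp only [Matrix.map_mul, G.ad_map] at h3
    rw [hEΩ, h3]
    congr 1
    rw [Matrix.diagonal_map (map_zero φ)]
    congr 1
    funext i
    simp
  obtain ⟨S, hS⟩ := rat_eigen (G.li fun i => φ (x i)) (fun j => G.li fun k => EΩ k j) lam
    (li_col_lie h2) (fun Z hZ => by
      have hZc := commute_li h1 hZ
      let ψ : (Fin G.d → Ω) →ₗ[Ω] Ω :=
        (Matrix.traceLinearMap (Fin G.N) Ω Ω).comp ((LinearMap.mulLeft Ω Z).comp (G.liL Ω))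
      have hψ : ∀ v, ψ v = (Z * G.li v).trace := fun v => rfl
      have h4 := functional_zero hK ψ fun v w => by
        rw [hψ, G.li_ad, Matrix.mul_sub, Matrix.trace_sub, ← Matrix.mul_assoc, ← Matrix.mul_assoc,
          hZc v, Matrix.mul_assoc, Matrix.trace_mul_comm, sub_self]
      have h5 := LinearMap.congr_fun h4 (fun i => φ (x i))
      rwa [hψ] at h5)
  refine ⟨S, ?_⟩
  rw [← G.li_map, aeval_map'] at hS
  ext i j
  apply hφ
  rw [Matrix.zero_apply, map_zero]
  exact congrFun (congrFun hS i) j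

end

end Vale.Agent.P286.R2.H505
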