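import Vale.Agent.P286.R2.H505.Rat2
import Vale.Agent.P286.R2.H505.Pull

/-!
# Adapted frames: base change and descent
-/

namespace Vale.Agent.P286.R2.H505

open LaurentPolynomial Matrix

noncomputable section

/-- The matrix `p` is killed by the product of the `(X - a) ^ n`, `a ∈ S`. -/
structure ChiZ {N : ℕ} {R : Type} [CommRing R] (S : Finset ℚ) (n : ℕ)
    (p : Matrix (Fin N) (Fin N) R) : Prop where
  out : ∀ [Algebra ℚ R], Polynomial.aeval p (chi S n) = 0

section

variable {N : ℕ} {R R' : Type} [CommRing R] [CommRing R'] {S S' : Finset ℚ} {n : ℕ}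
  {p : Matrix (Fin N) (Fin N) R}

theorem ChiZ.of [i : Algebra ℚ R] (h : Polynomial.aeval p (chi S n) = 0) : ChiZ S n p := by
  constructor
  intro i'
  have : i = i' := Subsingleton.elim _ _
  subst this
  exact h

theorem chi_dvd (h : S ⊆ S') (n : ℕ) : chi S n ∣ chi S' n :=
  Finset.prod_dvd_prod_of_subset _ _ _ h

theorem ChiZ.mono (h : ChiZ S n p) (hS : S ⊆ S') : ChiZ S' n p := by
  constructor
  intro i
  obtain ⟨q, hq⟩ := chi_dvd hS n
  rw [hq, map_mul, h.out, zero_mul]

theorem ChiZ.map [i : RatAlg R] (h : ChiZ S n p) (f : R →+* R') : ChiZ S n (p.map f) := by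
  constructor
  intro _
  have := ratAlg R
  rw [aeval_map' f, h.out]
  ext i j
  simp

theorem ChiZ.of_map [i : RatAlg R'] (f : R →+* R') (hf : Function.Injective f)
    (h : ChiZ S n (p.map f)) : ChiZ S n p := by
  constructor
  intro _
  have := ratAlg R'
  have h1 : Polynomial.aeval (p.map f) (chi S n) = 0 := h.out
  rw [aeval_map' f] at h1
  ext i j
  apply hf
  rw [Matrix.zero_apply, map_zero]
  exact congrFun (congrFun h1 i) j

end

section

variable {G : TG} {B B' : Type} [CommRing B] [CommRing B']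
  {M : Matrix (Fin G.d) (Fin G.d) B[T;T⁻¹]}
  {lam : Fin G.d → ℤ} {E E' F F' : Matrix (Fin G.d) (Fin G.d) B[T;T⁻¹]}
  {x0 x1 : Fin G.d → B[T;T⁻¹]}

theorem GE.of_lmap (f : B →+* B') (hf : Function.Injective f) {n : ℤ} {x : B[T;T⁻¹]}
    (h : GE n (lmap f x)) : GE n x := by
  intro k hk
  apply hf
  rw [map_zero]
  have := h k hk
  simpa [lmap] using this

theorem LE.of_lmap (f : B →+* B') (hf : Function.Injective f) {n : ℤ} {x : B[T;T⁻¹]}
    (h : LE n (lmap f x)) : LE n x := by
  intro k hk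
  apply hf
  rw [map_zero]
  have := h k hk
  simpa [lmap] using this

theorem mp_ad (f : B →+* B') (x : Fin G.d → B[T;T⁻¹]) :
    mp f (G.ad x) = G.ad fun i => lmap f (x i) := G.ad_map (lmap f) x

theorem mp_diag_int (f : B →+* B') (lam : Fin G.d → ℤ) :
    mp f (Matrix.diagonal fun i => (lam i : B[T;T⁻¹])) =
      Matrix.diagonal fun i => (lam i : B'[T;T⁻¹]) := by
  change (Matrix.diagonal fun i => (lam i : B[T;T⁻¹])).map (lmap f) = _
  rw [Matrix.diagonal_map (map_zero _)]
  congr 1
  funext i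
  simp

theorem mp_one' (f : B →+* B') : mp f (1 : Matrix (Fin G.d) (Fin G.d) B[T;T⁻¹]) = 1 :=
  Matrix.map_one _ (map_zero _) (map_one _)

theorem mp_inj (f : B →+* B') (hf : Function.Injective f)
    {X Y : Matrix (Fin G.d) (Fin G.d) B[T;T⁻¹]} (h : mp f X = mp f Y) : X = Y := by
  ext1 i j
  exact lmap_injective f hf (congrFun (congrFun h i) j)

theorem mp_mulVec (f : B →+* B') (x : Fin G.d → B[T;T⁻¹]) :
    (mp f M) *ᵥ (fun i => lmap f (x i)) = fun i => lmap f ((M *ᵥ x) i) := by
  funext i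
  rw [Matrix.mulVec, dotProduct, Matrix.mulVec, dotProduct, map_sum]
  refine Finset.sum_congr rfl fun j _ => ?_
  rw [map_mul]
  rfl

theorem SD.map (h : SD G M lam E E' F F' x0 x1) (f : B →+* B') :
    SD G (mp f M) lam (mp f E) (mp f E') (mp f F) (mp f F') (fun i => lmap f (x0 i))
      (fun i => lmap f (x1 i)) where
  hE i j := (h.hE i j).map f
  hE' i j := (h.hE' i j).map f
  EE' := by rw [← mp_mul, h.EE', mp_one']
  hF i j := (h.hF i j).map f
  hF' i j := (h.hF' i j).map f
  FF' := by rw [← mp_mul, h.FF', mp_one']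
  glue := by rw [← mp_mul, h.glue, mp_mul, mp_mono]
  hx0 i := (h.hx0 i).map f
  hx1 i := (h.hx1 i).map f
  glx := by rw [mp_mulVec, h.glx]
  adE := by rw [← mp_ad, ← mp_mul, h.adE, mp_mul, mp_diag_int]
  adF := by rw [← mp_ad, ← mp_mul, h.adF, mp_mul, mp_diag_int]

theorem SD.of_map (f : B →+* B') (hf : Function.Injective f)
    (h : SD G (mp f M) lam (mp f E) (mp f E') (mp f F) (mp f F') (fun i => lmap f (x0 i))
      (fun i => lmap f (x1 i))) : SD G M lam E E' F F' x0 x1 where
  hE i j := GE.of_lmap f hf (h.hE i j)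
  hE' i j := GE.of_lmap f hf (h.hE' i j)
  EE' := by
    apply mp_inj f hf
    rw [mp_mul, h.EE', mp_one']
  hF i j := LE.of_lmap f hf (h.hF i j)
  hF' i j := LE.of_lmap f hf (h.hF' i j)
  FF' := by
    apply mp_inj f hf
    rw [mp_mul, h.FF', mp_one']
  glue := by
    apply mp_inj f hf
    rw [mp_mul, h.glue, mp_mul, mp_mono]
  hx0 i := GE.of_lmap f hf (h.hx0 i)
  hx1 i := LE.of_lmap f hf (h.hx1 i)
  glx := by
    funext i
    apply lmap_injective f hf
    have h1 := congrFun h.glx i
    rw [mp_mulVec] at h1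
    exact h1
  adE := by
    apply mp_inj f hf
    rw [mp_mul, mp_ad, h.adE, mp_mul, mp_diag_int]
  adF := by
    apply mp_inj f hf
    rw [mp_mul, mp_ad, h.adF, mp_mul, mp_diag_int]

end

/-- A nontrivial splitting of the adjoint bundle with transition matrix `M`. -/
structure SDat (G : TG) {B : Type} [CommRing B] (M : Matrix (Fin G.d) (Fin G.d) B[T;T⁻¹])
    (lam : Fin G.d → ℤ) (S : Finset ℚ) : Prop where
  out : ∃ (E E' F F' : Matrix (Fin G.d) (Fin G.d) B[T;T⁻¹]) (x0 x1 : Fin G.d → B[T;T⁻¹]),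
    SD G M lam E E' F F' x0 x1 ∧ ChiZ S G.N (G.li x0) ∧ ChiZ S G.N (G.li x1)

theorem SDat.map {G : TG} {B B' : Type} [CommRing B] [CommRing B'] [RatAlg B]
    {M : Matrix (Fin G.d) (Fin G.d) B[T;T⁻¹]} {lam : Fin G.d → ℤ} {S : Finset ℚ}
    (h : SDat G M lam S) (f : B →+* B') : SDat G (mp f M) lam S := by
  obtain ⟨E, E', F, F', x0, x1, h1, h2, h3⟩ := h.out
  have h4 := h2.map (lmap f)
  have h5 := h3.map (lmap f)
  rw [G.li_map] at h4 h5
  exact ⟨_, _, _, _, _, _, h1.map f, h4, h5⟩

/-- Clearing denominators. -/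
theorem spread {A : Type} [CommRing A] [IsDomain A] (s : Finset (FractionRing A)) :
    ∃ h : A, h ≠ 0 ∧ ∃ φ : Localization.Away h →+* FractionRing A, Function.Injective φ ∧
      φ.comp (algebraMap A (Localization.Away h)) = algebraMap A (FractionRing A) ∧
      ∃ r : FractionRing A → Localization.Away h, r 0 = 0 ∧ ∀ c ∈ s, φ (r c) = c := by
  classical
  let K := FractionRing A
  let al : A →+* K := algebraMap A K
  obtain ⟨⟨h, hh⟩, hs⟩ := IsLocalization.exist_integer_multiples_of_finset (nonZeroDivisors A) s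
  have hh0 : h ≠ 0 := nonZeroDivisors.ne_zero hh
  have halh : al h ≠ 0 := by
    intro h0
    exact hh0 (IsFractionRing.injective A K (by rw [h0, map_zero]))
  let φ : Localization.Away h →+* K :=
    IsLocalization.Away.lift (S := Localization.Away h) h (g := al) (isUnit_iff_ne_zero.mpr halh)
  have hφal : φ.comp (algebraMap A (Localization.Away h)) = al :=
    IsLocalization.Away.lift_comp h _
  have hφa : ∀ a, φ (algebraMap A (Localization.Away h) a) = al a := fun a =>
    RingHom.congr_fun hφal a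
  have hφinj : Function.Injective φ := by
    rw [injective_iff_map_eq_zero]
    intro x hx
    obtain ⟨⟨y, ⟨_, ⟨j, rfl⟩⟩⟩, hy⟩ := IsLocalization.surj (Submonoid.powers h) x
    simp only at hy
    have h1 : al y = 0 := by rw [← hφa, ← hy, map_mul, hx, zero_mul]
    have h2 : y = 0 := IsFractionRing.injective A K (by rw [map_zero]; exact h1)
    rw [h2, map_zero] at hy
    have hu : IsUnit (algebraMap A (Localization.Away h) (h ^ j)) := by
      rw [map_pow]
      exact (IsLocalization.Away.algebraMap_isUnit h).pow j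
    exact (hu.mul_left_eq_zero).mp hy
  have hrange : ∀ c ∈ s, ∃ r, φ r = c := by
    intro c hc
    obtain ⟨r, hr⟩ := hs c hc
    obtain ⟨u, hu⟩ := IsLocalization.Away.algebraMap_isUnit (S := Localization.Away h) h
    refine ⟨(u⁻¹ : (Localization.Away h)ˣ) * algebraMap A _ r, ?_⟩
    have h1 : φ u * φ ((u⁻¹ : (Localization.Away h)ˣ) * algebraMap A _ r) = al h * c := by
      rw [← map_mul, ← mul_assoc, Units.mul_inv, one_mul, hφa]
      rw [show al r = algebraMap A K r from rfl, hr, Algebra.smul_def]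
    rw [hu, hφa] at h1
    exact mul_left_cancel₀ halh h1
  let r : K → Localization.Away h := fun c =>
    if hc : c = 0 then 0 else if hc : ∃ r, φ r = c then hc.choose else 0
  have hr0 : r 0 = 0 := by simp [r]
  refine ⟨h, hh0, φ, hφinj, hφal, r, hr0, ?_⟩
  intro c hc
  by_cases h0 : c = 0
  · rw [h0, hr0, map_zero]
  · simp only [r, dif_neg h0, dif_pos (hrange c hc)]
    exact (hrange c hc).choose_spec

/-- Clearing denominators of finitely many Laurent polynomials. -/
theorem spreadL {A : Type} [CommRing A] [IsDomain A] {ι : Type} [Fintype ι]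
    (x : ι → (FractionRing A)[T;T⁻¹]) :
    ∃ h : A, h ≠ 0 ∧ ∃ φ : Localization.Away h →+* FractionRing A, Function.Injective φ ∧
      φ.comp (algebraMap A (Localization.Away h)) = algebraMap A (FractionRing A) ∧
      ∃ y : ι → (Localization.Away h)[T;T⁻¹], ∀ i, lmap φ (y i) = x i := by
  classical
  obtain ⟨h, hh0, φ, hφ, hφal, r, hr0, hr⟩ := spread
    (Finset.univ.biUnion fun i : ι => (x i).coeff.support.image (fun m => (x i).coeff m))
  refine ⟨h, hh0, φ, hφ, hφal, fun i => ⟨(x i).coeff.mapRange r hr0⟩, fun i => ?_⟩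
  ext m
  rw [lmap, AddMonoidAlgebra.coeff_mapRingHom]
  show φ (((x i).coeff.mapRange r hr0) m) = _
  rw [Finsupp.mapRange_apply]
  by_cases h0 : (x i).coeff m = 0
  · rw [h0, hr0, map_zero]
  · apply hr
    rw [Finset.mem_biUnion]
    exact ⟨i, Finset.mem_univ _, Finset.mem_image_of_mem _ (Finsupp.mem_support_iff.mpr h0)⟩

/-- Descent of a splitting from the fraction field. -/
theorem SDat.spread {G : TG} {A : Type} [CommRing A] [IsDomain A] [CharZero A]
    {M : Matrix (Fin G.d) (Fin G.d) A[T;T⁻¹]} {lam : Fin G.d → ℤ} {S : Finset ℚ}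
    (h : SDat G (mp (algebraMap A (FractionRing A)) M) lam S) :
    ∃ h : A, h ≠ 0 ∧ SDat G (mp (algebraMap A (Localization.Away h)) M) lam S := by
  obtain ⟨E, E', F, F', x0, x1, h1, h2, h3⟩ := h.out
  let D := Fin G.d × Fin G.d
  let x : (D ⊕ D) ⊕ (D ⊕ D) ⊕ (Fin G.d ⊕ Fin G.d) → (FractionRing A)[T;T⁻¹] :=
    Sum.elim (Sum.elim (fun i => E i.1 i.2) (fun i => E' i.1 i.2))
      (Sum.elim (Sum.elim (fun i => F i.1 i.2) (fun i => F' i.1 i.2)) (Sum.elim x0 x1))
  obtain ⟨t, ht, φ, hφ, hφal, y, hy⟩ := spreadL x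
  refine ⟨t, ht, ⟨Matrix.of fun i j => y (.inl (.inl (i, j))), Matrix.of fun i j => y (.inl (.inr (i, j))),
    Matrix.of fun i j => y (.inr (.inl (.inl (i, j)))),
    Matrix.of fun i j => y (.inr (.inl (.inr (i, j)))), fun i => y (.inr (.inr (.inl i))),
    fun i => y (.inr (.inr (.inr i))), ?_, ?_, ?_⟩⟩
  · apply SD.of_map φ hφ
    have e0 : mp φ (mp (algebraMap A (Localization.Away t)) M) =
        mp (algebraMap A (FractionRing A)) M := by
      ext1 i j
      change lmap φ (lmap (algebraMap A (Localization.Away t)) (M i j)) =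
        lmap (algebraMap A (FractionRing A)) (M i j)
      rw [lmap_comp, hφal]
    have e1 : mp φ (Matrix.of fun i j => y (.inl (.inl (i, j)))) = E := by
      ext1 i j
      exact hy (.inl (.inl (i, j)))
    have e2 : mp φ (Matrix.of fun i j => y (.inl (.inr (i, j)))) = E' := by
      ext1 i j
      exact hy (.inl (.inr (i, j)))
    have e3 : mp φ (Matrix.of fun i j => y (.inr (.inl (.inl (i, j))))) = F := by
      ext1 i j
      exact hy (.inr (.inl (.inl (i, j))))
    have e4 : mp φ (Matrix.of fun i j => y (.inr (.inl (.inr (i, j))))) = F' := by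
      ext1 i j
      exact hy (.inr (.inl (.inr (i, j))))
    have e5 : (fun i => lmap φ (y (.inr (.inr (.inl i))))) = x0 :=
      funext fun i => hy (.inr (.inr (.inl i)))
    have e6 : (fun i => lmap φ (y (.inr (.inr (.inr i))))) = x1 :=
      funext fun i => hy (.inr (.inr (.inr i)))
    rw [e0, e1, e2, e3, e4, e5, e6]
    exact h1
  · have : RatAlg (FractionRing A) := ratF
    apply ChiZ.of_map (lmap φ) (lmap_injective φ hφ)
    rw [G.li_map]
    have e5 : (fun i => lmap φ (y (.inr (.inr (.inl i))))) = x0 :=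
      funext fun i => hy (.inr (.inr (.inl i)))
    rw [e5]
    exact h2
  · have : RatAlg (FractionRing A) := ratF
    apply ChiZ.of_map (lmap φ) (lmap_injective φ hφ)
    rw [G.li_map]
    have e6 : (fun i => lmap φ (y (.inr (.inr (.inr i))))) = x1 :=
      funext fun i => hy (.inr (.inr (.inr i)))
    rw [e6]
    exact h3

end

end Vale.Agent.P286.R2.H505
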