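import Vale.Agent.P286.R2.H505.SData

/-! Generic splitting of the adjoint bundle over a domain. -/

namespace Vale.Agent.P286.R2.H505

open LaurentPolynomial Matrix

noncomputable section

/-- The Toeplitz operator of an invertible matrix over `B[z]`, as a unit. -/
def posU {B : Type} [CommRing B] {n : ℕ} (X X' : Matrix (Fin n) (Fin n) B[T;T⁻¹]) (hX : MGE 0 X)
    (hX' : MGE 0 X') (h : X * X' = 1) : (Module.End B (Jd n →₀ B))ˣ where
  val := vtoep X
  inv := vtoep X'
  val_inv := by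
    have h1 := vtoep_pos_mul hX X'
    rw [h, vtoep_one] at h1
    exact h1.symm
  inv_val := by
    have h1 := vtoep_pos_mul hX' X
    rw [mul_eq_one_comm.1 h, vtoep_one] at h1
    exact h1.symm

/-- The Toeplitz operator of an invertible matrix over `B[z⁻¹]`, as a unit. -/
def negU {B : Type} [CommRing B] {n : ℕ} (Y Y' : Matrix (Fin n) (Fin n) B[T;T⁻¹]) (hY : MLE 0 Y)
    (hY' : MLE 0 Y') (h : Y * Y' = 1) : (Module.End B (Jd n →₀ B))ˣ where
  val := vtoep Y
  inv := vtoep Y'
  val_inv := by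
    have h1 := vtoep_mul_neg Y hY'
    rw [h, vtoep_one] at h1
    exact h1.symm
  inv_val := by
    have h1 := vtoep_mul_neg Y' hY
    rw [mul_eq_one_comm.1 h, vtoep_one] at h1
    exact h1.symm

variable {G : TG} {Z : Cen G}

/-- Over a domain, a bundle which is not generically trivial has generically a nontrivial
splitting. -/
theorem generic_split (hK : G.kill.det ≠ 0) {A : Type} [CommRing A] [IsDomain A] [Algebra ℂ A]
    (g : G.Gr A[T;T⁻¹]) (h : Tw Z g) (S : (Module.End A (Jd G.d →₀ A))ˣ)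
    (hS : IsFraming Z.m g S) (hθ : theta Z.m g S = 0) :
    ∃ t : A, t ≠ 0 ∧ ∃ (lam : Fin G.d → ℤ) (Q : Finset ℚ), (∃ i, lam i ≠ 0) ∧ ∑ i, lam i = 0 ∧
      SDat G (mp (algebraMap A (Localization.Away t)) (AdZ Z.m g)) lam Q := by
  classical
  let K := FractionRing A
  let al : A →+* K := algebraMap A K
  have hKc : CharZero K := charZero_of_injective_ringHom (al.comp (algebraMap ℂ A)).injective
  have hAc : CharZero A := charZero_of_injective_ringHom (algebraMap ℂ A).injective
  have hpw := pw_AdZ_map Z h al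
  obtain ⟨lam, E, E', F, F', x0, x1, hsum, hSD⟩ := exists_SD hK (AdZ Z.m (gm G (lmap al) g))
    (AdZ Z.m (gm G (lmap al) g)⁻¹) (AdZ_mul_AdZ_inv hpw) (AdZ_isAut hpw)
  have hne : ∃ i, lam i ≠ 0 := by
    by_contra hcon
    push Not at hcon
    have hlz : lam = 0 := funext hcon
    have h1 : AdZ Z.m (gm G (lmap al) g) = E * F' := by
      have h2 := hSD.glue
      rw [hlz, mono_zero, Matrix.mul_one] at h2
      rw [← h2, Matrix.mul_assoc, hSD.FF', Matrix.mul_one]
    have h3 : IsUnit (toep Z.m (gm G (lmap al) g)) := by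
      rw [toep_def, h1, vtoep_pos_mul hSD.hE]
      exact (posU E E' hSD.hE hSD.hE' hSD.EE').isUnit.mul
        (negU F' F hSD.hF' hSD.hF (mul_eq_one_comm.1 hSD.FF')).isUnit
    have hfr := theta_finRank hS
    have h4 : IsUnit (bc al (toep Z.m g * ((S⁻¹ : (Module.End A (Jd G.d →₀ A))ˣ) :
        Module.End A (Jd G.d →₀ A)))) := by
      rw [bc_mul, bc_toep]
      exact h3.mul ((S⁻¹).isUnit.map (bcHom (Jd G.d) al))
    have h5 := isUnit_fdet (FinRank.bc_sub_one al hfr) h4
    have h6 : fdet (toep Z.m g * ((S⁻¹ : (Module.End A (Jd G.d →₀ A))ˣ) :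
        Module.End A (Jd G.d →₀ A))) = 0 := hθ
    rw [fdet_bc al hfr, h6, map_zero] at h5
    exact not_isUnit_zero h5
  obtain ⟨S0, hS0⟩ := exists_chi0 hK hSD.EE' hSD.adE
  obtain ⟨S1, hS1⟩ := exists_chi0 hK hSD.FF' hSD.adF
  have hdat : SDat G (mp (algebraMap A (FractionRing A)) (AdZ Z.m g)) lam (S0 ∪ S1) := by
    rw [← AdZ_map]
    exact ⟨E, E', F, F', x0, x1, hSD, (ChiZ.of hS0).mono Finset.subset_union_left,
      (ChiZ.of hS1).mono Finset.subset_union_right⟩
  obtain ⟨t, ht, hd⟩ := hdat.spread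
  exact ⟨t, ht, lam, S0 ∪ S1, hne, hsum, hd⟩

end

end Vale.Agent.P286.R2.H505
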