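import Mathlib

/-!
# Algebraic groups as stabilizers of tensors

A *tensor group* `G : TG` is the group scheme of all `g ∈ SL_N` which fix a set of tensors
`t ∈ Hom(V^{⊗q}, V^{⊗p})`, `V = ℤ^N`, together with a basis `b` of the lattice of the integral
points of its Lie algebra, and the dual linear forms `c`.  (Every semisimple complex algebraic group is
of this form.)
-/

namespace Vale.Agent.P286.R2.H505

/-- An integral tensor `t ∈ Hom(V^{⊗q}, V^{⊗p})`, `V = ℤ^N`. -/
structure Ten (N : ℕ) : Type where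
  p : ℕ
  q : ℕ
  t : (Fin p → Fin N) → (Fin q → Fin N) → ℤ

section

variable {N : ℕ} {R : Type} [CommRing R]

/-- The matrix of `x^{⊗p}`. -/
def tpow (p : ℕ) (x : Matrix (Fin N) (Fin N) R) : Matrix (Fin p → Fin N) (Fin p → Fin N) R :=
  fun i j => ∏ k, x (i k) (j k)

/-- The matrix of the derivation of the tensor algebra defined by `x`, on the `p`-th tensor power. -/
def tder (p : ℕ) (x : Matrix (Fin N) (Fin N) R) : Matrix (Fin p → Fin N) (Fin p → Fin N) R :=
  fun i j => ∑ k, x (i k) (j k) *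
    ∏ l ∈ Finset.univ.erase k, (1 : Matrix (Fin N) (Fin N) R) (i l) (j l)

/-- The matrix `x` fixes the tensor `t`: `x^{⊗p} t = t x^{⊗q}`. -/
def Ten.Fix (t : Ten N) (x : Matrix (Fin N) (Fin N) R) : Prop :=
  ∀ i j, ∑ k, tpow t.p x i k * (t.t k j : R) = ∑ k, (t.t i k : R) * tpow t.q x k j

/-- The derivation defined by `x` kills the tensor `t`. -/
def Ten.Kill (t : Ten N) (x : Matrix (Fin N) (Fin N) R) : Prop :=
  ∀ i j, ∑ k, tder t.p x i k * (t.t k j : R) = ∑ k, (t.t i k : R) * tder t.q x k j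

/-- The matrix `x` is in the Lie algebra of the group of all `g ∈ SL_N` which fix the tensors. -/
def IsLie (ten : Set (Ten N)) (x : Matrix (Fin N) (Fin N) R) : Prop :=
  x.trace = 0 ∧ ∀ t ∈ ten, t.Kill x

/-- The linear form on matrices defined by an integral matrix. -/
def pair (c : Matrix (Fin N) (Fin N) ℤ) (x : Matrix (Fin N) (Fin N) R) : R :=
  ∑ p, ∑ q, (c p q : R) * x p q

/-- The product of matrices. -/
def mm (x y : Matrix (Fin N) (Fin N) R) : Matrix (Fin N) (Fin N) R := x * y

/-- The commutator of matrices. -/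
def br (x y : Matrix (Fin N) (Fin N) R) : Matrix (Fin N) (Fin N) R := x * y - y * x

end

/-- A tensor group: the group scheme of all `g ∈ SL_N` which fix the tensors in `ten`, with a basis
`b` of the lattice `Lie(G)(ℤ)` and the dual linear forms `c`. -/
structure TG : Type where
  N : ℕ
  ten : Set (Ten N)
  d : ℕ
  b : Fin d → Matrix (Fin N) (Fin N) ℤ
  c : Fin d → Matrix (Fin N) (Fin N) ℤ
  isLie : ∀ i, IsLie ten (b i)
  dual : ∀ i j, pair (c i) (b j) = if i = j then 1 else 0
  span : ∀ x : Matrix (Fin N) (Fin N) ℤ, IsLie ten x → x = ∑ i, pair (c i) x • b i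

/-- The matrix of `ad b_i` in the basis `b`. -/
def TG.adM (G : TG) (i : Fin G.d) : Matrix (Fin G.d) (Fin G.d) ℤ :=
  fun k j => pair (G.c k) (br (G.b i) (G.b j))

/-- The matrix of the Killing form of the Lie algebra in the basis `b`:
`B(b_i, b_j) = tr(ad b_i ad b_j)`. -/
def TG.kill (G : TG) : Matrix (Fin G.d) (Fin G.d) ℤ :=
  fun i j => ∑ k, ∑ l, G.adM i k l * G.adM j l k

/-- The matrix `x` is a point of the group: `x ∈ SL_N` fixes the tensors. -/
def TG.Is (G : TG) {R : Type} [CommRing R] (x : Matrix (Fin G.N) (Fin G.N) R) : Prop :=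
  x.det = 1 ∧ ∀ t ∈ G.ten, t.Fix x

/-- The points of `G` over `R`. -/
structure TG.Gr (G : TG) (R : Type) [CommRing R] : Type where
  m : Matrix (Fin G.N) (Fin G.N) R
  is : G.Is m

end Vale.Agent.P286.R2.H505
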