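import Vale.Agent.P286.R2.H505.Ten

/-!
# The group law of a tensor group
-/

namespace Vale.Agent.P286.R2.H505

open Matrix

section

variable {N : ℕ} {R : Type} [CommRing R]

/-- The matrix of the tensor. -/
def Ten.mat (t : Ten N) (R : Type) [CommRing R] : Matrix (Fin t.p → Fin N) (Fin t.q → Fin N) R :=
  Matrix.of fun i j => (t.t i j : R)

theorem Ten.fix_iff (t : Ten N) (x : Matrix (Fin N) (Fin N) R) :
    t.Fix x ↔ tpow t.p x * t.mat R = t.mat R * tpow t.q x :=
  ⟨fun h => Matrix.ext h, fun h i j => congrFun (congrFun h i) j⟩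

theorem Ten.kill_iff (t : Ten N) (x : Matrix (Fin N) (Fin N) R) :
    t.Kill x ↔ tder t.p x * t.mat R = t.mat R * tder t.q x :=
  ⟨fun h => Matrix.ext h, fun h i j => congrFun (congrFun h i) j⟩

theorem Ten.fix_one (t : Ten N) : t.Fix (1 : Matrix (Fin N) (Fin N) R) := by
  rw [Ten.fix_iff, tpow_one, tpow_one, Matrix.one_mul, Matrix.mul_one]

theorem Ten.Fix.mul {t : Ten N} {x y : Matrix (Fin N) (Fin N) R} (h1 : t.Fix x) (h2 : t.Fix y) :
    t.Fix (x * y) := by
  rw [Ten.fix_iff] at *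
  rw [tpow_mul, tpow_mul, Matrix.mul_assoc, h2, ← Matrix.mul_assoc, h1, Matrix.mul_assoc]

theorem Ten.Fix.inv {t : Ten N} {x y : Matrix (Fin N) (Fin N) R} (h1 : t.Fix x) (e1 : y * x = 1)
    (e2 : x * y = 1) : t.Fix y := by
  rw [Ten.fix_iff] at *
  calc tpow t.p y * t.mat R = tpow t.p y * (t.mat R * tpow t.q x) * tpow t.q y := by
        rw [Matrix.mul_assoc, Matrix.mul_assoc, ← tpow_mul, e2, tpow_one, Matrix.mul_one]
    _ = t.mat R * tpow t.q y := by
        rw [← h1, ← Matrix.mul_assoc, ← tpow_mul, e1, tpow_one, Matrix.one_mul]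

end

end Vale.Agent.P286.R2.H505
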