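import Vale.Agent.P286.H211.Laurent
import Vale.Agent.P286.R2.H505.TDef

/-!
# Tensor powers of matrices
-/

namespace Vale.Agent.P286.R2.H505

open Matrix

section Ten

variable {N : ℕ} {R S : Type} [CommRing R] [CommRing S]

/-- The matrix of `x_1 ⊗ ... ⊗ x_p`. -/
def tens {p : ℕ} (x : Fin p → Matrix (Fin N) (Fin N) R) :
    Matrix (Fin p → Fin N) (Fin p → Fin N) R :=
  Matrix.of fun i j => ∏ k, x k (i k) (j k)

/-- `x` acting on the `k`-th factor -/
def tat {p : ℕ} (k : Fin p) (x : Matrix (Fin N) (Fin N) R) :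
    Matrix (Fin p → Fin N) (Fin p → Fin N) R :=
  tens (Function.update (fun _ => 1) k x)

theorem tens_apply {p : ℕ} (x : Fin p → Matrix (Fin N) (Fin N) R) (i j : Fin p → Fin N) :
    tens x i j = ∏ k, x k (i k) (j k) := rfl

theorem tpow_eq (p : ℕ) (x : Matrix (Fin N) (Fin N) R) : tpow p x = tens fun _ => x := rfl

theorem tens_mul {p : ℕ} (x y : Fin p → Matrix (Fin N) (Fin N) R) :
    tens x * tens y = tens fun k => x k * y k := by
  ext i j
  simp only [Matrix.mul_apply, tens_apply]
  rw [Finset.prod_univ_sum]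
  rw [Fintype.piFinset_univ]
  refine Finset.sum_congr rfl fun a _ => ?_
  rw [Finset.prod_mul_distrib]

theorem tens_one {p : ℕ} : tens (fun _ : Fin p => (1 : Matrix (Fin N) (Fin N) R)) = 1 := by
  ext i j
  rw [tens_apply]
  by_cases h : i = j
  · subst h
    simp
  · rw [Matrix.one_apply_ne h]
    obtain ⟨k, hk⟩ : ∃ k, i k ≠ j k := by
      by_contra hcon
      push Not at hcon
      exact h (funext hcon)
    exact Finset.prod_eq_zero (Finset.mem_univ k) (Matrix.one_apply_ne hk)

theorem tpow_mul (p : ℕ) (x y : Matrix (Fin N) (Fin N) R) :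
    tpow p (x * y) = tpow p x * tpow p y := by
  rw [tpow_eq, tpow_eq, tpow_eq, tens_mul]

theorem tpow_one (p : ℕ) : tpow p (1 : Matrix (Fin N) (Fin N) R) = 1 := tens_one

theorem tens_map {p : ℕ} (f : R →+* S) (x : Fin p → Matrix (Fin N) (Fin N) R) :
    (tens x).map f = tens fun k => (x k).map f := by
  ext i j
  simp [tens_apply]

theorem tpow_map (p : ℕ) (f : R →+* S) (x : Matrix (Fin N) (Fin N) R) :
    (tpow p x).map f = tpow p (x.map f) := tens_map f _

theorem tder_eq (p : ℕ) (x : Matrix (Fin N) (Fin N) R) : tder p x = ∑ k, tat k x := by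
  ext i j
  simp only [tder, Matrix.of_apply, Matrix.sum_apply]
  refine Finset.sum_congr rfl fun k _ => ?_
  rw [tat, tens_apply, ← Finset.mul_prod_erase Finset.univ _ (Finset.mem_univ k),
    Function.update_self]
  congr 1
  refine Finset.prod_congr rfl fun l hl => ?_
  rw [Function.update_of_ne (Finset.ne_of_mem_erase hl)]

theorem tder_map (p : ℕ) (f : R →+* S) (x : Matrix (Fin N) (Fin N) R) :
    (tder p x).map f = tder p (x.map f) := by
  ext i j
  simp only [tder, Matrix.map_apply, Matrix.of_apply, map_sum, map_mul, map_prod]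
  refine Finset.sum_congr rfl fun k _ => ?_
  congr 1
  refine Finset.prod_congr rfl fun l _ => ?_
  rw [Matrix.one_apply, Matrix.one_apply]
  split_ifs <;> simp

theorem update_mul {p : ℕ} (k : Fin p) (x y : Matrix (Fin N) (Fin N) R)
    (f g : Fin p → Matrix (Fin N) (Fin N) R) :
    (fun l => Function.update f k x l * Function.update g k y l) =
      Function.update (fun l => f l * g l) k (x * y) := by
  funext l
  by_cases h : l = k
  · subst h
    simp
  · simp [Function.update_of_ne h]

theorem tat_mul {p : ℕ} (k : Fin p) (x y : Matrix (Fin N) (Fin N) R) :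
    tat k x * tat k y = tat k (x * y) := by
  rw [tat, tat, tens_mul, update_mul, tat]
  simp

theorem tat_comm {p : ℕ} {k l : Fin p} (h : k ≠ l) (x y : Matrix (Fin N) (Fin N) R) :
    tat k x * tat l y = tat l y * tat k x := by
  rw [tat, tat, tens_mul, tens_mul]
  congr 1
  funext j
  by_cases h1 : j = k
  · subst h1
    simp [Function.update_of_ne h]
  · simp [Function.update_of_ne h1]

theorem tens_update_add {p : ℕ} (f : Fin p → Matrix (Fin N) (Fin N) R) (k : Fin p)
    (x y : Matrix (Fin N) (Fin N) R) :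
    tens (Function.update f k (x + y)) =
      tens (Function.update f k x) + tens (Function.update f k y) := by
  ext i j
  rw [Matrix.add_apply, tens_apply, tens_apply, tens_apply,
    ← Finset.mul_prod_erase Finset.univ _ (Finset.mem_univ k),
    ← Finset.mul_prod_erase Finset.univ _ (Finset.mem_univ k),
    ← Finset.mul_prod_erase Finset.univ _ (Finset.mem_univ k)]
  have h : ∀ z : Matrix (Fin N) (Fin N) R, ∏ l ∈ Finset.univ.erase k,
      Function.update f k z l (i l) (j l) = ∏ l ∈ Finset.univ.erase k, f l (i l) (j l) := by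
    intro z
    refine Finset.prod_congr rfl fun l hl => ?_
    rw [Function.update_of_ne (Finset.ne_of_mem_erase hl)]
  rw [h, h, h, Function.update_self, Function.update_self, Function.update_self, Matrix.add_apply,
    add_mul]

theorem tens_update_smul {p : ℕ} (f : Fin p → Matrix (Fin N) (Fin N) R) (k : Fin p) (r : R)
    (x : Matrix (Fin N) (Fin N) R) :
    tens (Function.update f k (r • x)) = r • tens (Function.update f k x) := by
  ext i j
  rw [Matrix.smul_apply, tens_apply, tens_apply,
    ← Finset.mul_prod_erase Finset.univ _ (Finset.mem_univ k),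
    ← Finset.mul_prod_erase Finset.univ _ (Finset.mem_univ k)]
  have h : ∀ z : Matrix (Fin N) (Fin N) R, ∏ l ∈ Finset.univ.erase k,
      Function.update f k z l (i l) (j l) = ∏ l ∈ Finset.univ.erase k, f l (i l) (j l) := by
    intro z
    refine Finset.prod_congr rfl fun l hl => ?_
    rw [Function.update_of_ne (Finset.ne_of_mem_erase hl)]
  rw [h, h, Function.update_self, Function.update_self, Matrix.smul_apply, smul_eq_mul,
    smul_eq_mul, mul_assoc]

theorem tat_add {p : ℕ} (k : Fin p) (x y : Matrix (Fin N) (Fin N) R) :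
    tat k (x + y) = tat k x + tat k y := tens_update_add _ k x y

theorem tat_smul {p : ℕ} (k : Fin p) (r : R) (x : Matrix (Fin N) (Fin N) R) :
    tat k (r • x) = r • tat k x := tens_update_smul _ k r x

theorem tder_add (p : ℕ) (x y : Matrix (Fin N) (Fin N) R) :
    tder p (x + y) = tder p x + tder p y := by
  rw [tder_eq, tder_eq, tder_eq, ← Finset.sum_add_distrib]
  exact Finset.sum_congr rfl fun k _ => tat_add k x y

theorem tder_smul (p : ℕ) (r : R) (x : Matrix (Fin N) (Fin N) R) :
    tder p (r • x) = r • tder p x := by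
  rw [tder_eq, tder_eq, Finset.smul_sum]
  exact Finset.sum_congr rfl fun k _ => tat_smul k r x

/-- The derivation as a linear map. -/
def tderL (p : ℕ) (R : Type) [CommRing R] (N : ℕ) :
    Matrix (Fin N) (Fin N) R →ₗ[R] Matrix (Fin p → Fin N) (Fin p → Fin N) R where
  toFun := tder p
  map_add' := tder_add p
  map_smul' := tder_smul p

theorem tder_neg (p : ℕ) (x : Matrix (Fin N) (Fin N) R) : tder p (-x) = -tder p x :=
  map_neg (tderL p R N) x

theorem tder_sub (p : ℕ) (x y : Matrix (Fin N) (Fin N) R) :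
    tder p (x - y) = tder p x - tder p y := map_sub (tderL p R N) x y

theorem tder_sum {ι : Type*} (p : ℕ) (s : Finset ι) (x : ι → Matrix (Fin N) (Fin N) R) :
    tder p (∑ i ∈ s, x i) = ∑ i ∈ s, tder p (x i) := map_sum (tderL p R N) x s

theorem tder_zero (p : ℕ) : tder p (0 : Matrix (Fin N) (Fin N) R) = 0 := map_zero (tderL p R N)

theorem tder_lie (p : ℕ) (x y : Matrix (Fin N) (Fin N) R) :
    tder p (x * y - y * x) = tder p x * tder p y - tder p y * tder p x := by
  have h1 : ∀ z w : Matrix (Fin N) (Fin N) R, tder p z * tder p w =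
      ∑ k, tat k (z * w) + ∑ k, ∑ l ∈ Finset.univ.erase k, tat k z * tat l w := by
    intro z w
    rw [tder_eq, tder_eq, Finset.sum_mul, ← Finset.sum_add_distrib]
    refine Finset.sum_congr rfl fun k _ => ?_
    rw [Finset.mul_sum, ← Finset.add_sum_erase Finset.univ _ (Finset.mem_univ k), tat_mul]
  have h2 : ∑ k : Fin p, ∑ l ∈ Finset.univ.erase k, tat k x * tat l y =
      ∑ k : Fin p, ∑ l ∈ Finset.univ.erase k, tat k y * tat l x := by
    rw [Finset.sum_sigma', Finset.sum_sigma']
    refine Finset.sum_bij' (fun a _ => ⟨a.2, a.1⟩) (fun a _ => ⟨a.2, a.1⟩) ?_ ?_ ?_ ?_ ?_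
    · rintro ⟨k, l⟩ h
      simp only [Finset.mem_sigma, Finset.mem_univ, true_and, Finset.mem_erase, and_true] at h ⊢
      exact fun h' => h h'.symm
    · rintro ⟨k, l⟩ h
      simp only [Finset.mem_sigma, Finset.mem_univ, true_and, Finset.mem_erase, and_true] at h ⊢
      exact fun h' => h h'.symm
    · rintro ⟨k, l⟩ _; rfl
    · rintro ⟨k, l⟩ _; rfl
    · rintro ⟨k, l⟩ h
      simp only [Finset.mem_sigma, Finset.mem_univ, true_and, Finset.mem_erase, and_true] at h
      exact tat_comm (fun h' => h h'.symm) x y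
  rw [h1, h1, h2, tder_sub, tder_eq, tder_eq]
  abel

/-- `x^{⊗p}` normalizes the derivations -/
theorem tpow_tder (p : ℕ) {g gi : Matrix (Fin N) (Fin N) R} (h : g * gi = 1)
    (x : Matrix (Fin N) (Fin N) R) :
    tpow p g * tder p x * tpow p gi = tder p (g * x * gi) := by
  rw [tder_eq, tder_eq, Finset.mul_sum, Finset.sum_mul]
  refine Finset.sum_congr rfl fun k _ => ?_
  rw [tat, tat, tpow_eq, tpow_eq, tens_mul, tens_mul]
  congr 1
  funext l
  by_cases hl : l = k
  · subst hl
    simp
  · simp [Function.update_of_ne hl, h]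

end Ten

end Vale.Agent.P286.R2.H505
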