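import Vale.Agent.P286.R2.H505.Eps
import Vale.Agent.P286.H527.Test

/-!
# Split test objects over the points of the locus `θ = 0`
-/

namespace Vale.Agent.P286.R2.H505

open CategoryTheory LaurentPolynomial

noncomputable section

variable {Γ : TG} {Z : Cen Γ}

theorem theta_bc {A B : Type} [CommRing A] [CommRing B] [RatAlg A] [RatAlg B] (f : A →+* B)
    {g : Γ.Gr A[T;T⁻¹]} {S : (Module.End A (Jd Γ.d →₀ A))ˣ}
    (h : IsFraming Z.m g S) : theta Z.m (gm Γ (lmap f) g) (bcU Γ f S) = f (theta Z.m g S) := by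
  have h1 := fdet_bc f (theta_finRank h)
  rw [bc_mul, bc_toep] at h1
  exact h1

theorem mp_mp' {A B D : Type} [CommRing A] [CommRing B] [CommRing D] {n : ℕ} (f : A →+* B)
    (g : B →+* D) (X : Matrix (Fin n) (Fin n) A[T;T⁻¹]) : mp g (mp f X) = mp (g.comp f) X := by
  ext1 i j
  exact lmap_lmap f g _

theorem split_localize {D : Type} [CommRing D] [Algebra ℂ D] (h₂ h₁ : D)
    (M : Matrix (Fin Γ.d) (Fin Γ.d) D[T;T⁻¹]) (lam : Fin Γ.d → ℤ) (Q : Finset ℚ)
    (hd : SDat Γ (mp (algebraMap D (Localization.Away h₂)) M) lam Q)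
    (B : Type) [CommRing B] [Algebra D B] [IsLocalization.Away (h₂ * h₁) B] :
    SDat Γ (mp (algebraMap D B) M) lam Q := by
  have hu : IsUnit (algebraMap D B h₂) := by
    have h1 : IsUnit (algebraMap D B (h₂ * h₁)) :=
      IsLocalization.Away.algebraMap_isUnit (h₂ * h₁)
    rw [map_mul] at h1
    exact isUnit_of_mul_isUnit_left h1
  have hκ : (IsLocalization.Away.lift h₂ hu : Localization.Away h₂ →+* B).comp
      (algebraMap D (Localization.Away h₂)) = algebraMap D B :=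
    IsLocalization.Away.lift_comp h₂ hu
  have h3 := hd.map (IsLocalization.Away.lift h₂ hu : Localization.Away h₂ →+* B)
  rw [mp_mp', hκ] at h3
  exact h3

theorem exists_test_aux (X : BunObj Γ Z) (p : Ideal X.A.R) (B : Type) [CommRing B] [Algebra ℂ B]
    [Algebra.Smooth ℂ B] [IsDomain B] [Algebra (X.A.R ⧸ p) B] (f : X.A.R →ₐ[ℂ] B)
    (hf : ∀ a, f a = algebraMap (X.A.R ⧸ p) B (Ideal.Quotient.mk p a))
    (h : X.A.R) [IsLocalization.Away (Ideal.Quotient.mk p h) B] (lam : Fin Γ.d → ℤ)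
    (Q : Finset ℚ)
    (hd : SDat Γ (mp (algebraMap (X.A.R ⧸ p) B)
      (AdZ Z.m (gm Γ (lmap (Ideal.Quotient.mk p)) X.g))) lam Q) :
    ∃ (Y : BunObj Γ Z) (ρ : X ⟶ Y), IsDomain Y.A.R ∧ SDat Γ (AdZ Z.m Y.g) lam Q ∧
      (letI : Module X.A.R Y.A.R := Module.compHom Y.A.R ((Bun Γ Z).res ρ).toRingHom
       ∃ u : (X.A.R ⧸ p) →ₗ[X.A.R] Y.A.R, IsLocalizedModule (Submonoid.powers h) u) := by
  have hf' : (algebraMap (X.A.R ⧸ p) B).comp (Ideal.Quotient.mk p) = (f : X.A.R →+* B) :=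
    RingHom.ext fun a => (hf a).symm
  have hg2 : SDat Γ (AdZ Z.m (gm Γ (lmap (f : X.A.R →+* B)) X.g)) lam Q := by
    rw [AdZ_map, mp_mp', hf'] at hd
    rw [AdZ_map]
    exact hd
  refine ⟨X.pull ⟨B⟩ f, X.pullHom ⟨B⟩ f, ‹IsDomain B›, hg2, ?_⟩
  let : Module X.A.R B := Module.compHom B f.toRingHom
  have hB : ∀ (a : X.A.R) (x : B), a • x =
      algebraMap (X.A.R ⧸ p) B (Ideal.Quotient.mk p a) * x := fun a x => by
    rw [← hf]
    rfl
  have hD : ∀ (a : X.A.R) (x : X.A.R ⧸ p), a • x = Ideal.Quotient.mk p a * x :=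
    fun a x => Algebra.smul_def a x
  let u : (X.A.R ⧸ p) →ₗ[X.A.R] B :=
    { toFun := algebraMap (X.A.R ⧸ p) B
      map_add' := map_add _
      map_smul' := fun a x => by
        rw [hD, map_mul, RingHom.id_apply]
        exact (hB a _).symm }
  exact ⟨u, isLocalizedModule_of_isLocalization (Ideal.Quotient.mk p) h hD hB u fun _ => rfl⟩

theorem exists_test (hK : Γ.kill.det ≠ 0) (X : BunObj Γ Z) (p : Ideal X.A.R) [hp : p.IsPrime]
    (hθ : X.th ∈ p) :
    ∃ h : X.A.R, h ∉ p ∧ ∃ (lam : Fin Γ.d → ℤ) (Q : Finset ℚ), (∃ i, lam i ≠ 0) ∧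
      ∑ i, lam i = 0 ∧
      ∃ (Y : BunObj Γ Z) (ρ : X ⟶ Y), IsDomain Y.A.R ∧ SDat Γ (AdZ Z.m Y.g) lam Q ∧
      (letI : Module X.A.R Y.A.R := Module.compHom Y.A.R ((Bun Γ Z).res ρ).toRingHom
       ∃ u : (X.A.R ⧸ p) →ₗ[X.A.R] Y.A.R, IsLocalizedModule (Submonoid.powers h) u) := by
  have hfr : IsFraming Z.m (gm Γ (lmap (Ideal.Quotient.mk p)) X.g)
      (bcU Γ (Ideal.Quotient.mk p) X.S) := X.framing.bc _
  have htw : Tw Z (gm Γ (lmap (Ideal.Quotient.mk p)) X.g) := Tw.map X.twist _ fun _ => rfl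
  have hθD : theta Z.m (gm Γ (lmap (Ideal.Quotient.mk p)) X.g)
      (bcU Γ (Ideal.Quotient.mk p) X.S) = 0 := by
    rw [theta_bc _ X.framing]
    exact Ideal.Quotient.eq_zero_iff_mem.2 hθ
  obtain ⟨h₂, hh₂, lam, Q, hlam, hsum, hd⟩ := generic_split hK
    (gm Γ (lmap (Ideal.Quotient.mk p)) X.g) htw _ hfr hθD
  have : Algebra.FiniteType ℂ X.A.R := inferInstance
  have : Algebra.FiniteType ℂ (X.A.R ⧸ p) :=
    Algebra.FiniteType.of_surjective (Ideal.Quotient.mkₐ ℂ p) (Ideal.Quotient.mkₐ_surjective ℂ p)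
  obtain ⟨h₁, hne, hsm⟩ := exists_smooth_loc h₂ hh₂
  have hd' := split_localize h₂ h₁ _ lam Q hd (Localization.Away (h₂ * h₁))
  obtain ⟨h, hh⟩ := Ideal.Quotient.mk_surjective (h₂ * h₁)
  have hdom : IsDomain (Localization.Away (h₂ * h₁)) :=
    IsLocalization.isDomain_localization (powers_le_nonZeroDivisors_of_noZeroDivisors hne)
  refine ⟨h, ?_, lam, Q, hlam, hsum, ?_⟩
  · intro hhp
    apply hne
    rw [← hh]
    exact Ideal.Quotient.eq_zero_iff_mem.2 hhp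
  · have : IsLocalization.Away (Ideal.Quotient.mk p h) (Localization.Away (h₂ * h₁)) := by
      rw [hh]
      infer_instance
    exact exists_test_aux X p (Localization.Away (h₂ * h₁))
      ((IsScalarTower.toAlgHom ℂ (X.A.R ⧸ p) (Localization.Away (h₂ * h₁))).comp
        (Ideal.Quotient.mkₐ ℂ p)) (fun _ => rfl) h lam Q hd'

end

end Vale.Agent.P286.R2.H505
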