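import Vale.Agent.P286.R2.H505.Defs
import Vale.Agent.P286.H527.Theta

/-!
# The theta function and the open locus of trivial bundles
-/

namespace Vale.Agent.P286.R2.H505

open CategoryTheory LaurentPolynomial

noncomputable section

variable {Γ : TG} {Z : Cen Γ}

theorem toepPos_val {A : Type} [CommRing A] [RatAlg A] (a : Γ.Gr (Polynomial A)) :
    (toepPos Γ Z.m A a : Module.End A (Jd Γ.d →₀ A)) = toep Z.m (pos Γ Z.m A a) := rfl

theorem toepNeg_val {A : Type} [CommRing A] [RatAlg A] (a : Γ.Gr (Polynomial A)) :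
    (toepNeg Γ Z.m A a : Module.End A (Jd Γ.d →₀ A)) = toep Z.m (neg Γ Z.m A a) := rfl

/-- `θ(g, S) = fdet (toep g * S⁻¹)` -/
def theta (m : ℕ) [NeZero m] {A : Type} [CommRing A] (g : Γ.Gr A[T;T⁻¹])
    (S : (Module.End A (Jd Γ.d →₀ A))ˣ) : A :=
  fdet (toep m g * ((S⁻¹ : (Module.End A (Jd Γ.d →₀ A))ˣ) : Module.End A (Jd Γ.d →₀ A)))

theorem theta_finRank {A : Type} [CommRing A] [RatAlg A] {g : Γ.Gr A[T;T⁻¹]}
    {S : (Module.End A (Jd Γ.d →₀ A))ˣ} (h : IsFraming Z.m g S) :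
    FinRank (toep Z.m g * ((S⁻¹ : (Module.End A (Jd Γ.d →₀ A))ˣ) : Module.End A (Jd Γ.d →₀ A)) - 1) := by
  have e : toep Z.m g * ((S⁻¹ : (Module.End A (Jd Γ.d →₀ A))ˣ) : Module.End A (Jd Γ.d →₀ A)) - 1 =
      (-((S : Module.End A (Jd Γ.d →₀ A)) - toep Z.m g)) *
        ((S⁻¹ : (Module.End A (Jd Γ.d →₀ A))ˣ) : Module.End A (Jd Γ.d →₀ A)) := by
    have := Units.mul_inv S
    exact ring_aux₄ (toep Z.m g) (S : Module.End A (Jd Γ.d →₀ A)) _ this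
  rw [e]
  exact h.neg.mul_right _

theorem theta_transport {A B : Type} [CommRing A] [CommRing B] [RatAlg A] [RatAlg B] (f : A →+* B)
    {a b : Γ.Gr (Polynomial B)} {g : Γ.Gr A[T;T⁻¹]} {g' : Γ.Gr B[T;T⁻¹]}
    (e : g' * neg Γ Z.m B b = pos Γ Z.m B a * gm Γ (lmap f) g)
    {S : (Module.End A (Jd Γ.d →₀ A))ˣ} {S' : (Module.End B (Jd Γ.d →₀ B))ˣ}
    (h : IsFraming Z.m g S) (h' : IsFraming Z.m g' S') :
    theta Z.m g' S' = fdet ((transport Z.m f a b S * S'⁻¹ : (Module.End B (Jd Γ.d →₀ B))ˣ) :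
      Module.End B (Jd Γ.d →₀ B)) * f (theta Z.m g S) := by
  have e1 : g' = pos Γ Z.m B a * (gm Γ (lmap f) g * neg Γ Z.m B b⁻¹) := by
    rw [← mul_assoc, ← e, mul_assoc, ← map_mul, mul_inv_cancel, map_one, mul_one]
  have e2 : toep Z.m g' * ((S'⁻¹ : (Module.End B (Jd Γ.d →₀ B))ˣ) : Module.End B (Jd Γ.d →₀ B)) =
      ((toepPos Γ Z.m B a : Module.End B (Jd Γ.d →₀ B)) *
        bc f (toep Z.m g * ((S⁻¹ : (Module.End A (Jd Γ.d →₀ A))ˣ) : Module.End A (Jd Γ.d →₀ A))) *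
        (((toepPos Γ Z.m B a)⁻¹ : (Module.End B (Jd Γ.d →₀ B))ˣ) : Module.End B (Jd Γ.d →₀ B))) *
      ((transport Z.m f a b S * S'⁻¹ : (Module.End B (Jd Γ.d →₀ B))ˣ) : Module.End B (Jd Γ.d →₀ B)) := by
    rw [e1, toep_pos_mul, toep_mul_neg, ← bc_toep, bc_mul]
    have h1 : bc f ((S⁻¹ : (Module.End A (Jd Γ.d →₀ A))ˣ) : Module.End A (Jd Γ.d →₀ A)) *
        bc f (S : Module.End A (Jd Γ.d →₀ A)) = 1 := by
      rw [← bc_mul, Units.inv_mul, bc_one]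
    have h3 : ((transport Z.m f a b S * S'⁻¹ : (Module.End B (Jd Γ.d →₀ B))ˣ) :
        Module.End B (Jd Γ.d →₀ B)) = toep Z.m (pos Γ Z.m B a) * bc f (S : Module.End A (Jd Γ.d →₀ A)) *
          toep Z.m (neg Γ Z.m B b⁻¹) * ((S'⁻¹ : (Module.End B (Jd Γ.d →₀ B))ˣ) :
            Module.End B (Jd Γ.d →₀ B)) := by
      rw [transport, ← map_inv]
      rfl
    rw [h3]
    exact ring_aux₅ (toep Z.m (pos Γ Z.m B a)) _ (toep Z.m (neg Γ Z.m B b⁻¹)) (bc f (toep Z.m g))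
      (bc f (S : Module.End A (Jd Γ.d →₀ A))) _ _ (Units.inv_mul (toepPos Γ Z.m B a)) h1
  have hb := FinRank.bc_sub_one f (theta_finRank h)
  have hc : FinRank (((toepPos Γ Z.m B a : Module.End B (Jd Γ.d →₀ B)) *
        bc f (toep Z.m g * ((S⁻¹ : (Module.End A (Jd Γ.d →₀ A))ˣ) : Module.End A (Jd Γ.d →₀ A))) *
        (((toepPos Γ Z.m B a)⁻¹ : (Module.End B (Jd Γ.d →₀ B))ˣ) : Module.End B (Jd Γ.d →₀ B))) - 1) := by
    rw [ring_aux₃ (toepPos Γ Z.m B a : Module.End B (Jd Γ.d →₀ B))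
        (((toepPos Γ Z.m B a)⁻¹ : (Module.End B (Jd Γ.d →₀ B))ˣ) : Module.End B (Jd Γ.d →₀ B))
        (bc f (toep Z.m g * ((S⁻¹ : (Module.End A (Jd Γ.d →₀ A))ˣ) : Module.End A (Jd Γ.d →₀ A))))
        (Units.mul_inv (toepPos Γ Z.m B a))]
    exact (hb.mul_left _).mul_right _
  unfold theta
  rw [e2, fdet_mul hc ((h.transport f e).div h'), fdet_conj _ hb, fdet_bc f (theta_finRank h),
    mul_comm]

namespace BunObj

/-- the theta function of a test object -/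
def th (X : BunObj Γ Z) : X.A.R := theta Z.m X.g X.S

theorem th_map {X Y : BunObj Γ Z} (φ : BunHom X Y) :
    Y.th = (φ.dl : Y.A.R) * φ.f X.th :=
  theta_transport (φ.f : X.A.R →+* Y.A.R) φ.eq X.framing Y.framing

end BunObj

end

end Vale.Agent.P286.R2.H505
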