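import Vale.Agent.P286.R2.H505.Hom

/-!
# Toeplitz operators on Laurent vectors
-/

namespace Vale.Agent.P286.R2.H505

open LaurentPolynomial Matrix

noncomputable section

variable {d : ℕ} {A B : Type} [CommRing A] [CommRing B]

/-- All entries have exponents at most `k`. -/
def VLE (k : ℤ) (v : Fin d → A[T;T⁻¹]) : Prop := ∀ i, LE k (v i)

/-- All entries have exponents at least `k`. -/
def VGE (k : ℤ) (v : Fin d → A[T;T⁻¹]) : Prop := ∀ i, GE k (v i)

/-- The isomorphism of free modules `Jd d →₀ A ≃ A[z⁻¹]^d`, followed by the inclusion into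
`A[z,z⁻¹]^d`. -/
def toVec (d : ℕ) (A : Type) [CommRing A] : (Jd d →₀ A) →ₗ[A] (Fin d → A[T;T⁻¹]) :=
  Finsupp.linearCombination A fun i : Jd d => Pi.single i.2 (T (-(i.1 : ℤ)))

theorem vpartFun_apply (d : ℕ) (A : Type) [CommRing A] (v : Fin d → A[T;T⁻¹]) (i : Jd d) :
    vpartFun d A v i = (v i.2).coeff (-(i.1 : ℤ)) := by
  classical
  obtain ⟨l, p⟩ := i
  have key : ∀ p' : Fin d, (((v p').coeff.comapDomain (fun l : ℕ => -(l : ℤ))
      (fun x _ y _ h => by simpa using h)).mapDomain (fun l : ℕ => ((l, p') : Jd d))) (l, p)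
      = if p' = p then (v p).coeff (-(l : ℤ)) else 0 := by
    intro p'
    split_ifs with h
    · subst h
      rw [Finsupp.mapDomain_apply (fun a b h => by simpa using h)]
      rfl
    · apply Finsupp.mapDomain_of_notMem_range
      rintro ⟨l', h'⟩
      simp only [Prod.mk.injEq] at h'
      exact h h'.2
  simp only [vpartFun, Finsupp.coe_finsetSum, Finset.sum_apply, key]
  rw [Finset.sum_eq_single p]
  · simp
  · intro b _ hb; simp [hb]
  · simp

/-- The part of nonpositive degree of a Laurent vector, as an element of `A[z⁻¹]^d`. -/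
def vpart (d : ℕ) (A : Type) [CommRing A] : (Fin d → A[T;T⁻¹]) →ₗ[A] (Jd d →₀ A) where
  toFun := vpartFun d A
  map_add' M N := by ext i; simp [vpartFun_apply]
  map_smul' a M := by ext i; simp [vpartFun_apply]

theorem vpart_apply {d : ℕ} (v : Fin d → A[T;T⁻¹]) (i : Jd d) :
    vpart d A v i = (v i.2).coeff (-(i.1 : ℤ)) := vpartFun_apply d A v i

theorem vtoep_eq {d : ℕ} (M : Matrix (Fin d) (Fin d) A[T;T⁻¹]) : vtoep M =
    (vpart d A).comp ((M.mulVecLin.restrictScalars A).comp (toVec d A)) := by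
  apply Finsupp.lhom_ext'
  intro i
  apply LinearMap.ext_ring
  change vtoep M (Finsupp.single i 1) = vpart d A (M.mulVec (toVec d A (Finsupp.single i 1)))
  rw [vtoep, Finsupp.linearCombination_single, one_smul, toVec, Finsupp.linearCombination_single,
    one_smul]
  change vpartFun d A _ = vpartFun d A _
  congr 1
  funext p
  rw [Matrix.mulVec_single]
  rfl

theorem toVec_apply (x : Jd d →₀ A) (p : Fin d) :
    toVec d A x p = x.sum fun i a => if i.2 = p then LaurentPolynomial.C a * T (-(i.1 : ℤ)) else 0 := by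
  rw [toVec, Finsupp.linearCombination_apply, Finsupp.sum, Finsupp.sum, Finset.sum_apply]
  refine Finset.sum_congr rfl fun i _ => ?_
  rw [Pi.smul_apply, Pi.single_apply]
  by_cases h : p = i.2
  · rw [if_pos h, if_pos h.symm, LaurentPolynomial.smul_eq_C_mul]
  · rw [if_neg h, if_neg (Ne.symm h), smul_zero]

theorem toVec_coeff (x : Jd d →₀ A) (p : Fin d) (l : ℕ) :
    (toVec d A x p).coeff (-(l : ℤ)) = x (l, p) := by
  classical
  rw [toVec_apply, Finsupp.sum, AddMonoidAlgebra.coeff_sum, Finsupp.finsetSum_apply]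
  rw [Finset.sum_eq_single (l, p)]
  · simp [← single_eq_C_mul_T]
  · rintro ⟨l', p'⟩ _ hne
    simp only
    split_ifs with h
    · subst h
      have : l' ≠ l := fun h => hne (by rw [h])
      rw [← single_eq_C_mul_T, AddMonoidAlgebra.coeff_single, Finsupp.single_apply, if_neg (by omega)]
    · simp
  · intro h
    rw [Finsupp.notMem_support_iff.mp h]
    simp

theorem toVec_LE (x : Jd d →₀ A) : VLE 0 (toVec d A x) := by
  classical
  intro p m hm
  rw [toVec_apply, Finsupp.sum, AddMonoidAlgebra.coeff_sum, Finsupp.finsetSum_apply]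
  refine Finset.sum_eq_zero fun i _ => ?_
  split_ifs with h
  · rw [← single_eq_C_mul_T, AddMonoidAlgebra.coeff_single, Finsupp.single_apply, if_neg (by omega)]
  · simp

theorem vpart_toVec (x : Jd d →₀ A) : vpart d A (toVec d A x) = x := by
  ext ⟨l, p⟩
  rw [vpart_apply, toVec_coeff]

theorem toVec_vpart {v : Fin d → A[T;T⁻¹]} (h : VLE 0 v) :
    toVec d A (vpart d A v) = v := by
  funext p
  ext m
  rcases lt_or_ge 0 m with hm | hm
  · rw [toVec_LE _ p m hm, h p m hm]
  · obtain ⟨l, rfl⟩ : ∃ l : ℕ, m = -(l : ℤ) := ⟨m.natAbs, by omega⟩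
    rw [toVec_coeff, vpart_apply]

theorem sub_toVec_vpart (v : Fin d → A[T;T⁻¹]) :
    VGE 1 (v - toVec d A (vpart d A v)) := by
  intro p m hm
  obtain ⟨l, rfl⟩ : ∃ l : ℕ, m = -(l : ℤ) := ⟨m.natAbs, by omega⟩
  rw [Pi.sub_apply, AddMonoidAlgebra.coeff_sub, Finsupp.sub_apply, toVec_coeff, vpart_apply,
    sub_self]

theorem vpart_eq_zero {v : Fin d → A[T;T⁻¹]} (h : VGE 1 v) : vpart d A v = 0 := by
  ext ⟨l, p⟩
  rw [vpart_apply]
  exact h p _ (by omega)

theorem VGE.mulVec {k l : ℤ} {M : Matrix (Fin d) (Fin d) A[T;T⁻¹]} {v : Fin d → A[T;T⁻¹]}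
    (h : MGE k M) (hv : VGE l v) : VGE (k + l) (M *ᵥ v) := by
  intro i
  rw [Matrix.mulVec, dotProduct]
  exact GE.sum _ fun j _ => (h i j).mul (hv j)

theorem VLE.mulVec {k l : ℤ} {M : Matrix (Fin d) (Fin d) A[T;T⁻¹]} {v : Fin d → A[T;T⁻¹]}
    (h : MLE k M) (hv : VLE l v) : VLE (k + l) (M *ᵥ v) := by
  intro i
  rw [Matrix.mulVec, dotProduct]
  exact LE.sum _ fun j _ => (h i j).mul (hv j)

theorem vtoep_apply (M : Matrix (Fin d) (Fin d) A[T;T⁻¹]) (x : Jd d →₀ A) :
    vtoep M x = vpart d A (M *ᵥ toVec d A x) := by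
  rw [vtoep_eq]
  rfl

theorem vtoep_one : vtoep (1 : Matrix (Fin d) (Fin d) A[T;T⁻¹]) = 1 := by
  apply LinearMap.ext
  intro x
  rw [vtoep_apply, Matrix.one_mulVec, vpart_toVec, Module.End.one_apply]

theorem vtoep_pos_mul {a : Matrix (Fin d) (Fin d) A[T;T⁻¹]} (ha : MGE 0 a)
    (M : Matrix (Fin d) (Fin d) A[T;T⁻¹]) : vtoep (a * M) = vtoep a * vtoep M := by
  apply LinearMap.ext
  intro x
  rw [Module.End.mul_apply, vtoep_apply, vtoep_apply a, vtoep_apply M, ← Matrix.mulVec_mulVec]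
  set v := M *ᵥ toVec d A x with hv
  have e2 : a *ᵥ v = a *ᵥ toVec d A (vpart d A v) + a *ᵥ (v - toVec d A (vpart d A v)) := by
    rw [← Matrix.mulVec_add]
    simp
  have h3 : VGE 1 (a *ᵥ (v - toVec d A (vpart d A v))) := by
    have := VGE.mulVec ha (sub_toVec_vpart v)
    simpa using this
  rw [e2, map_add, vpart_eq_zero h3, add_zero]

theorem vtoep_mul_neg (M : Matrix (Fin d) (Fin d) A[T;T⁻¹])
    {b : Matrix (Fin d) (Fin d) A[T;T⁻¹]} (hb : MLE 0 b) :
    vtoep (M * b) = vtoep M * vtoep b := by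
  apply LinearMap.ext
  intro x
  rw [Module.End.mul_apply, vtoep_apply, vtoep_apply M, vtoep_apply b]
  have h3 : VLE 0 (b *ᵥ toVec d A x) := by
    have := VLE.mulVec hb (toVec_LE x)
    simpa using this
  rw [toVec_vpart h3, Matrix.mulVec_mulVec]

theorem toVec_single (i : Jd d) :
    toVec d A (Finsupp.single i 1) = Pi.single i.2 (T (-(i.1 : ℤ))) := by
  rw [toVec, Finsupp.linearCombination_single, one_smul]

theorem vpart_map (f : A →+* B) (v : Fin d → A[T;T⁻¹]) :
    vpart d B (fun i => lmap f (v i)) = (vpart d A v).mapRange f (map_zero f) := by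
  ext i
  rw [vpart_apply, Finsupp.mapRange_apply, vpart_apply, lmap,
    AddMonoidAlgebra.coeff_mapRingHom]

theorem bc_vtoep (f : A →+* B) (M : Matrix (Fin d) (Fin d) A[T;T⁻¹]) :
    bc f (vtoep M) = vtoep (mp f M) := by
  refine end_ext_single fun i => ?_
  rw [bc_single, vtoep_apply, vtoep_apply, ← vpart_map, toVec_single, toVec_single]
  congr 1
  funext p
  rw [Matrix.mulVec_single, Matrix.mulVec_single]
  simp only [Pi.smul_apply, Matrix.col_apply, MulOpposite.smul_eq_mul_unop, MulOpposite.unop_op,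
    map_mul]
  change lmap f (M p i.2) * lmap f (T (-(i.1 : ℤ))) = lmap f (M p i.2) * T (-(i.1 : ℤ))
  rw [lmap_T]

theorem vtoep_mulVec_single (M : Matrix (Fin d) (Fin d) A[T;T⁻¹]) (i j : Jd d) :
    vtoep M (Finsupp.single i 1) j = (M j.2 i.2 * T (-(i.1 : ℤ))).coeff (-(j.1 : ℤ)) := by
  rw [vtoep_apply, toVec_single, vpart_apply, Matrix.mulVec_single]
  rfl

end

end Vale.Agent.P286.R2.H505
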